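import Vale.Agent.P370.H405.C3Val

/-!
Problem P370, block C3: closed shells frozen (finite-dimensional form), both directions.
-/

namespace Vale.Agent.P370.H405.C3

open scoped ComplexConjugate
open Vale.Agent.P370.H600 (MSt ip nsq T1 T2 hform)

set_option linter.unusedSectionVars false

noncomputable section

variable {K : Type} [Fintype K] [DecidableEq K] {m n N D : ℕ}

/-- list of the core spin orbitals -/
def clist (K : Type) [Fintype K] (m : ℕ) : List ((K ⊕ Fin m) × Fin 2) :=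
  (Finset.univ : Finset (K × Fin 2)).toList.map fun p => (Sum.inl p.1, p.2)

theorem clist_length : (clist K m).length = 2 * Fintype.card K := by
  unfold clist
  rw [List.length_map, Finset.length_toList, Finset.card_univ, Fintype.card_prod,
    Fintype.card_fin, mul_comm]

theorem clist_nodup : (clist K m).Nodup := by
  unfold clist
  refine List.Nodup.map ?_ (Finset.nodup_toList _)
  rintro ⟨k, t⟩ ⟨k', t'⟩ h
  have h1 := congrArg Prod.fst h
  have h2 := congrArg Prod.snd h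
  exact Prod.ext (Sum.inl_injective h1) h2

theorem mem_clist {l : (K ⊕ Fin m) × Fin 2} : l ∈ clist K m ↔ ∃ k t, l = (Sum.inl k, t) := by
  unfold clist
  rw [List.mem_map]
  constructor
  · rintro ⟨p, -, rfl⟩
    exact ⟨p.1, p.2, rfl⟩
  · rintro ⟨k, t, rfl⟩
    exact ⟨(k, t), by simp, rfl⟩

theorem clist_sum (f : (K ⊕ Fin m) × Fin 2 → ℂ) :
    ((clist K m).map f).sum = ∑ k : K, ∑ t : Fin 2, f (Sum.inl k, t) := by
  unfold clist
  rw [List.map_map, Finset.sum_map_toList, Fintype.sum_prod_type]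
  rfl

/-- effective one-body matrix of the valence electrons -/
def Teff (T : K ⊕ Fin m → K ⊕ Fin m → ℝ)
    (G : K ⊕ Fin m → K ⊕ Fin m → K ⊕ Fin m → K ⊕ Fin m → ℝ) (a b : K ⊕ Fin m) : ℝ :=
  T a b + ∑ k : K, (2 * G a b (Sum.inl k) (Sum.inl k) - G a (Sum.inl k) (Sum.inl k) b)

/-- energy of the closed shells -/
def Ec (T : K ⊕ Fin m → K ⊕ Fin m → ℝ)
    (G : K ⊕ Fin m → K ⊕ Fin m → K ⊕ Fin m → K ⊕ Fin m → ℝ) : ℝ :=
  2 * ∑ k : K, T (Sum.inl k) (Sum.inl k) +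
    ∑ k : K, ∑ l : K, (2 * G (Sum.inl k) (Sum.inl k) (Sum.inl l) (Sum.inl l) -
      G (Sum.inl k) (Sum.inl l) (Sum.inl l) (Sum.inl k))

theorem sum_mf (G : K ⊕ Fin m → K ⊕ Fin m → K ⊕ Fin m → K ⊕ Fin m → ℝ) (k : K)
    (p q : (K ⊕ Fin m) × Fin 2) :
    ∑ t : Fin 2, mf (sp2R G) (Sum.inl k, t) p q = if p.2 = q.2 then
      ((2 * G p.1 q.1 (Sum.inl k) (Sum.inl k) - G p.1 (Sum.inl k) (Sum.inl k) q.1 : ℝ) : ℂ)
      else 0 := by
  unfold mf sp2R
  simp only [and_true]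
  rw [Finset.sum_sub_distrib]
  have e1 : ∑ t : Fin 2, (if p.2 = q.2 then (G p.1 q.1 (Sum.inl k) (Sum.inl k) : ℂ)
      else 0) = if p.2 = q.2 then 2 * (G p.1 q.1 (Sum.inl k) (Sum.inl k) : ℂ) else 0 := by
    rw [Finset.sum_const, Finset.card_univ, Fintype.card_fin]
    split_ifs <;> simp
  have e2 : ∑ t : Fin 2, (if p.2 = t ∧ t = q.2 then (G p.1 (Sum.inl k) (Sum.inl k) q.1 : ℂ)
      else 0) = if p.2 = q.2 then (G p.1 (Sum.inl k) (Sum.inl k) q.1 : ℂ) else 0 := by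
    rw [Finset.sum_eq_single p.2]
    · simp
    · intro t _ ht
      rw [if_neg]
      exact fun h => ht h.1.symm
    · intro h; exact absurd (Finset.mem_univ _) h
  rw [e1, e2]
  split_ifs
  · push_cast; ring
  · simp

theorem teff_core (T : K ⊕ Fin m → K ⊕ Fin m → ℝ)
    (G : K ⊕ Fin m → K ⊕ Fin m → K ⊕ Fin m → K ⊕ Fin m → ℝ) :
    teff (sp2R G) (clist K m) (spR T) = spR (Teff T G) := by
  funext p q
  rw [teff_eq, clist_sum, Finset.sum_congr rfl fun k _ => sum_mf G k p q]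
  unfold spR Teff
  split_ifs
  · push_cast; rfl
  · simp

theorem ecore_core (T : K ⊕ Fin m → K ⊕ Fin m → ℝ)
    {G : K ⊕ Fin m → K ⊕ Fin m → K ⊕ Fin m → K ⊕ Fin m → ℝ}
    (hG : ∀ a b c d, sp2R G a b c d = sp2R G c d a b) :
    ecore (sp2R G) (clist K m) (spR T) = (Ec T G : ℂ) := by
  rw [ecore_eq hG, clist_sum]
  have h1 : (fun k => ((clist K m).map fun l => mf (sp2R G) l k k).sum) = fun k =>
      ∑ l : K, ((2 * G k.1 k.1 (Sum.inl l) (Sum.inl l) - G k.1 (Sum.inl l) (Sum.inl l) k.1 : ℝ)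
        : ℂ) := by
    funext k
    rw [clist_sum, Finset.sum_congr rfl fun l _ => sum_mf G l k k]
    simp
  rw [h1, clist_sum]
  unfold Ec spR
  simp only [if_true, Finset.sum_const, Finset.card_univ, Fintype.card_fin, nsmul_eq_mul]
  push_cast
  rw [← Finset.mul_sum, ← Finset.mul_sum]
  ring

theorem sp2R_symm {G : K ⊕ Fin m → K ⊕ Fin m → K ⊕ Fin m → K ⊕ Fin m → ℝ}
    (hG : ∀ a b c d, G a b c d = G c d a b) (a b c d : (K ⊕ Fin m) × Fin 2) :
    sp2R G a b c d = sp2R G c d a b := by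
  unfold sp2R
  rw [hG]
  simp only [and_comm]

/-- valence block of a one-body matrix -/
def v1 (T : K ⊕ Fin m → K ⊕ Fin m → ℝ) (α β : Fin m) : ℝ := T (Sum.inr α) (Sum.inr β)

/-- valence block of a two-body tensor -/
def v2 (G : K ⊕ Fin m → K ⊕ Fin m → K ⊕ Fin m → K ⊕ Fin m → ℝ) (α β γ δ : Fin m) : ℝ :=
  G (Sum.inr α) (Sum.inr β) (Sum.inr γ) (Sum.inr δ)

theorem form_frz (hD : 2 ≤ D) {c : (Fin (D + (clist K m).length) → (K ⊕ Fin m) × Fin 2) → ℂ}
    (hc : Anti c) (hk : ∀ (k : K) (t : Fin 2), CoreK (Sum.inl k, t) c)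
    (T : K ⊕ Fin m → K ⊕ Fin m → ℝ)
    {G : K ⊕ Fin m → K ⊕ Fin m → K ⊕ Fin m → K ⊕ Fin m → ℝ}
    (hG : ∀ a b c d, G a b c d = G c d a b) :
    (F1 (spR T) c + F2 (sp2R G) c).re = Ec T G * (inn c c).re +
      hform (v1 (Teff T G)) (v2 G) (toR (frz (clist K m) c)) +
      hform (v1 (Teff T G)) (v2 G) (toI (frz (clist K m) c)) := by
  have hk' : ∀ l ∈ clist K m, CoreK l c := by
    intro l hl
    obtain ⟨k, t, rfl⟩ := mem_clist.1 hl
    exact hk k t
  have hnc : NoCore (frz (clist K m) c) := fun k t =>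
    frz_free' _ hc _ (mem_clist.2 ⟨k, t, rfl⟩)
  rw [frz_form (sp2R_symm hG) hD (clist K m) (spR T) clist_nodup hc hk', teff_core,
    ecore_core T (sp2R_symm hG), Complex.add_re, Complex.add_re, Complex.re_ofReal_mul,
    F1_vt _ hnc, F2_vt hG hnc]
  unfold hform v1 v2
  ring

/-- **C3, down**: a tensor with filled closed shells gives two real valence tensors. -/
theorem down (hN : N = D + 2 * Fintype.card K) (hD : 2 ≤ D)
    {c : (Fin N → (K ⊕ Fin m) × Fin 2) → ℂ} (hc : Anti c)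
    (hk : ∀ (k : K) (t : Fin 2), CoreK (Sum.inl k, t) c) :
    ∃ ψ χ : MSt D m, Vale.Agent.P370.H600.Anti ψ ∧ Vale.Agent.P370.H600.Anti χ ∧
      inn c c = ((nsq ψ + nsq χ : ℝ) : ℂ) ∧
      ∀ (T : K ⊕ Fin m → K ⊕ Fin m → ℝ)
        (G : K ⊕ Fin m → K ⊕ Fin m → K ⊕ Fin m → K ⊕ Fin m → ℝ),
        (∀ a b c d, G a b c d = G c d a b) →
        (F1 (spR T) c + F2 (sp2R G) c).re = Ec T G * (nsq ψ + nsq χ) +
          hform (v1 (Teff T G)) (v2 G) ψ + hform (v1 (Teff T G)) (v2 G) χ := by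
  obtain rfl : N = D + (clist K m).length := by rw [clist_length]; exact hN
  have hk' : ∀ l ∈ clist K m, CoreK l c := by
    intro l hl
    obtain ⟨k, t, rfl⟩ := mem_clist.1 hl
    exact hk k t
  have hnc : NoCore (frz (clist K m) c) := fun k t =>
    frz_free' _ hc _ (mem_clist.2 ⟨k, t, rfl⟩)
  have h1 : inn c c = ((nsq (toR (frz (clist K m) c)) + nsq (toI (frz (clist K m) c)) : ℝ)
      : ℂ) := by
    rw [← frz_inn (clist K m) clist_nodup hc hc hk', inn_vt hnc]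
  refine ⟨toR (frz (clist K m) c), toI (frz (clist K m) c), toR_anti (frz_anti _ hc),
    toI_anti (frz_anti _ hc), h1, fun T G hG => ?_⟩
  rw [form_frz hD hc hk T hG, h1, Complex.ofReal_re]

/-- **C3, up**: a real valence tensor gives a tensor with filled closed shells. -/
theorem up (hN : N = D + 2 * Fintype.card K) (hD : 2 ≤ D) {ψ : MSt D m}
    (hψ : Vale.Agent.P370.H600.Anti ψ) :
    ∃ c : (Fin N → (K ⊕ Fin m) × Fin 2) → ℂ, Anti c ∧
      (∀ (k : K) (t : Fin 2), CoreK (Sum.inl k, t) c) ∧ inn c c = ((nsq ψ : ℝ) : ℂ) ∧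
      ∀ (T : K ⊕ Fin m → K ⊕ Fin m → ℝ)
        (G : K ⊕ Fin m → K ⊕ Fin m → K ⊕ Fin m → K ⊕ Fin m → ℝ),
        (∀ a b c d, G a b c d = G c d a b) →
        (F1 (spR T) c + F2 (sp2R G) c).re = Ec T G * nsq ψ +
          hform (v1 (Teff T G)) (v2 G) ψ := by
  obtain rfl : N = D + (clist K m).length := by rw [clist_length]; exact hN
  obtain ⟨c, hc, hk, hf, -⟩ := exists_frz (n := D) (clist K m) (ψ := ofM K ψ) clist_nodup
    (ofM_anti hψ) fun l hl => by
      obtain ⟨k, t, rfl⟩ := mem_clist.1 hl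
      exact ofM_noCore ψ k t
  have h0 : nsq (0 : MSt D m) = 0 := by simp [nsq, ip]
  have h1 : inn c c = ((nsq ψ : ℝ) : ℂ) := by
    rw [← frz_inn (clist K m) clist_nodup hc hc hk, hf, inn_vt (ofM_noCore ψ), toR_ofM, toI_ofM,
      h0, add_zero]
  refine ⟨c, hc, fun k t => hk _ (mem_clist.2 ⟨k, t, rfl⟩), h1, fun T G hG => ?_⟩
  rw [form_frz hD hc (fun k t => hk _ (mem_clist.2 ⟨k, t, rfl⟩)) T hG, h1, Complex.ofReal_re, hf,
    toR_ofM, toI_ofM]
  have h2 : ∀ t g, hform t g (0 : MSt D m) = 0 := by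
    intro t g
    simp [hform, ip]
  rw [h2, add_zero]

end

end Vale.Agent.P370.H405.C3
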