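import Vale.Agent.P370.H405.C3Rep
import Vale.Agent.P370.H405.C3Core
import Vale.Agent.P370.H624.Basis
import Vale.Agent.P363.R.H10.Grad

/-!
Problem P370, block C3: states over an orthonormal family of real `H¹` orbitals.
-/

namespace Vale.Agent.P370.H405.C3

open MeasureTheory Filter Topology
open Vale.Agent.P363.Stmt Vale.Agent.P363.R.Sob Vale.Agent.P363.H382 Vale.Agent.P363.R.Top
open Vale.Agent.P363.H518 (coef memLp_conj integrable_coef)
open Vale.Agent.P363.H95 (tp OneBody Orth AntiT ofTen sum_pair Dc CoulInt velc wForm wForm_ofTen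
  coef_tp integral_tp integrable_tp conj_tp tp_mul coul)
open Vale.Agent.P363.H849 (H1 ip dir bc m1 m2 mW hardyInt)
open Vale.Agent.P363.R.H10 (DD)
open scoped ContDiff ENNReal ComplexConjugate

set_option linter.unusedSectionVars false

noncomputable section

variable {ι : Type} [Fintype ι] [DecidableEq ι] {N n : ℕ}

/-- complex values of a family of real orbitals -/
def cu (φ : ι → H1) (a : ι) (x : R3) : ℂ := ((φ a).1.1 x : ℂ)

/-- complex gradients of a family of real orbitals -/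
def cgu (φ : ι → H1) (a : ι) (k : Fin 3) (x : R3) : ℂ := ((φ a).1.2 k x : ℂ)

theorem isWD_ofReal {v : R3} {f g : R3 → ℝ} (h : IsWD (volume : Measure R3) v f g) :
    IsWD (volume : Measure R3) v (fun x => (f x : ℂ)) (fun x => (g x : ℂ)) := by
  intro φ hφ
  have h1 := h φ hφ
  have e1 : ∫ x, (fderiv ℝ φ x v) • (f x : ℂ) = ((∫ x, (fderiv ℝ φ x v) • f x : ℝ) : ℂ) := by
    rw [← integral_complex_ofReal]
    congr 1; funext x
    simp
  have e2 : ∫ x, φ x • (g x : ℂ) = ((∫ x, φ x • g x : ℝ) : ℂ) := by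
    rw [← integral_complex_ofReal]
    congr 1; funext x
    simp
  rw [e1, e2, h1]
  push_cast
  rfl

theorem oneBody (φ : ι → H1) : OneBody (cu φ) (cgu φ) where
  mem a := (m1 (φ a)).ofReal
  gmem a k := (m2 (φ a) k).ofReal
  wd a k := isWD_ofReal (mW (φ a) k)

theorem coef_ofReal (f g : R3 → ℝ) :
    coef (volume : Measure R3) (fun x => (f x : ℂ)) (fun x => (g x : ℂ)) =
      ((∫ x, f x * g x : ℝ) : ℂ) := by
  unfold coef
  rw [← integral_complex_ofReal]
  congr 1; funext x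
  rw [Complex.conj_ofReal]
  push_cast
  rfl

theorem orth {φ : ι → H1} (h : ∀ a b, ip (φ a) (φ b) = if a = b then 1 else 0) :
    Orth (cu φ) := by
  intro a b
  have h1 : coef (volume : Measure R3) (cu φ a) (cu φ b) = ((ip (φ a) (φ b) : ℝ) : ℂ) :=
    coef_ofReal _ _
  rw [h1, h]
  split_ifs <;> simp

theorem Kc_eq (φ : ι → H1) (a b : ι) : Kc (cgu φ) a b = ((dir (φ a) (φ b) : ℝ) : ℂ) := by
  unfold Kc
  rw [Vale.Agent.P363.H849.dir_apply, Complex.ofReal_sum]
  exact Finset.sum_congr rfl fun k _ => coef_ofReal _ _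

/-- matrix element of the potential `v` -/
def vI (v : R3 → ℝ) (f g : H1) : ℝ := ∫ x, v x * (f.1.1 x * g.1.1 x)

theorem Vc_eq (v : R3 → ℝ) (φ : ι → H1) (a b : ι) :
    Vc v (cu φ) a b = ((vI v (φ a) (φ b) : ℝ) : ℂ) := by
  unfold Vc vI
  have h1 : (fun r => (v r : ℂ) * cu φ b r) = fun r => ((v r * (φ b).1.1 r : ℝ) : ℂ) := by
    funext r
    unfold cu
    push_cast
    rfl
  have h2 := coef_ofReal (φ a).1.1 (fun r => v r * (φ b).1.1 r)
  rw [h1]
  refine h2.trans ?_
  congr 1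
  congr 1; funext x; ring

/-! ### Coulomb integrability -/

theorem int_pt (f : H1) (y : R3) : Integrable (fun x => f.1.1 x ^ 2 / ‖x - y‖) ∧
    ∫ x, f.1.1 x ^ 2 / ‖x - y‖ ≤ dir f f + ip f f := by
  have h := coulomb_le (μ := (volume : Measure R3))
    (ContinuousLinearMap.id ℝ R3) y e3 (fun k => rfl) (m1 f) (m2 f) (mW f)
  have e : (fun x : R3 => ‖f.1.1 x‖ ^ 2 / ‖(ContinuousLinearMap.id ℝ R3) x - y‖) =
      fun x => f.1.1 x ^ 2 / ‖x - y‖ := by
    funext x
    simp
  rw [e] at h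
  refine ⟨h.1, ?_⟩
  have h1 := h.2 1 one_pos
  have e1 : ∑ k, ∫ x, ‖f.1.2 k x‖ ^ 2 = dir f f := by
    rw [Vale.Agent.P363.H849.dir_apply]
    refine Finset.sum_congr rfl fun k _ => ?_
    congr 1; funext x
    rw [Real.norm_eq_abs, sq_abs, sq]
  have e2 : ∫ x, ‖f.1.1 x‖ ^ 2 = ip f f := by
    rw [Vale.Agent.P363.H849.ip_apply]
    congr 1; funext x
    rw [Real.norm_eq_abs, sq_abs, sq]
  rw [e1, e2] at h1
  linarith

theorem int_pair (f g : H1) : Integrable (fun z : R3 × R3 =>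
    f.1.1 z.1 ^ 2 * g.1.1 z.2 ^ 2 / ‖z.1 - z.2‖) ((volume : Measure R3).prod volume) := by
  have hm : AEStronglyMeasurable (fun z : R3 × R3 =>
      f.1.1 z.1 ^ 2 * g.1.1 z.2 ^ 2 / ‖z.1 - z.2‖) ((volume : Measure R3).prod volume) := by
    have h1 : AEStronglyMeasurable (fun z : R3 × R3 => f.1.1 z.1)
        ((volume : Measure R3).prod volume) := (m1 f).1.comp_fst
    have h2 : AEStronglyMeasurable (fun z : R3 × R3 => g.1.1 z.2)
        ((volume : Measure R3).prod volume) := (m1 g).1.comp_snd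
    have h3 : Measurable fun z : R3 × R3 => ‖z.1 - z.2‖ :=
      (measurable_fst.sub measurable_snd).norm
    simp only [div_eq_mul_inv]
    exact ((h1.pow 2).mul (h2.pow 2)).mul h3.inv.aestronglyMeasurable
  rw [integrable_prod_iff' hm]
  have e : ∀ x y : R3, f.1.1 x ^ 2 * g.1.1 y ^ 2 / ‖x - y‖ =
      g.1.1 y ^ 2 * (f.1.1 x ^ 2 / ‖x - y‖) := fun x y => by ring
  constructor
  · refine Eventually.of_forall fun y => ?_
    simp only [e]
    exact (int_pt f y).1.const_mul _
  · have hg : Integrable (fun y => (dir f f + ip f f) * g.1.1 y ^ 2) := by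
      have : Integrable (fun y => g.1.1 y * g.1.1 y) := (m1 g).integrable_mul (m1 g)
      refine (this.const_mul (dir f f + ip f f)).congr (Eventually.of_forall fun y => ?_)
      simp only
      ring
    refine hg.mono' ?_ (Eventually.of_forall fun y => ?_)
    · exact (hm.norm.prod_swap).integral_prod_right'
    · have h1 : ∀ x : R3, ‖f.1.1 x ^ 2 * g.1.1 y ^ 2 / ‖x - y‖‖ =
          g.1.1 y ^ 2 * (f.1.1 x ^ 2 / ‖x - y‖) := by
        intro x
        rw [e, Real.norm_of_nonneg (by positivity)]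
      simp only [h1]
      rw [integral_const_mul, Real.norm_of_nonneg]
      · rw [mul_comm]
        exact mul_le_mul_of_nonneg_right (int_pt f y).2 (sq_nonneg _)
      · exact mul_nonneg (sq_nonneg _) (integral_nonneg fun x => by positivity)

theorem int_four (a b c d : H1) : Integrable (fun z : R3 × R3 =>
    a.1.1 z.1 * b.1.1 z.1 * (c.1.1 z.2 * d.1.1 z.2) / ‖z.1 - z.2‖)
    ((volume : Measure R3).prod volume) := by
  have hm : AEStronglyMeasurable (fun z : R3 × R3 =>
      a.1.1 z.1 * b.1.1 z.1 * (c.1.1 z.2 * d.1.1 z.2) / ‖z.1 - z.2‖)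
      ((volume : Measure R3).prod volume) := by
    have h1 : ∀ f : H1, AEStronglyMeasurable (fun z : R3 × R3 => f.1.1 z.1)
        ((volume : Measure R3).prod volume) := fun f => (m1 f).1.comp_fst
    have h2 : ∀ f : H1, AEStronglyMeasurable (fun z : R3 × R3 => f.1.1 z.2)
        ((volume : Measure R3).prod volume) := fun f => (m1 f).1.comp_snd
    have h3 : Measurable fun z : R3 × R3 => ‖z.1 - z.2‖ :=
      (measurable_fst.sub measurable_snd).norm
    simp only [div_eq_mul_inv]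
    exact (((h1 a).mul (h1 b)).mul ((h2 c).mul (h2 d))).mul h3.inv.aestronglyMeasurable
  have hb := (((int_pair a c).add (int_pair a d)).add ((int_pair b c).add (int_pair b d)))
  refine hb.mono' hm (Eventually.of_forall fun z => ?_)
  simp only [Pi.add_apply]
  rw [norm_div, norm_norm, ← add_div, ← add_div, ← add_div]
  refine div_le_div_of_nonneg_right ?_ (norm_nonneg _)
  rw [Real.norm_eq_abs, abs_mul]
  have h1 : |a.1.1 z.1 * b.1.1 z.1| ≤ a.1.1 z.1 ^ 2 + b.1.1 z.1 ^ 2 := by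
    rw [abs_le]
    constructor <;> nlinarith [sq_nonneg (a.1.1 z.1 + b.1.1 z.1), sq_nonneg (a.1.1 z.1 - b.1.1 z.1)]
  have h2 : |c.1.1 z.2 * d.1.1 z.2| ≤ c.1.1 z.2 ^ 2 + d.1.1 z.2 ^ 2 := by
    rw [abs_le]
    constructor <;> nlinarith [sq_nonneg (c.1.1 z.2 + d.1.1 z.2), sq_nonneg (c.1.1 z.2 - d.1.1 z.2)]
  calc |a.1.1 z.1 * b.1.1 z.1| * |c.1.1 z.2 * d.1.1 z.2|
      ≤ (a.1.1 z.1 ^ 2 + b.1.1 z.1 ^ 2) * (c.1.1 z.2 ^ 2 + d.1.1 z.2 ^ 2) :=
        mul_le_mul h1 h2 (abs_nonneg _) (by positivity)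
    _ = _ := by ring

theorem coulInt (φ : ι → H1) : CoulInt (cu φ) := by
  intro a b c d
  have h := (int_four (φ a) (φ b) (φ c) (φ d)).ofReal (𝕜 := ℂ)
  refine h.congr (Eventually.of_forall fun z => ?_)
  change (((φ a).1.1 z.1 * (φ b).1.1 z.1 * ((φ c).1.1 z.2 * (φ d).1.1 z.2) / ‖z.1 - z.2‖ : ℝ)
    : ℂ) = _
  simp only [cu, Complex.conj_ofReal]
  push_cast
  ring

/-- Coulomb integral `(ab|cd)` -/
def gI (a b c d : H1) : ℝ :=
  DD (fun x => a.1.1 x * b.1.1 x) (fun y => c.1.1 y * d.1.1 y)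

theorem Dc_eq (φ : ι → H1) (a b c d : ι) :
    Dc (cu φ) a b c d = ((gI (φ a) (φ b) (φ c) (φ d) : ℝ) : ℂ) := by
  unfold Dc coul gI DD
  have h := integral_prod _ (int_four (φ a) (φ b) (φ c) (φ d))
  have h1 : ∫ x : R3, ∫ y : R3, (φ a).1.1 x * (φ b).1.1 x * ((φ c).1.1 y * (φ d).1.1 y) /
      ‖x - y‖ = ∫ z : R3 × R3, (φ a).1.1 z.1 * (φ b).1.1 z.1 * ((φ c).1.1 z.2 * (φ d).1.1 z.2) /
      ‖z.1 - z.2‖ := h.symm
  rw [h1, ← integral_complex_ofReal]
  congr 1; funext z
  simp only [cu, Complex.conj_ofReal]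
  push_cast
  ring

theorem gI_symm (a b c d : H1) : gI a b c d = gI c d a b := by
  unfold gI DD
  have h := integral_integral_swap (μ := (volume : Measure R3)) (ν := (volume : Measure R3))
    (f := fun x y => a.1.1 x * b.1.1 x * (c.1.1 y * d.1.1 y) / ‖x - y‖) (int_four a b c d)
  refine h.trans ?_
  congr 1; funext y
  congr 1; funext x
  rw [norm_sub_rev]
  ring

theorem gI_swap_left (a b c d : H1) : gI a b c d = gI b a c d := by
  unfold gI
  congr 1; funext x
  ring

theorem gI_swap_right (a b c d : H1) : gI a b c d = gI a b d c := by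
  unfold gI
  congr 1; funext x
  ring

/-- potentials of point charges: `v(x) = - ∑_j c_j / |x - y_j|` -/
def ptV {M : ℕ} (q : Fin M → ℝ) (y : Fin M → R3) (x : R3) : ℝ := ∑ j, -(q j / ‖x - y j‖)

theorem int_ptV (f g : H1) (y : R3) :
    Integrable (fun x => f.1.1 x * g.1.1 x / ‖x - y‖) := by
  have h1 := (int_pt f y).1.add (int_pt g y).1
  refine h1.mono' ?_ (Eventually.of_forall fun x => ?_)
  · simp only [div_eq_mul_inv]
    exact ((m1 f).1.mul (m1 g).1).mul
      ((measurable_id.sub_const y).norm.inv.aestronglyMeasurable)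
  · simp only [Pi.add_apply]
    rw [← add_div, norm_div, norm_norm, Real.norm_eq_abs]
    apply div_le_div_of_nonneg_right _ (norm_nonneg _)
    rw [abs_le]
    constructor <;> nlinarith [sq_nonneg (f.1.1 x + g.1.1 x), sq_nonneg (f.1.1 x - g.1.1 x)]

theorem int_ptV' {M : ℕ} (q : Fin M → ℝ) (y : Fin M → R3) (f g : H1) :
    Integrable (fun x => ptV q y x * (f.1.1 x * g.1.1 x)) := by
  have h1 : Integrable (fun x => ∑ j, -(q j) * (f.1.1 x * g.1.1 x / ‖x - y j‖)) :=
    integrable_finsetSum _ fun j _ => (int_ptV f g (y j)).const_mul _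
  refine h1.congr (Eventually.of_forall fun x => ?_)
  simp only [ptV, Finset.sum_mul]
  exact Finset.sum_congr rfl fun j _ => by ring

theorem vI_ptV {M : ℕ} (q : Fin M → ℝ) (y : Fin M → R3) (f g : H1) :
    vI (ptV q y) f g = -∑ j, q j * ∫ x, f.1.1 x * g.1.1 x / ‖x - y j‖ := by
  unfold vI
  have h1 : ∀ x, ptV q y x * (f.1.1 x * g.1.1 x) =
      ∑ j, -(q j) * (f.1.1 x * g.1.1 x / ‖x - y j‖) := by
    intro x
    simp only [ptV, Finset.sum_mul]
    exact Finset.sum_congr rfl fun j _ => by ring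
  simp only [h1]
  rw [integral_finsetSum _ fun j _ => (int_ptV f g (y j)).const_mul _, ← Finset.sum_neg_distrib]
  refine Finset.sum_congr rfl fun j _ => ?_
  rw [integral_const_mul]
  ring

/-- integrability of the matrix elements of `v`, real form -/
def VIntR (v : R3 → ℝ) (φ : ι → H1) : Prop :=
  ∀ a b, Integrable (fun x => v x * ((φ a).1.1 x * (φ b).1.1 x))

theorem vInt_of {v : R3 → ℝ} {φ : ι → H1} (h : VIntR v φ) : VInt v (cu φ) := by
  intro a b
  have h1 := (h a b).ofReal (𝕜 := ℂ)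
  refine h1.congr (Eventually.of_forall fun x => ?_)
  change ((v x * ((φ a).1.1 x * (φ b).1.1 x) : ℝ) : ℂ) = _
  simp only [cu, Complex.conj_ofReal]
  push_cast
  ring

end

end Vale.Agent.P370.H405.C3
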