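import Vale.Agent.P370.H405.Upper

/-!
Problem P370, block A3: lower bound for the energy, from the one-body inequality (block A1) and the
pointwise bound of the comparison potential (block A2).
-/

namespace Vale.Agent.P370.H405

open MeasureTheory Filter Topology
open Vale.Agent.P363.Stmt
open Vale.Agent.P363.H382 (dir intR_eq isWeakDeriv_iff)
open Vale.Agent.P363.R801 (prj prj_dir prj_sub_dir)

noncomputable section

theorem ae_ne {N : ℕ} {i j : Fin N} (hij : i ≠ j) : ∀ᵐ x : Conf N, x i ≠ x j := by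
  let L : Conf N →ₗ[ℝ] R3 := (prj i - prj j : Conf N →L[ℝ] R3)
  have hL : LinearMap.ker L ≠ ⊤ := by
    intro h
    have h1 : dir i (0 : Fin 3) ∈ LinearMap.ker L := h ▸ Submodule.mem_top
    have h2 : (prj i - prj j) (dir i (0 : Fin 3)) = 0 := h1
    rw [prj_sub_dir hij] at h2
    have h3 := congrArg (fun v : R3 => v 0) h2
    simp at h3
  have h0 := Measure.addHaar_submodule (volume : Measure (Conf N)) _ hL
  rw [ae_iff]
  refine measure_mono_null ?_ h0
  intro x hx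
  have hx' : x i = x j := by simpa using hx
  show L x = 0
  show (prj i - prj j) x = 0
  simp [prj, hx']

theorem ae_injective (N : ℕ) : ∀ᵐ x : Conf N, Function.Injective x := by
  have h : ∀ i j : Fin N, i ≠ j → ∀ᵐ x : Conf N, x i ≠ x j := fun i j hij => ae_ne hij
  have h1 : ∀ᵐ x : Conf N, ∀ i j : Fin N, i ≠ j → x i ≠ x j := by
    rw [ae_all_iff]
    intro i
    rw [ae_all_iff]
    intro j
    by_cases hij : i = j
    · exact Eventually.of_forall fun x h => absurd hij h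
    · exact (h i j hij).mono fun x hx _ => hx
  refine h1.mono fun x hx i j hij => ?_
  by_contra hne
  exact hx i j hne hij

theorem int_sq {N : ℕ} (Ψ : ElectronState N) (s : Fin N → Fin 2) :
    Integrable (fun x : Conf N => ‖Ψ.amp s x‖ ^ 2) := by
  have h0 : MemLp (Ψ.amp s) 2 volume := Ψ.amp_memLp s
  exact h0.integrable_norm_pow (by norm_num)

theorem int_nearW {N M : ℕ} (R : Fin M → R3) (ρ C : ℝ) (Ψ : ElectronState N)
    (s : Fin N → Fin 2) (i : Fin N) :
    Integrable (fun x : Conf N => nearW R ρ C (x i) * ‖Ψ.amp s x‖ ^ 2) := by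
  have hm : ∀ j : Fin M, MeasurableSet {x : Conf N | ‖x i - R j‖ ≤ 2 * ρ} := fun j =>
    (isClosed_le (((continuous_apply i).sub continuous_const).norm) continuous_const).measurableSet
  have h1 : ∀ j : Fin M, Integrable (fun x : Conf N =>
      Set.indicator {x : Conf N | ‖x i - R j‖ ≤ 2 * ρ}
        (fun x => -(1 / 2 + C / ρ ^ 2) * ‖Ψ.amp s x‖ ^ 2) x) := fun j =>
    ((int_sq Ψ s).const_mul _).indicator (hm j)
  have h2 : ∀ j : Fin M, Integrable (fun x : Conf N =>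
      Set.indicator {x : Conf N | ‖x i - R j‖ ≤ 2 * ρ}ᶜ
        (fun x => -(‖Ψ.amp s x‖ ^ 2 / ‖x i - R j‖)) x) := fun j =>
    (int_att Ψ s i (R j)).neg.indicator (hm j).compl
  have h3 : Integrable (fun x : Conf N => ∑ j,
      (Set.indicator {x : Conf N | ‖x i - R j‖ ≤ 2 * ρ}
        (fun x => -(1 / 2 + C / ρ ^ 2) * ‖Ψ.amp s x‖ ^ 2) x +
      Set.indicator {x : Conf N | ‖x i - R j‖ ≤ 2 * ρ}ᶜ
        (fun x => -(‖Ψ.amp s x‖ ^ 2 / ‖x i - R j‖)) x)) :=
    integrable_finsetSum _ fun j _ => (h1 j).add (h2 j)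
  refine h3.congr (Eventually.of_forall fun x => ?_)
  simp only
  unfold nearW
  rw [Finset.sum_mul]
  refine Finset.sum_congr rfl fun j _ => ?_
  by_cases h : ‖x i - R j‖ ≤ 2 * ρ
  · have hx : x ∈ {x : Conf N | ‖x i - R j‖ ≤ 2 * ρ} := h
    rw [Set.indicator_of_mem hx, Set.indicator_of_notMem (by simpa using h), if_pos h]
    ring
  · have hx : x ∉ {x : Conf N | ‖x i - R j‖ ≤ 2 * ρ} := h
    rw [Set.indicator_of_notMem hx, Set.indicator_of_mem hx, if_neg h]
    ring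

theorem int_attr {N M : ℕ} (R : Fin M → R3) (Ψ : ElectronState N)
    (s : Fin N → Fin 2) (i : Fin N) :
    Integrable (fun x : Conf N => (∑ j, -(1 / ‖x i - R j‖)) * ‖Ψ.amp s x‖ ^ 2) := by
  have h3 : Integrable (fun x : Conf N => ∑ j, -(‖Ψ.amp s x‖ ^ 2 / ‖x i - R j‖)) :=
    integrable_finsetSum _ fun j _ => (int_att Ψ s i (R j)).neg
  refine h3.congr (Eventually.of_forall fun x => ?_)
  simp only
  rw [Finset.sum_mul]
  exact Finset.sum_congr rfl fun j _ => by ring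

theorem int_repul {N : ℕ} (Ψ : ElectronState N) (s : Fin N → Fin 2) :
    Integrable (fun x : Conf N => (∑ i, ∑ k ∈ Finset.Ioi i, 1 / ‖x i - x k‖) *
      ‖Ψ.amp s x‖ ^ 2) := by
  have h3 : Integrable (fun x : Conf N => ∑ i, ∑ k ∈ Finset.Ioi i, ‖Ψ.amp s x‖ ^ 2 / ‖x i - x k‖) :=
    integrable_finsetSum _ fun i _ => integrable_finsetSum _ fun k hk =>
      int_rep Ψ s (Finset.mem_Ioi.1 hk).ne
  refine h3.congr (Eventually.of_forall fun x => ?_)
  simp only
  rw [Finset.sum_mul]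
  refine Finset.sum_congr rfl fun i _ => ?_
  rw [Finset.sum_mul]
  exact Finset.sum_congr rfl fun j _ => by ring

/-- a pointwise lower bound of the comparison potential is a lower bound for the energy. -/
theorem energy_ge {N M : ℕ} {R : Fin M → R3} {ρ C E : ℝ} (Ψ : ElectronState N)
    (hone : ∀ (s : Fin N → Fin 2) (i : Fin N),
      intR (fun x => nearW R ρ C (x i) * ‖Ψ.amp s x‖ ^ 2) ≤
        1 / 2 * (∑ k, intR fun x => ‖Ψ.grad s i k x‖ ^ 2) +
          intR fun x => (∑ j, -(1 / ‖x i - R j‖)) * ‖Ψ.amp s x‖ ^ 2)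
    (hpt : ∀ x : Conf N, Function.Injective x →
      E ≤ (∑ i, nearW R ρ C (x i)) + ∑ i, ∑ k ∈ Finset.Ioi i, 1 / ‖x i - x k‖) :
    E * normSq Ψ ≤ energy (coulombPotential (fun _ => 1) R) Ψ := by
  have key : ∀ s, E * intR (fun x => ‖Ψ.amp s x‖ ^ 2) ≤
      1 / 2 * (∑ i, ∑ k, intR fun x => ‖Ψ.grad s i k x‖ ^ 2) +
        intR fun x => coulombPotential (fun _ => 1) R x * ‖Ψ.amp s x‖ ^ 2 := by
    intro s
    have h1 := Finset.sum_le_sum fun i (_ : i ∈ Finset.univ) => hone s i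
    rw [Finset.sum_add_distrib, ← Finset.mul_sum] at h1
    simp only [intR_eq] at h1 ⊢
    have e1 : ∫ x, coulombPotential (fun _ => 1) R x * ‖Ψ.amp s x‖ ^ 2 =
        (∑ i, ∫ x, (∑ j, -(1 / ‖x i - R j‖)) * ‖Ψ.amp s x‖ ^ 2) +
        ∫ x, (∑ i, ∑ k ∈ Finset.Ioi i, 1 / ‖x i - x k‖) * ‖Ψ.amp s x‖ ^ 2 := by
      rw [← integral_finsetSum _ fun i _ => int_attr R Ψ s i, ← integral_add
        (integrable_finsetSum _ fun i _ => int_attr R Ψ s i) (int_repul Ψ s)]
      congr 1; funext x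
      unfold coulombPotential
      rw [add_mul, Finset.sum_mul]
      simp only [Nat.cast_one]
    have e2 : (∑ i, ∫ x, nearW R ρ C (x i) * ‖Ψ.amp s x‖ ^ 2) +
        ∫ x, (∑ i, ∑ k ∈ Finset.Ioi i, 1 / ‖x i - x k‖) * ‖Ψ.amp s x‖ ^ 2 =
        ∫ x, ((∑ i, nearW R ρ C (x i)) + ∑ i, ∑ k ∈ Finset.Ioi i, 1 / ‖x i - x k‖) *
          ‖Ψ.amp s x‖ ^ 2 := by
      rw [← integral_finsetSum _ fun i _ => int_nearW R ρ C Ψ s i, ← integral_add
        (integrable_finsetSum _ fun i _ => int_nearW R ρ C Ψ s i) (int_repul Ψ s)]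
      congr 1; funext x
      rw [add_mul, ← Finset.sum_mul]
    have i2 : Integrable (fun x : Conf N => ((∑ i, nearW R ρ C (x i)) +
        ∑ i, ∑ k ∈ Finset.Ioi i, 1 / ‖x i - x k‖) * ‖Ψ.amp s x‖ ^ 2) := by
      have i4 : Integrable (fun x : Conf N => ∑ i, nearW R ρ C (x i) * ‖Ψ.amp s x‖ ^ 2) :=
        integrable_finsetSum _ fun i _ => int_nearW R ρ C Ψ s i
      refine (i4.add (int_repul Ψ s)).congr (Eventually.of_forall fun x => ?_)
      simp only [Pi.add_apply]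
      rw [add_mul, ← Finset.sum_mul]
    have e3 : E * ∫ x, ‖Ψ.amp s x‖ ^ 2 ≤
        ∫ x, ((∑ i, nearW R ρ C (x i)) + ∑ i, ∑ k ∈ Finset.Ioi i, 1 / ‖x i - x k‖) *
          ‖Ψ.amp s x‖ ^ 2 := by
      rw [← integral_const_mul]
      refine integral_mono_ae ((int_sq Ψ s).const_mul E) i2 ?_
      filter_upwards [ae_injective N] with x hx
      exact mul_le_mul_of_nonneg_right (hpt x hx) (sq_nonneg _)
    rw [e1]
    linarith
  unfold normSq energy
  calc E * ∑ s, intR (fun x => ‖Ψ.amp s x‖ ^ 2)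
      ≤ ∑ s, (1 / 2 * (∑ i, ∑ k, intR fun x => ‖Ψ.grad s i k x‖ ^ 2) +
        intR fun x => coulombPotential (fun _ => 1) R x * ‖Ψ.amp s x‖ ^ 2) := by
        rw [Finset.mul_sum]
        exact Finset.sum_le_sum fun s _ => key s
    _ = _ := by rw [Finset.sum_add_distrib, ← Finset.mul_sum]

/-- **Block A3.** -/
theorem lower (h1 : OneBodyStmt) (h2 : PointStmt) : LowerStmt := by
  obtain ⟨C₁, hC₁, hone⟩ := h1
  obtain ⟨C₂, hC₂, hpt⟩ := h2 C₁ hC₁
  refine ⟨max C₂ 8, by positivity, ?_⟩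
  intro M N R μ hN hNM hCM hR Ψ hΨ
  have hM1 : (1 : ℝ) ≤ M := by exact_mod_cast le_trans hN hNM
  have hC2M : C₂ * M ≤ μ := le_trans (by gcongr; exact le_max_left _ _) hCM
  have hC8M : 8 * (M : ℝ) ≤ μ := le_trans (by gcongr; exact le_max_right _ _) hCM
  have hμ : 8 ≤ μ := by linarith
  have h84 : 8 * μ ^ 2 ≤ μ ^ 3 := by
    have : μ ^ 3 = μ * μ ^ 2 := by ring
    rw [this]
    gcongr
  -- the best choice of occupied protons
  have hne : (Finset.powersetCard N (Finset.univ : Finset (Fin M))).Nonempty := by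
    rw [Finset.powersetCard_nonempty, Finset.card_univ, Fintype.card_fin]
    exact hNM
  obtain ⟨S, hS, hmin⟩ := Finset.exists_min_image _ (selE R) hne
  have hScard : S.card = N := (Finset.mem_powersetCard.1 hS).2
  refine ⟨S, hScard, ?_⟩
  have hE := energy_ge (R := R) (ρ := μ ^ 2) (C := C₁)
    (E := -(N : ℝ) / 2 + selE R S - C₂ * (M : ℝ) ^ 2 / μ ^ 4) Ψ
    (fun s i => hone M R (μ ^ 2) (by nlinarith) (fun j k hjk => by
      have := hR j k hjk
      linarith) N Ψ s i) (fun x hx => by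
      obtain ⟨T, hT, hle⟩ := hpt M N R μ hN hNM hC2M hR x hx
      have h3 := hmin T (Finset.mem_powersetCard.2 ⟨Finset.subset_univ _, hT⟩)
      linarith)
  rw [hΨ, mul_one] at hE
  have h4 : C₂ * (M : ℝ) ^ 2 / μ ^ 4 ≤ max C₂ 8 * (M : ℝ) ^ 2 / μ ^ 4 := by
    gcongr
    exact le_max_left _ _
  linarith

end

end Vale.Agent.P370.H405
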