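import Vale.Agent.P363.H95.Eigen
import Vale.Agent.P370.H405.Lower

/-!
Problem P370, block C2 (d): splitting of a state into two parts, energies and cross terms.
-/

namespace Vale.Agent.P370.H405.C2

open MeasureTheory Filter Topology
open Vale.Agent.P363.Stmt Vale.Agent.P363.R.Sob Vale.Agent.P363.H382 Vale.Agent.P363.R.Top
open Vale.Agent.P363.H518 (coef memLp_conj integrable_coef)
open scoped ContDiff ENNReal ComplexConjugate

set_option linter.unusedSectionVars false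

noncomputable section

variable {N : ℕ}

/-- difference of two states -/
def esub (Ψ Φ : ElectronState N) : ElectronState N where
  amp s x := Ψ.amp s x - Φ.amp s x
  grad s i k x := Ψ.grad s i k x - Φ.grad s i k x
  amp_memLp s := (L2_iff.1 (Ψ.amp_memLp s)).sub (L2_iff.1 (Φ.amp_memLp s))
  grad_memLp s i k := (L2_iff.1 (Ψ.grad_memLp s i k)).sub (L2_iff.1 (Φ.grad_memLp s i k))
  grad_weak s i k := by
    rw [isWeakDeriv_iff]
    exact (isWeakDeriv_iff.1 (Ψ.grad_weak s i k)).sub (isWeakDeriv_iff.1 (Φ.grad_weak s i k))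
      ((L2_iff.1 (Ψ.amp_memLp s)).locallyIntegrable (by norm_num))
      ((L2_iff.1 (Ψ.grad_memLp s i k)).locallyIntegrable (by norm_num))
      ((L2_iff.1 (Φ.amp_memLp s)).locallyIntegrable (by norm_num))
      ((L2_iff.1 (Φ.grad_memLp s i k)).locallyIntegrable (by norm_num))
  antisymm σ s := by
    rw [AEConf_iff]
    filter_upwards [AEConf_iff.1 (Ψ.antisymm σ s), AEConf_iff.1 (Φ.antisymm σ s)] with x h1 h2
    rw [h1, h2]
    ring

/-- potentials with finite expectation in every state of finite kinetic energy -/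
structure Adm (w : Conf N → ℝ) : Prop where
  meas : AEStronglyMeasurable w (volume : Measure (Conf N))
  int : ∀ (Ψ : ElectronState N) (s : Fin N → Fin 2), Integrable (fun x => w x * ‖Ψ.amp s x‖ ^ 2)

theorem Adm.cross {w : Conf N → ℝ} (hw : Adm w) (Φ Ψ : ElectronState N) (s : Fin N → Fin 2) :
    Integrable (fun x => (w x : ℂ) * (conj (Φ.amp s x) * Ψ.amp s x)) := by
  have h1 := (hw.int Φ s).norm.add (hw.int Ψ s).norm
  refine h1.mono' ?_ (Eventually.of_forall fun x => ?_)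
  · refine AEStronglyMeasurable.mul ?_ ?_
    · exact Complex.continuous_ofReal.comp_aestronglyMeasurable hw.meas
    · exact (Complex.continuous_conj.comp_aestronglyMeasurable (L2_iff.1 (Φ.amp_memLp s)).1).mul
        (L2_iff.1 (Ψ.amp_memLp s)).1
  · simp only [Pi.add_apply, norm_mul, norm_pow, norm_norm, Complex.norm_real, RCLike.norm_conj]
    have h2 : 0 ≤ ‖w x‖ := norm_nonneg _
    nlinarith [sq_nonneg (‖Φ.amp s x‖ - ‖Ψ.amp s x‖), sq_nonneg (‖Φ.amp s x‖ + ‖Ψ.amp s x‖),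
      mul_nonneg h2 (sq_nonneg (‖Φ.amp s x‖ - ‖Ψ.amp s x‖)),
      mul_nonneg h2 (sq_nonneg ‖Φ.amp s x‖), mul_nonneg h2 (sq_nonneg ‖Ψ.amp s x‖)]

/-- sesquilinear form of the operator `-(1/2) Δ + w` -/
def eB (w : Conf N → ℝ) (Φ Ψ : ElectronState N) : ℂ :=
  (1 / 2) * (∑ s, ∑ i, ∑ k, ∫ x, conj (Φ.grad s i k x) * Ψ.grad s i k x) +
    ∑ s, ∫ x, (w x : ℂ) * (conj (Φ.amp s x) * Ψ.amp s x)

theorem norm_sub_sq_aux (a b : ℂ) : ‖a‖ ^ 2 = ‖b‖ ^ 2 + ‖a - b‖ ^ 2 + 2 * (conj b * (a - b)).re := by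
  have h1 : a = b + (a - b) := by ring
  conv_lhs => rw [h1]
  rw [Complex.sq_norm, Complex.normSq_add, Complex.sq_norm, Complex.sq_norm]
  have h2 : (b * conj (a - b)).re = (conj b * (a - b)).re := by
    simp only [Complex.mul_re, Complex.conj_re, Complex.conj_im]
    ring
  rw [h2]

theorem int_split {f g : Conf N → ℂ} {w : Conf N → ℝ}
    (hg : Integrable (fun x => w x * ‖g x‖ ^ 2))
    (hd : Integrable (fun x => w x * ‖f x - g x‖ ^ 2))
    (hc : Integrable (fun x => (w x : ℂ) * (conj (g x) * (f x - g x)))) :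
    ∫ x, w x * ‖f x‖ ^ 2 = (∫ x, w x * ‖g x‖ ^ 2) + (∫ x, w x * ‖f x - g x‖ ^ 2) +
      2 * (∫ x, (w x : ℂ) * (conj (g x) * (f x - g x))).re := by
  have h0 : (∫ x, (w x : ℂ) * (conj (g x) * (f x - g x))).re =
      ∫ x, ((w x : ℂ) * (conj (g x) * (f x - g x))).re := by
    have := integral_re hc
    exact this.symm
  have hc' : Integrable (fun x => ((w x : ℂ) * (conj (g x) * (f x - g x))).re) := hc.re
  have h1 : ∀ x, w x * ‖f x‖ ^ 2 = w x * ‖g x‖ ^ 2 + w x * ‖f x - g x‖ ^ 2 +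
      2 * ((w x : ℂ) * (conj (g x) * (f x - g x))).re := by
    intro x
    rw [norm_sub_sq_aux (f x) (g x), Complex.re_ofReal_mul]
    ring
  have hgd : Integrable (fun x => w x * ‖g x‖ ^ 2 + w x * ‖f x - g x‖ ^ 2) := hg.add hd
  simp only [h1]
  rw [integral_add hgd (hc'.const_mul 2), integral_add hg hd, integral_const_mul, h0]

theorem int_split_one {f g : Conf N → ℂ} (hf : MemLp f 2 (volume : Measure (Conf N)))
    (hg : MemLp g 2 (volume : Measure (Conf N))) :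
    ∫ x, ‖f x‖ ^ 2 = (∫ x, ‖g x‖ ^ 2) + (∫ x, ‖f x - g x‖ ^ 2) +
      2 * (∫ x, conj (g x) * (f x - g x)).re := by
  have hd : MemLp (fun x => f x - g x) 2 (volume : Measure (Conf N)) := hf.sub hg
  have h1 : Integrable (fun x => ‖g x‖ ^ 2) := by
    simpa using (memLp_two_iff_integrable_sq_norm hg.1).1 hg
  have h2 : Integrable (fun x => ‖f x - g x‖ ^ 2) := by
    simpa using (memLp_two_iff_integrable_sq_norm hd.1).1 hd
  have h3 : Integrable (fun x => conj (g x) * (f x - g x)) := integrable_coef hg hd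
  have := int_split (w := fun _ => 1) (f := f) (g := g) (by simpa using h1) (by simpa using h2)
    (by simpa using h3)
  simpa using this

/-- **Splitting of the energy.** -/
theorem energy_split {w : Conf N → ℝ} (hw : Adm w) (Ψ Φ : ElectronState N) :
    energy w Ψ = energy w Φ + energy w (esub Ψ Φ) + 2 * (eB w Φ (esub Ψ Φ)).re := by
  have h1 : ∀ s i k, ∫ x, ‖Ψ.grad s i k x‖ ^ 2 = (∫ x, ‖Φ.grad s i k x‖ ^ 2) +
      (∫ x, ‖(esub Ψ Φ).grad s i k x‖ ^ 2) +
      2 * (∫ x, conj (Φ.grad s i k x) * (esub Ψ Φ).grad s i k x).re := fun s i k =>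
    int_split_one (L2_iff.1 (Ψ.grad_memLp s i k)) (L2_iff.1 (Φ.grad_memLp s i k))
  have h2 : ∀ s, ∫ x, w x * ‖Ψ.amp s x‖ ^ 2 = (∫ x, w x * ‖Φ.amp s x‖ ^ 2) +
      (∫ x, w x * ‖(esub Ψ Φ).amp s x‖ ^ 2) +
      2 * (∫ x, (w x : ℂ) * (conj (Φ.amp s x) * (esub Ψ Φ).amp s x)).re := fun s =>
    int_split (hw.int Φ s) (hw.int (esub Ψ Φ) s) (hw.cross Φ (esub Ψ Φ) s)
  unfold energy eB
  simp only [intR_eq, h1, h2, Finset.sum_add_distrib, ← Finset.mul_sum, Complex.add_re,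
    Complex.re_sum]
  have h3 : ∀ z : ℂ, ((1 / 2 : ℂ) * z).re = 1 / 2 * z.re := by
    intro z
    have : (1 / 2 : ℂ) = ((1 / 2 : ℝ) : ℂ) := by push_cast; rfl
    rw [this, Complex.re_ofReal_mul]
  rw [h3]
  simp only [Complex.re_sum]
  ring

theorem normSq_split (Ψ Φ : ElectronState N) :
    normSq Ψ = normSq Φ + normSq (esub Ψ Φ) +
      2 * (∑ s, ∫ x, conj (Φ.amp s x) * (esub Ψ Φ).amp s x).re := by
  have h1 : ∀ s, ∫ x, ‖Ψ.amp s x‖ ^ 2 = (∫ x, ‖Φ.amp s x‖ ^ 2) +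
      (∫ x, ‖(esub Ψ Φ).amp s x‖ ^ 2) +
      2 * (∫ x, conj (Φ.amp s x) * (esub Ψ Φ).amp s x).re := fun s =>
    int_split_one (L2_iff.1 (Ψ.amp_memLp s)) (L2_iff.1 (Φ.amp_memLp s))
  rw [normSq_eq, normSq_eq, normSq_eq]
  simp only [h1, Finset.sum_add_distrib, ← Finset.mul_sum, Complex.re_sum]

end

end Vale.Agent.P370.H405.C2
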