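import Vale.Agent.P370.H405.C3Final
import Vale.Agent.P370.H405.C2Split

/-!
Problem P370, block C2 (d): the projection of a state on the states with filled closed shells, and
the vanishing of the cross terms of the free Hamiltonian.
-/

namespace Vale.Agent.P370.H405.C2

open MeasureTheory Filter Topology
open Vale.Agent.P363.Stmt Vale.Agent.P363.R.Sob Vale.Agent.P363.H382 Vale.Agent.P363.R.Top
open Vale.Agent.P363.H518 (coef memLp_conj integrable_coef)
open Vale.Agent.P363.H95 (tp OneBody Orth AntiT ofTen Dc CoulInt cT Eig aForm aForm_ofTen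
  antiT_cT cT_ofTen inn_ofTen_left coef_sum_right)
open Vale.Agent.P363.H849 (H1 ip dir bc m1 m2 mW hardyInt)
open Vale.Agent.P370.H405.C3
open scoped ContDiff ENNReal ComplexConjugate

set_option linter.unusedSectionVars false

noncomputable section

variable {K : Type} [Fintype K] [DecidableEq K] {m N D : ℕ}

/-- attraction of the heavy nucleus, scaled -/
def vH (x : R3) : ℝ := -(1 / ‖x‖)

theorem coef_re_im {F : R3 → ℂ} {w : R3 → ℝ}
    (h : Integrable (fun x => (w x : ℂ) * F x)) :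
    coef (volume : Measure R3) (fun x => (w x : ℂ)) F =
      ((∫ x, w x * (F x).re : ℝ) : ℂ) + ((∫ x, w x * (F x).im : ℝ) : ℂ) * Complex.I := by
  unfold coef
  have h1 : ∫ x, conj (w x : ℂ) * F x = ∫ x, (w x : ℂ) * F x := by
    congr 1; funext x
    rw [Complex.conj_ofReal]
  rw [h1, ← Complex.re_add_im (∫ x, (w x : ℂ) * F x)]
  have h2 : (∫ x, (w x : ℂ) * F x).re = ∫ x, w x * (F x).re := by
    have h4 : (∫ x, (w x : ℂ) * F x).re = ∫ x, ((w x : ℂ) * F x).re := (integral_re h).symm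
    rw [h4]
    congr 1; funext x
    exact Complex.re_ofReal_mul _ _
  have h3 : (∫ x, (w x : ℂ) * F x).im = ∫ x, w x * (F x).im := by
    have h4 : (∫ x, (w x : ℂ) * F x).im = ∫ x, ((w x : ℂ) * F x).im := (integral_im h).symm
    rw [h4]
    congr 1; funext x
    exact Complex.im_ofReal_mul _ _
  rw [h2, h3]

theorem memLp_vH (f : H1) : MemLp (fun x => vH x * f.1.1 x) 2 (volume : Measure R3) := by
  have h := hardy (μ := (volume : Measure R3)) (ContinuousLinearMap.id ℝ R3) 0 e3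
    (fun k => rfl) (m1 f) (m2 f) (mW f)
  have hm : AEStronglyMeasurable (fun x => vH x * f.1.1 x) (volume : Measure R3) := by
    unfold vH
    refine AEStronglyMeasurable.mul ?_ (m1 f).1
    exact ((measurable_const.div measurable_norm).neg).aestronglyMeasurable
  rw [memLp_two_iff_integrable_sq_norm hm]
  refine h.1.congr (Eventually.of_forall fun x => ?_)
  simp only [ContinuousLinearMap.coe_id', id_eq, sub_zero, vH, norm_mul, norm_neg, norm_div,
    norm_one, norm_norm, mul_pow]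
  rw [div_pow, one_pow]
  ring

variable (O : Orbs K m)

/-- the weak eigenvalue equation of the orbitals against complex functions -/
theorem eig_cu (a : K ⊕ Fin m) : Eig vH (O.en a) (cu O.φ a) (cgu O.φ a) := by
  intro f g hf hg hW
  set fr : H1 := ⟨(fun x => (f x).re, fun k x => (g k x).re),
    Vale.Agent.P363.H849.memLp_re hf, fun k => Vale.Agent.P363.H849.memLp_re (hg k),
    fun k => Vale.Agent.P363.H849.isWD_re hf (hg k) (hW k)⟩ with hfr
  set fi : H1 := ⟨(fun x => (f x).im, fun k x => (g k x).im),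
    Vale.Agent.P363.H849.memLp_im hf, fun k => Vale.Agent.P363.H849.memLp_im (hg k),
    fun k => Vale.Agent.P363.H849.isWD_im hf (hg k) (hW k)⟩ with hfi
  have hr := O.eig a fr
  have hi := O.eig a fi
  have e1 : ∀ k, coef volume (cgu O.φ a k) (g k) =
      ((∫ x, (O.φ a).1.2 k x * (g k x).re : ℝ) : ℂ) +
        ((∫ x, (O.φ a).1.2 k x * (g k x).im : ℝ) : ℂ) * Complex.I := by
    intro k
    refine coef_re_im ?_
    exact (MemLp.ofReal (m2 (O.φ a) k)).integrable_mul (hg k)
  have e2 : coef volume (fun r => (vH r : ℂ) * cu O.φ a r) f =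
      ((∫ x, (vH x * (O.φ a).1.1 x) * (f x).re : ℝ) : ℂ) +
        ((∫ x, (vH x * (O.φ a).1.1 x) * (f x).im : ℝ) : ℂ) * Complex.I := by
    have h1 : (fun r => (vH r : ℂ) * cu O.φ a r) = fun r => ((vH r * (O.φ a).1.1 r : ℝ) : ℂ) := by
      funext r
      unfold cu
      push_cast
      rfl
    rw [h1]
    refine coef_re_im ?_
    exact (MemLp.ofReal (memLp_vH (O.φ a))).integrable_mul hf
  have e3 : coef volume (cu O.φ a) f =
      ((∫ x, (O.φ a).1.1 x * (f x).re : ℝ) : ℂ) +
        ((∫ x, (O.φ a).1.1 x * (f x).im : ℝ) : ℂ) * Complex.I := by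
    refine coef_re_im ?_
    exact (MemLp.ofReal (m1 (O.φ a))).integrable_mul hf
  have b1 : ∀ F : H1, ∫ x, (vH x * (O.φ a).1.1 x) * F.1.1 x = -bc hardyInt F (O.φ a) := by
    intro F
    rw [Vale.Agent.P363.H849.bc_apply, ← integral_neg]
    congr 1; funext x
    unfold vH
    ring
  have d1 : ∀ F : H1, ∑ k, ∫ x, (O.φ a).1.2 k x * F.1.2 k x = dir F (O.φ a) := by
    intro F
    rw [Vale.Agent.P363.H849.dir_apply]
    refine Finset.sum_congr rfl fun k _ => ?_
    congr 1; funext x; ring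
  have i1 : ∀ F : H1, ∫ x, (O.φ a).1.1 x * F.1.1 x = ip F (O.φ a) := by
    intro F
    rw [Vale.Agent.P363.H849.ip_apply]
    congr 1; funext x; ring
  have hr' : 1 / 2 * (∑ k, ∫ x, (O.φ a).1.2 k x * (g k x).re) +
      (∫ x, (vH x * (O.φ a).1.1 x) * (f x).re) = O.en a * ∫ x, (O.φ a).1.1 x * (f x).re := by
    have h1 := b1 fr
    have h2 := d1 fr
    have h3 := i1 fr
    simp only [hfr] at h1 h2 h3 hr
    rw [h1, h2, h3]
    linarith
  have hi' : 1 / 2 * (∑ k, ∫ x, (O.φ a).1.2 k x * (g k x).im) +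
      (∫ x, (vH x * (O.φ a).1.1 x) * (f x).im) = O.en a * ∫ x, (O.φ a).1.1 x * (f x).im := by
    have h1 := b1 fi
    have h2 := d1 fi
    have h3 := i1 fi
    simp only [hfi] at h1 h2 h3 hi
    rw [h1, h2, h3]
    linarith
  rw [e2, e3, Finset.sum_congr rfl fun k _ => e1 k, Finset.sum_add_distrib, ← Finset.sum_mul]
  have hr'' := congrArg (fun z : ℝ => (z : ℂ)) hr'
  have hi'' := congrArg (fun z : ℝ => (z : ℂ)) hi'
  push_cast at hr'' hi'' ⊢
  linear_combination hr'' + Complex.I * hi''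

/-! ### the projection -/

/-- all core spin orbitals occur -/
def Full (J : Fin N → (K ⊕ Fin m) × Fin 2) : Prop :=
  ∀ (k : K) (t : Fin 2), ∃ i, J i = (Sum.inl k, t)

theorem full_comp (J : Fin N → (K ⊕ Fin m) × Fin 2) (σ : Equiv.Perm (Fin N)) :
    Full (J ∘ σ) ↔ Full J := by
  unfold Full
  refine forall_congr' fun k => forall_congr' fun t => ?_
  constructor
  · rintro ⟨i, hi⟩
    exact ⟨σ i, hi⟩
  · rintro ⟨i, hi⟩
    exact ⟨σ.symm i, by simpa using hi⟩

open Classical in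
/-- coefficients of the part of a state with filled closed shells -/
def cP (Ψ : ElectronState N) (J : Fin N → (K ⊕ Fin m) × Fin 2) : ℂ :=
  if Full J then cT (cu O.φ) Ψ J else 0

theorem cP_full (Ψ : ElectronState N) {J : Fin N → (K ⊕ Fin m) × Fin 2} (h : Full J) :
    cP O Ψ J = cT (cu O.φ) Ψ J := if_pos h

theorem cP_not (Ψ : ElectronState N) {J : Fin N → (K ⊕ Fin m) × Fin 2} (h : ¬ Full J) :
    cP O Ψ J = 0 := if_neg h

theorem cP_anti (Ψ : ElectronState N) : Anti (cP O Ψ) := by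
  intro σ J
  by_cases h : Full J
  · rw [cP_full O Ψ h, cP_full O Ψ ((full_comp J σ).2 h)]
    exact antiT_cT (cu O.φ) Ψ σ J
  · rw [cP_not O Ψ h, cP_not O Ψ (fun h' => h ((full_comp J σ).1 h')), mul_zero]

theorem cP_core (Ψ : ElectronState N) (k : K) (t : Fin 2) : CoreK (Sum.inl k, t) (cP O Ψ) := by
  intro J hJ
  have h : Full J := by
    by_contra h
    exact hJ (cP_not O Ψ h)
  exact h k t

/-- the part of a state with filled closed shells -/
def PP (Ψ : ElectronState N) : ElectronState N := O.st (cP_anti O Ψ)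

/-- the rest -/
def QQ (Ψ : ElectronState N) : ElectronState N := esub Ψ (PP O Ψ)

theorem cT_esub (u : K ⊕ Fin m → R3 → ℂ) (hu : ∀ a, MemLp (u a) 2 (volume : Measure R3))
    (Ψ Φ : ElectronState N) (J : Fin N → (K ⊕ Fin m) × Fin 2) :
    cT u (esub Ψ Φ) J = cT u Ψ J - cT u Φ J := by
  unfold cT
  have h1 : (esub Ψ Φ).amp (fun i => (J i).2) = fun x => Ψ.amp (fun i => (J i).2) x -
      Φ.amp (fun i => (J i).2) x := rfl
  rw [h1]
  unfold coef
  rw [← integral_sub (integrable_coef (Vale.Agent.P363.H95.memLp_tp fun j => hu _)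
    (L2_iff.1 (Ψ.amp_memLp _))) (integrable_coef (Vale.Agent.P363.H95.memLp_tp fun j => hu _)
    (L2_iff.1 (Φ.amp_memLp _)))]
  congr 1; funext x; ring

theorem cT_QQ (Ψ : ElectronState N) {J : Fin N → (K ⊕ Fin m) × Fin 2} (h : Full J) :
    cT (cu O.φ) (QQ O Ψ) J = 0 := by
  unfold QQ
  rw [cT_esub _ (oneBody O.φ).mem]
  have h1 : cT (cu O.φ) (PP O Ψ) J = cP O Ψ J :=
    cT_ofTen (H := oneBody O.φ) (c := cP O Ψ) (hc := cP_anti O Ψ) (orth O.on) J
  rw [h1, cP_full O Ψ h, sub_self]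

theorem cross_zero (Ψ : ElectronState N) (J : Fin N → (K ⊕ Fin m) × Fin 2) :
    conj (cP O Ψ J) * cT (cu O.φ) (QQ O Ψ) J = 0 := by
  by_cases h : Full J
  · rw [cT_QQ O Ψ h, mul_zero]
  · rw [cP_not O Ψ h, map_zero, zero_mul]

/-- the two parts are orthogonal -/
theorem inn_PQ (Ψ : ElectronState N) :
    ∑ s, ∫ x, conj ((PP O Ψ).amp s x) * (QQ O Ψ).amp s x = 0 := by
  have h := inn_ofTen_left (H := oneBody O.φ) (c := cP O Ψ) (hc := cP_anti O Ψ) (QQ O Ψ)
  have h1 : Vale.Agent.P363.R.Top.inn (PP O Ψ) (QQ O Ψ) =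
      ∑ s, ∫ x, conj ((PP O Ψ).amp s x) * (QQ O Ψ).amp s x := rfl
  rw [← h1]
  refine h.trans ?_
  exact Finset.sum_eq_zero fun J _ => cross_zero O Ψ J

/-- **no cross terms of the free Hamiltonian.** -/
theorem aForm_PQ (Ψ : ElectronState N) : eB (sumPotential vH) (PP O Ψ) (QQ O Ψ) = 0 := by
  have h := aForm_ofTen (v := vH) (e := O.en) (oneBody O.φ) (cP_anti O Ψ)
    (fun a => by
      have h1 := (memLp_vH (O.φ a)).ofReal (K := ℂ)
      refine h1.ae_eq (Eventually.of_forall fun x => ?_)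
      change ((vH x * (O.φ a).1.1 x : ℝ) : ℂ) = _
      unfold cu
      push_cast
      rfl)
    (eig_cu O) (F := (QQ O Ψ).amp) (G := (QQ O Ψ).grad)
    (fun s => L2_iff.1 ((QQ O Ψ).amp_memLp s)) (fun s i k => L2_iff.1 ((QQ O Ψ).grad_memLp s i k))
    (fun s i k => isWeakDeriv_iff.1 ((QQ O Ψ).grad_weak s i k))
  have h1 : aForm vH (ofTen (oneBody O.φ) (cP O Ψ) (cP_anti O Ψ)) (QQ O Ψ).amp (QQ O Ψ).grad =
      eB (sumPotential vH) (PP O Ψ) (QQ O Ψ) := rfl
  rw [← h1, h]
  refine Finset.sum_eq_zero fun J _ => ?_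
  have h2 : conj (cP O Ψ J) * coef volume (tp fun i => cu O.φ (J i).1)
      ((QQ O Ψ).amp fun i => (J i).2) = 0 := cross_zero O Ψ J
  rw [h2, mul_zero]

end

end Vale.Agent.P370.H405.C2
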