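import Vale.Agent.P370.H405.C23
import Vale.Agent.P370.C2.Scale
import Vale.Agent.P370.C2.Hardy
import Vale.Agent.P370.H365.GapO
import Vale.Agent.P370.H305.Blocks

/-!
Problem P370, blocks C2 + C3: proof of `C23Stmt`.
-/

namespace Vale.Agent.P370.H405.C2

open MeasureTheory Filter Topology
open Vale.Agent.P363.Stmt Vale.Agent.P363.R.Sob Vale.Agent.P363.R.Top
open Vale.Agent.P363.H382 hiding kin
open Vale.Agent.P363.H95 (cT)
open Vale.Agent.P363.H849 (H1 ip dir bc m1 m2 mW hardyInt)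
open Vale.Agent.P363.H943 (Fam fam)
open Vale.Agent.P370.H600 (MSt nsq hform T1 T2)
open Vale.Agent.P370.H405.C3
open Vale.Agent.P370.C2 (pV V1 kin HardyStmt ScaleStmt hardyStmt scaleStmt)
open Vale.Agent.P370.H365 (gapJ gapJ_pos gapJ_lower gap_orbs coreSq_zero)
open Vale.Agent.P370.H624 (Filled Shell se Closed card_Closed)
open Vale.Agent.P370.H305 (nel e0 lightF coreRep coreV tV gV C23Stmt SameNuclei)
open scoped ContDiff ENNReal ComplexConjugate

set_option linter.unusedSectionVars false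

noncomputable section

variable {m N D : ℕ}

/-! ### scaling of tensors, existence of an antisymmetric tensor -/

/-- multiple of a tensor -/
def scM (z : ℝ) (ψ : MSt D m) : MSt D m := fun a s => z * ψ a s

theorem scM_anti (z : ℝ) {ψ : MSt D m} (h : Vale.Agent.P370.H600.Anti ψ) :
    Vale.Agent.P370.H600.Anti (scM z ψ) := by
  intro σ a s
  unfold scM
  rw [h σ a s]; ring

theorem scM_nsq (z : ℝ) (ψ : MSt D m) : nsq (scM z ψ) = z ^ 2 * nsq ψ := by
  unfold nsq Vale.Agent.P370.H600.ip scM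
  simp only [Finset.mul_sum]
  exact Finset.sum_congr rfl fun a _ => Finset.sum_congr rfl fun s _ => by ring

theorem scM_T1 (z : ℝ) (t : Fin m → Fin m → ℝ) (ψ : MSt D m) (a : Fin D → Fin m)
    (s : Fin D → Bool) : T1 t (scM z ψ) a s = z * T1 t ψ a s := by
  unfold T1 scM
  simp only [Finset.mul_sum]
  exact Finset.sum_congr rfl fun i _ => Finset.sum_congr rfl fun b _ => by ring

theorem scM_T2 (z : ℝ) (g : Fin m → Fin m → Fin m → Fin m → ℝ) (ψ : MSt D m)
    (a : Fin D → Fin m) (s : Fin D → Bool) : T2 g (scM z ψ) a s = z * T2 g ψ a s := by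
  unfold T2 scM
  simp only [Finset.mul_sum]
  exact Finset.sum_congr rfl fun i _ => Finset.sum_congr rfl fun j _ =>
    Finset.sum_congr rfl fun b _ => Finset.sum_congr rfl fun d _ => by ring

theorem scM_hform (z : ℝ) (t : Fin m → Fin m → ℝ) (g : Fin m → Fin m → Fin m → Fin m → ℝ)
    (ψ : MSt D m) : hform t g (scM z ψ) = z ^ 2 * hform t g ψ := by
  unfold hform Vale.Agent.P370.H600.ip
  simp only [scM_T1, scM_T2, mul_add, Finset.mul_sum]
  unfold scM
  congr 1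
  · exact Finset.sum_congr rfl fun a _ => Finset.sum_congr rfl fun s _ => by ring
  · exact Finset.sum_congr rfl fun a _ => Finset.sum_congr rfl fun s _ => by ring

/-- Slater tensor of the orbitals `f`, all spins up -/
def sl (f : Fin D → Fin m) : MSt D m := fun a s =>
  ∑ σ : Equiv.Perm (Fin D), ((Equiv.Perm.sign σ : ℤ) : ℝ) *
    (if (∀ i, a (σ i) = f i) ∧ (∀ i, s i = true) then 1 else 0)

theorem sl_anti (f : Fin D → Fin m) : Vale.Agent.P370.H600.Anti (sl f) := by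
  intro τ a s
  unfold sl
  rw [Finset.mul_sum, ← Equiv.sum_comp (Equiv.mulLeft τ⁻¹)]
  refine Finset.sum_congr rfl fun σ _ => ?_
  have h1 : (∀ i, (a ∘ τ) ((Equiv.mulLeft τ⁻¹ σ) i) = f i) ↔ ∀ i, a (σ i) = f i := by
    refine forall_congr' fun i => ?_
    simp
  have h2 : (∀ i, (s ∘ τ) i = true) ↔ ∀ i, s i = true := by
    constructor
    · intro h i
      simpa using h (τ.symm i)
    · intro h i
      exact h (τ i)
  rw [if_congr (and_congr h1 h2) rfl rfl]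
  simp only [Equiv.coe_mulLeft, Equiv.Perm.sign_mul, Equiv.Perm.sign_inv, Units.val_mul,
    Int.cast_mul]
  ring

theorem sl_pos {f : Fin D → Fin m} (hf : Function.Injective f) : 0 < nsq (sl f) := by
  have h1 : sl f f (fun _ => true) = 1 := by
    unfold sl
    rw [Finset.sum_eq_single 1]
    · simp
    · intro σ _ hσ
      rw [if_neg, mul_zero]
      rintro ⟨h, -⟩
      apply hσ
      ext i
      have := hf (h i)
      rw [this]
      rfl
    · intro h; exact absurd (Finset.mem_univ _) h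
  unfold nsq Vale.Agent.P370.H600.ip
  have h2 : (1 : ℝ) ≤ ∑ a : Fin D → Fin m, ∑ s : Fin D → Bool, sl f a s * sl f a s := by
    calc (1 : ℝ) = sl f f (fun _ => true) * sl f f (fun _ => true) := by rw [h1]; ring
      _ ≤ ∑ s : Fin D → Bool, sl f f s * sl f f s :=
        Finset.single_le_sum (f := fun s : Fin D → Bool => sl f f s * sl f f s)
          (fun s _ => mul_self_nonneg _) (Finset.mem_univ _)
      _ ≤ _ := Finset.single_le_sum
          (f := fun a : Fin D → Fin m => ∑ s : Fin D → Bool, sl f a s * sl f a s)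
          (fun a _ => Finset.sum_nonneg fun s _ => mul_self_nonneg _) (Finset.mem_univ _)
  linarith

/-! ### the data -/

variable {J : ℕ}

/-- the orbitals -/
def OO (S : Filled J (Closed J)) (hS : ∀ a, S.lv a = a.1.1) (φ : Fin ((J + 1) ^ 2) → H1)
    (hφ : ∀ a, φ a ∈ Shell J) (hφo : ∀ a b, ip (φ a) (φ b) = if a = b then 1 else 0) :
    Orbs (Closed J) ((J + 1) ^ 2) :=
  orbsOfClosed S.φ (fun a => by rw [← hS a]; exact S.mem a) S.on φ hφ hφo

section

variable (S : Filled J (Closed J)) (hS : ∀ a, S.lv a = a.1.1) (φ : Fin ((J + 1) ^ 2) → H1)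
    (hφ : ∀ a, φ a ∈ Shell J) (hφo : ∀ a b, ip (φ a) (φ b) = if a = b then 1 else 0)
    (L : Finset (Fin 3 → ℤ)) (y : (Fin 3 → ℤ) → R3)

theorem vI_vL (f g : H1) : vI (vL L y) f g = lightF L y f.1.1 g.1.1 := by
  unfold vI vL lightF Vale.Agent.P370.H198.pot
  have h1 : ∀ x, -(∑ k ∈ L, 1 / ‖x - y k‖) * (f.1.1 x * g.1.1 x) =
      ∑ k ∈ L, -(f.1.1 x * g.1.1 x / ‖x - y k‖) := by
    intro x
    rw [neg_mul, Finset.sum_mul, ← Finset.sum_neg_distrib]
    exact Finset.sum_congr rfl fun j _ => by ring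
  simp only [h1]
  have h2 : ∀ j ∈ L, Integrable (fun x => -(f.1.1 x * g.1.1 x / ‖x - y j‖)) :=
    fun j _ => (int_ptV f g (y j)).neg
  rw [integral_finsetSum _ h2, ← Finset.sum_neg_distrib]
  exact Finset.sum_congr rfl fun j _ => integral_neg _

theorem tEff_OO : (OO S hS φ hφ hφo).tEff (vL L y) = tV S L y φ := by
  funext a b
  rw [Orbs.tEff_eq, vI_vL]
  rfl

theorem gEff_OO : (OO S hS φ hφ hφo).gEff = gV φ := rfl

theorem eCore_OO : (OO S hS φ hφ hφo).eCore (vL L y) = coreV S L y := by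
  rw [Orbs.eCore_eq]
  simp only [vI_vL]
  rfl

theorem card_eq : Fintype.card (Closed J) = ∑ j ∈ Finset.range (J + 1), j ^ 2 := by
  rw [card_Closed, Finset.sum_range_succ']
  simp

theorem nel_eq (D : ℕ) : nel (J + 1) D = D + 2 * Fintype.card (Closed J) := by
  unfold nel
  rw [card_eq]
  ring

theorem e0_OO (D : ℕ) : (OO S hS φ hφ hφo).e0 D = e0 (J + 1) D := by
  unfold Orbs.e0 e0
  have h1 : ∑ k : Closed J, (OO S hS φ hφ hφo).e k = -(J : ℝ) / 2 := by
    have h2 : ∀ k : Closed J, (OO S hS φ hφ hφo).e k = se k.1.1 := fun k => rfl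
    rw [Finset.sum_congr rfl fun k _ => h2 k, Fintype.sum_sigma]
    have h3 : ∀ j : Fin J, ∑ _i : Fin ((j.1 + 1) ^ 2), se j.1 = -(1 / 2 : ℝ) := by
      intro j
      rw [Finset.sum_const, Finset.card_univ, Fintype.card_fin, nsmul_eq_mul]
      unfold se
      have : ((j.1 : ℝ) + 1) ≠ 0 := by positivity
      push_cast
      field_simp
    rw [Finset.sum_congr rfl fun j _ => h3 j, Finset.sum_const, Finset.card_univ,
      Fintype.card_fin, nsmul_eq_mul]
    ring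
  have h4 : (OO S hS φ hφ hφo).eJ = se J := rfl
  rw [h1, h4]
  unfold se
  push_cast
  field_simp
  ring

end

/-! ### bounds -/

theorem pot_self (w : Conf N → ℝ) (Φ : ElectronState N) :
    Fam.pot w (fam Φ) (fam Φ) = ((∑ s, intR (fun x => w x * ‖Φ.amp s x‖ ^ 2) : ℝ) : ℂ) := by
  unfold Fam.pot
  rw [Complex.ofReal_sum]
  refine Finset.sum_congr rfl fun s _ => ?_
  rw [intR_eq, ← integral_complex_ofReal]
  congr 1; funext x
  simp only [Vale.Agent.P363.H943.fam_amp]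
  rw [conj_mul_self_ofReal]
  push_cast
  rfl

theorem sqrt_kin_le {K : Type} [Fintype K] [DecidableEq K] (O : Orbs K m) (he0 : O.e0 D ≤ 0)
    {Φ : ElectronState N} (h2 : energy (pot 0) Φ = O.e0 D * normSq Φ)
    (h6 : kin Φ ≤ 4 * (energy (pot 0) Φ + 4 * N * normSq Φ)) :
    Real.sqrt (kin Φ) ≤ 4 * Real.sqrt (N : ℝ) * Real.sqrt (normSq Φ) := by
  have ha := normSq_nonneg' Φ
  have h8 : kin Φ ≤ 16 * (N : ℝ) * normSq Φ := by
    rw [h2] at h6
    have : O.e0 D * normSq Φ ≤ 0 := mul_nonpos_of_nonpos_of_nonneg he0 ha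
    nlinarith
  calc Real.sqrt (kin Φ) ≤ Real.sqrt (16 * (N : ℝ) * normSq Φ) := Real.sqrt_le_sqrt h8
    _ = _ := by
      rw [Real.sqrt_mul (by positivity), Real.sqrt_mul (by norm_num)]
      have : Real.sqrt 16 = 4 := by
        rw [show (16 : ℝ) = 4 ^ 2 by norm_num]
        exact Real.sqrt_sq (by norm_num)
      rw [this]

/-- a lower bound of the first order form is not large. -/
theorem mu_le {K : Type} [Fintype K] [DecidableEq K] {κ : Type} (O : Orbs K m) (hD : 2 ≤ D)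
    (hH : HardyStmt) (L : Finset κ) (y : κ → R3) {μ : ℝ} (he0 : O.e0 D ≤ 0) {ψ : MSt D m}
    (hψ : Vale.Agent.P370.H600.Anti ψ) (hpos : 0 < nsq ψ)
    (hμ : μ * nsq ψ ≤ hform (O.tEff (vL L y)) O.gEff ψ) :
    O.eCore (vL L y) + μ ≤ 8 * ((D + 2 * Fintype.card K : ℕ) : ℝ) *
      ((L.card : ℝ) + ((D + 2 * Fintype.card K : ℕ) : ℝ)) *
      Real.sqrt ((D + 2 * Fintype.card K : ℕ) : ℝ) := by
  obtain ⟨hadm, hcr, hv1, hkin⟩ := hH κ L y (D + 2 * Fintype.card K)
  obtain ⟨c, hc, hk, hn, hE, hV1⟩ := energies_up O hD hH L y hψ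
  set Φ := O.st hc with hΦ
  have h1 := hcr Φ Φ
  rw [pot_self] at h1
  have h2 : V1 L y Φ ≤ 2 * ((D + 2 * Fintype.card K : ℕ) : ℝ) *
      ((L.card : ℝ) + ((D + 2 * Fintype.card K : ℕ) : ℝ)) * Real.sqrt (kin Φ) *
      Real.sqrt (normSq Φ) := by
    refine le_trans ?_ h1
    rw [Complex.norm_real]
    exact le_abs_self _
  have h3 := sqrt_kin_le O he0 (Φ := Φ) (by rw [hE, hn]) (hkin Φ)
  have h4 : Real.sqrt (normSq Φ) * Real.sqrt (normSq Φ) = nsq ψ := by
    rw [Real.mul_self_sqrt (normSq_nonneg' Φ), hn]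
  have h9 : 0 ≤ 2 * ((D + 2 * Fintype.card K : ℕ) : ℝ) *
      ((L.card : ℝ) + ((D + 2 * Fintype.card K : ℕ) : ℝ)) := by positivity
  have h5 : V1 L y Φ ≤ 8 * ((D + 2 * Fintype.card K : ℕ) : ℝ) *
      ((L.card : ℝ) + ((D + 2 * Fintype.card K : ℕ) : ℝ)) *
      Real.sqrt ((D + 2 * Fintype.card K : ℕ) : ℝ) * nsq ψ := by
    refine h2.trans ?_
    calc 2 * ((D + 2 * Fintype.card K : ℕ) : ℝ) *
        ((L.card : ℝ) + ((D + 2 * Fintype.card K : ℕ) : ℝ)) * Real.sqrt (kin Φ) *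
        Real.sqrt (normSq Φ)
        ≤ 2 * ((D + 2 * Fintype.card K : ℕ) : ℝ) *
        ((L.card : ℝ) + ((D + 2 * Fintype.card K : ℕ) : ℝ)) *
        (4 * Real.sqrt ((D + 2 * Fintype.card K : ℕ) : ℝ) * Real.sqrt (normSq Φ)) *
        Real.sqrt (normSq Φ) := by
          refine mul_le_mul_of_nonneg_right ?_ (Real.sqrt_nonneg _)
          exact mul_le_mul_of_nonneg_left h3 h9
      _ = 8 * ((D + 2 * Fintype.card K : ℕ) : ℝ) *
        ((L.card : ℝ) + ((D + 2 * Fintype.card K : ℕ) : ℝ)) *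
        Real.sqrt ((D + 2 * Fintype.card K : ℕ) : ℝ) *
          (Real.sqrt (normSq Φ) * Real.sqrt (normSq Φ)) := by ring
      _ = _ := by rw [h4]
  have h6 : (O.eCore (vL L y) + μ) * nsq ψ ≤ V1 L y Φ := by
    rw [hV1]
    linarith
  exact le_of_mul_le_mul_right (h6.trans h5) hpos

/-! ### the theorem -/

theorem num_bounds {X Nn Lc g Z : ℝ} (hX : 6 ≤ X) (hN : Nn ≤ X ^ 4) (hN1 : 1 ≤ Nn) (hL : Lc ≤ X)
    (hL0 : 0 ≤ Lc) (hg : 1 / X ^ 3 ≤ g) (hZ : X ^ 30 ≤ Z) :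
    128 * Nn ^ 3 * (Lc + Nn) ^ 2 / g ≤ X ^ 30 ∧ 84 * (1 / Z) * Lc * Nn ≤ g ∧
      (1 / Z) * (8 * Nn * (Lc + Nn) * Real.sqrt Nn) ≤ g / 4 := by
  have hX0 : 0 < X := by linarith
  have hg0 : 0 < g := lt_of_lt_of_le (by positivity) hg
  have hZ0 : 0 < Z := lt_of_lt_of_le (by positivity) hZ
  have hgi : 1 ≤ g * X ^ 3 := by
    have := mul_le_mul_of_nonneg_right hg (by positivity : (0 : ℝ) ≤ X ^ 3)
    rwa [one_div, inv_mul_cancel₀ (by positivity)] at this
  have hX1 : 1 ≤ X := by linarith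
  have hXX : X ≤ X ^ 4 := by
    calc X = X ^ 1 := (pow_one X).symm
      _ ≤ X ^ 4 := pow_le_pow_right₀ hX1 (by norm_num)
  have hLN : Lc + Nn ≤ 2 * X ^ 4 := by linarith
  have hLN0 : 0 ≤ Lc + Nn := by linarith
  have hp : ∀ k : ℕ, (6 : ℝ) ^ k ≤ X ^ k := fun k => pow_le_pow_left₀ (by norm_num) hX k
  refine ⟨?_, ?_, ?_⟩
  · rw [div_le_iff₀ hg0]
    have h1 : Nn ^ 3 ≤ (X ^ 4) ^ 3 := pow_le_pow_left₀ (by linarith) hN 3
    have h2 : (Lc + Nn) ^ 2 ≤ (2 * X ^ 4) ^ 2 := pow_le_pow_left₀ hLN0 hLN 2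
    calc 128 * Nn ^ 3 * (Lc + Nn) ^ 2 ≤ 128 * (X ^ 4) ^ 3 * (2 * X ^ 4) ^ 2 := by gcongr
      _ = 512 * X ^ 20 := by ring
      _ ≤ X ^ 7 * X ^ 20 := by
          refine mul_le_mul_of_nonneg_right ?_ (by positivity)
          exact le_trans (by norm_num) (hp 7)
      _ = X ^ 27 * 1 := by ring
      _ ≤ X ^ 27 * (g * X ^ 3) := mul_le_mul_of_nonneg_left hgi (by positivity)
      _ = X ^ 30 * g := by ring
  · have h1 : 84 * (1 / Z) * Lc * Nn = (84 * Lc * Nn) / Z := by ring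
    rw [h1, div_le_iff₀ hZ0]
    calc 84 * Lc * Nn ≤ 84 * X * X ^ 4 := by gcongr
      _ = 84 * X ^ 5 := by ring
      _ ≤ X ^ 22 * X ^ 5 := by
          refine mul_le_mul_of_nonneg_right ?_ (by positivity)
          exact le_trans (by norm_num) (hp 22)
      _ = 1 * X ^ 27 := by ring
      _ ≤ (g * X ^ 3) * X ^ 27 := mul_le_mul_of_nonneg_right hgi (by positivity)
      _ = g * X ^ 30 := by ring
      _ ≤ g * Z := mul_le_mul_of_nonneg_left hZ hg0.le
  · have h1 : (1 / Z) * (8 * Nn * (Lc + Nn) * Real.sqrt Nn) =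
        (8 * Nn * (Lc + Nn) * Real.sqrt Nn) / Z := by ring
    rw [h1, div_le_iff₀ hZ0]
    have hs : Real.sqrt Nn ≤ X ^ 4 := by
      refine le_trans ?_ hN
      rw [Real.sqrt_le_left (by linarith)]
      nlinarith
    calc 8 * Nn * (Lc + Nn) * Real.sqrt Nn ≤ 8 * X ^ 4 * (2 * X ^ 4) * X ^ 4 := by gcongr
      _ = 16 * X ^ 12 := by ring
      _ ≤ (X ^ 15 / 4) * X ^ 12 := by
          refine mul_le_mul_of_nonneg_right ?_ (by positivity)
          have := hp 15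
          linarith [show (6 : ℝ) ^ 15 ≥ 64 by norm_num]
      _ = 1 / 4 * X ^ 27 * 1 := by ring
      _ ≤ 1 / 4 * X ^ 27 * (g * X ^ 3) := mul_le_mul_of_nonneg_left hgi (by positivity)
      _ = g / 4 * X ^ 30 := by ring
      _ ≤ g / 4 * Z := mul_le_mul_of_nonneg_left hZ (by positivity)

theorem gapJ_le_one (J : ℕ) : gapJ J ≤ 1 := by
  unfold gapJ se
  have h1 : (1 : ℝ) / (2 * ((J : ℝ) + 1) ^ 2) ≤ 1 := by
    rw [div_le_one (by positivity)]
    nlinarith [Nat.cast_nonneg (α := ℝ) J]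
  have h2 : 0 ≤ (1 : ℝ) / (2 * (((J + 1 : ℕ) : ℝ) + 1) ^ 2) := by positivity
  linarith

theorem card_le (J : ℕ) : Fintype.card (Closed J) ≤ J ^ 3 := by
  rw [card_Closed]
  calc ∑ j ∈ Finset.range J, (j + 1) ^ 2 ≤ ∑ _j ∈ Finset.range J, J ^ 2 :=
        Finset.sum_le_sum fun j hj =>
          Nat.pow_le_pow_left (by have := Finset.mem_range.1 hj; omega) 2
    _ = J ^ 3 := by
        rw [Finset.sum_const, Finset.card_range, smul_eq_mul]
        ring

theorem inv_sqrt_sq {x : ℝ} (hx : 0 < x) : (1 / Real.sqrt x) ^ 2 = 1 / x := by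
  rw [div_pow, one_pow, Real.sq_sqrt hx.le]

/-- **Blocks C2 and C3.** -/
theorem c23 : C23Stmt := by
  refine ⟨30, ?_⟩
  intro J D S hS φ hφ hφo hD hDJ Zc L y _ M Z R hsame hZ μ
  set O := OO S hS φ hφ hφo with hO
  have hTe : O.tEff (vL L y) = tV S L y φ := tEff_OO S hS φ hφ hφo L y
  have hGe : O.gEff = gV φ := rfl
  have hCe : O.eCore (vL L y) = coreV S L y := eCore_OO S hS φ hφ hφo L y
  have hE0 : O.e0 D = e0 (J + 1) D := e0_OO S hS φ hφ hφo D
  have hJ1 : 1 ≤ J := by omega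
  have hX6 : (6 : ℝ) ≤ ((J + D + L.card + 3 : ℕ) : ℝ) := by
    exact_mod_cast (by omega : 6 ≤ J + D + L.card + 3)
  have hNX : ((D + 2 * Fintype.card (Closed J) : ℕ) : ℝ) ≤
      ((J + D + L.card + 3 : ℕ) : ℝ) ^ 4 := by
    have h1 : D + 2 * Fintype.card (Closed J) ≤ (J + D + L.card + 3) ^ 4 := by
      set X := J + D + L.card + 3 with hX
      have h2 : J ≤ X := by omega
      have h3 : D ≤ X := by omega
      have h4 : J ^ 3 ≤ X ^ 3 := Nat.pow_le_pow_left h2 3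
      have h5 := card_le J
      have h6 : 6 ≤ X := by omega
      have h7 : X ≤ X ^ 3 := Nat.le_self_pow (by norm_num) X
      calc D + 2 * Fintype.card (Closed J) ≤ X ^ 3 + 2 * X ^ 3 := by omega
        _ = 3 * X ^ 3 := by ring
        _ ≤ X * X ^ 3 := Nat.mul_le_mul_right _ (by omega)
        _ = X ^ 4 := by ring
    exact_mod_cast h1
  have hN1 : (1 : ℝ) ≤ ((D + 2 * Fintype.card (Closed J) : ℕ) : ℝ) := by
    exact_mod_cast (by omega : 1 ≤ D + 2 * Fintype.card (Closed J))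
  have hLX : (L.card : ℝ) ≤ ((J + D + L.card + 3 : ℕ) : ℝ) := by
    exact_mod_cast (by omega : L.card ≤ J + D + L.card + 3)
  have hgX : 1 / ((J + D + L.card + 3 : ℕ) : ℝ) ^ 3 ≤ gapJ J := by
    refine le_trans ?_ (gapJ_lower J)
    have h1 : (J : ℝ) + 2 ≤ ((J + D + L.card + 3 : ℕ) : ℝ) := by
      exact_mod_cast (by omega : J + 2 ≤ J + D + L.card + 3)
    have h2 : ((J : ℝ) + 2) ^ 3 ≤ ((J + D + L.card + 3 : ℕ) : ℝ) ^ 3 :=
      pow_le_pow_left₀ (by positivity) h1 3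
    exact one_div_le_one_div_of_le (by positivity) h2
  have hZr : ((J + D + L.card + 3 : ℕ) : ℝ) ^ 30 ≤ (Zc : ℝ) := by exact_mod_cast hZ
  obtain ⟨hb1, hb2, hb3⟩ := num_bounds hX6 hNX hN1 hLX (Nat.cast_nonneg _) hgX hZr
  have hZ1 : 1 ≤ Zc := le_trans (Nat.one_le_pow _ _ (by omega)) hZ
  have hZp : (0 : ℝ) < (Zc : ℝ) := by exact_mod_cast hZ1
  have hsc := scaleStmt (Fin 3 → ℤ) L y (D + 2 * Fintype.card (Closed J)) Zc M Z R hZ1 hsame
  have he0 : O.e0 D ≤ 0 := by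
    rw [hE0]
    unfold e0
    have h1 : 0 ≤ (D : ℝ) / (2 * (((J + 1 : ℕ)) : ℝ) ^ 2) := by positivity
    have h2 : (0 : ℝ) ≤ (J : ℝ) := Nat.cast_nonneg _
    push_cast at h1 ⊢
    linarith
  rw [nel_eq (J := J) D]
  constructor
  · intro hμ
    have hμ' : ∀ ψ : MSt D ((J + 1) ^ 2), Vale.Agent.P370.H600.Anti ψ →
        μ * nsq ψ ≤ hform (O.tEff (vL L y)) O.gEff ψ := by
      rw [hTe, hGe]
      exact hμ
    have hDm : D ≤ (J + 1) ^ 2 := hDJ.trans (Nat.le_self_pow (by norm_num) _)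
    have hsl := sl_pos (Fin.castLE_injective hDm)
    have hmu := mu_le O hD hardyStmt L y he0 (sl_anti (Fin.castLE hDm)) hsl
      (hμ' _ (sl_anti (Fin.castLE hDm)))
    have h2 : 1 / (Zc : ℝ) * (O.eCore (vL L y) + μ) ≤ gapJ J / 4 :=
      (mul_le_mul_of_nonneg_left hmu (by positivity)).trans hb3
    have hex : ∃ Ψ : ElectronState (D + 2 * Fintype.card (Closed J)), normSq Ψ = 1 := by
      obtain ⟨c, hc, -, hn, -, -⟩ := energies_up O hD hardyStmt L y
        (scM_anti (1 / Real.sqrt (nsq (sl (Fin.castLE hDm)))) (sl_anti (Fin.castLE hDm)))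
      refine ⟨O.st hc, ?_⟩
      rw [hn, scM_nsq, inv_sqrt_sq hsl, one_div, inv_mul_cancel₀ hsl.ne']
    have hgap : GapO O D (gapJ J) := by
      intro Q hQ
      have h3 : (O.e0 D + gapJ J) * normSq Q -
          gapJ J * Vale.Agent.P370.H365.coreSq (cu O.φ) Q ≤ energy (pot 0) Q :=
        gap_orbs S.φ (fun a => by rw [← hS a]; exact S.mem a) S.on φ hφ hφo rfl
        (rfl : D + 2 * Fintype.card (Closed J) = D + 2 * Fintype.card (Closed J)) Q
      rw [coreSq_zero hQ, mul_zero, sub_zero] at h3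
      exact h3
    refine hsc.2 _ hex fun Ψ hΨ => ?_
    have h := scaled_lower O hD hardyStmt L y (gapJ_pos J) (gapJ_le_one J) hgap he0
      (by positivity : 0 ≤ 1 / (Zc : ℝ)) hb2 h2 hμ' Ψ
    rw [hΨ, mul_one, hE0, hCe] at h
    have h3 := mul_le_mul_of_nonneg_left h (sq_nonneg (Zc : ℝ))
    have e1 : (Zc : ℝ) ^ 2 * (e0 (J + 1) D + 1 / (Zc : ℝ) * (coreV S L y + μ) -
        (1 / (Zc : ℝ)) ^ 2 * (128 * ((D + 2 * Fintype.card (Closed J) : ℕ) : ℝ) ^ 3 *
          (L.card + ((D + 2 * Fintype.card (Closed J) : ℕ) : ℝ)) ^ 2 / gapJ J)) =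
        (Zc : ℝ) ^ 2 * e0 (J + 1) D + Zc * (coreV S L y + μ) -
        128 * ((D + 2 * Fintype.card (Closed J) : ℕ) : ℝ) ^ 3 *
          (L.card + ((D + 2 * Fintype.card (Closed J) : ℕ) : ℝ)) ^ 2 / gapJ J := by
      have hg := (gapJ_pos J).ne'
      field_simp
    have e2 : (Zc : ℝ) ^ 2 * (energy (pot 0) Ψ + 1 / (Zc : ℝ) * V1 L y Ψ) =
        (Zc : ℝ) ^ 2 * energy (pot 0) Ψ + Zc * V1 L y Ψ := by
      field_simp
    rw [e1, e2] at h3
    linarith
  · rintro ⟨ψ, hψ, hpos, hle⟩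
    obtain ⟨c, hc, -, hn, hE, hV⟩ := energies_up O hD hardyStmt L y
      (scM_anti (1 / Real.sqrt (nsq ψ)) hψ)
    have hn1 : nsq (scM (1 / Real.sqrt (nsq ψ)) ψ) = 1 := by
      rw [scM_nsq, inv_sqrt_sq hpos, one_div, inv_mul_cancel₀ hpos.ne']
    refine (hsc.1 (O.st hc) (by rw [hn, hn1])).trans ?_
    rw [hE, hV, hn1, hTe, hGe, hCe, hE0, scM_hform, inv_sqrt_sq hpos, mul_one, mul_one]
    have h1 : 1 / nsq ψ * hform (tV S L y φ) (gV φ) ψ ≤ μ := by
      rw [one_div, inv_mul_le_iff₀ hpos]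
      linarith
    have h2 : (Zc : ℝ) * (coreV S L y + 1 / nsq ψ * hform (tV S L y φ) (gV φ) ψ) ≤
        Zc * (coreV S L y + μ) := mul_le_mul_of_nonneg_left (by linarith) hZp.le
    linarith

end

end Vale.Agent.P370.H405.C2
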