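import Vale.Agent.P370.H405.C3Shell

/-!
Problem P370, block C3: energies of states with filled closed shells, first order form.
-/

namespace Vale.Agent.P370.H405.C3

open MeasureTheory Filter Topology
open Vale.Agent.P363.Stmt Vale.Agent.P363.R.Sob Vale.Agent.P363.H382 Vale.Agent.P363.R.Top
open Vale.Agent.P363.H95 (tp OneBody Orth AntiT ofTen Dc CoulInt)
open Vale.Agent.P363.H849 (H1 ip dir bc m1 m2 mW hardyInt)
open Vale.Agent.P370.H600 (MSt nsq T1 T2 hform)
open scoped ContDiff ENNReal ComplexConjugate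

set_option linter.unusedSectionVars false

noncomputable section

variable {K : Type} [Fintype K] [DecidableEq K] {m N D : ℕ}

/-- closed shell orbitals (labels `K`) and the orbitals of the valence shell (labels `Fin m`) of the
hydrogen operator `-(1/2) Δ - 1/|x|`. -/
structure Orbs (K : Type) [Fintype K] [DecidableEq K] (m : ℕ) where
  φ : K ⊕ Fin m → H1
  on : ∀ a b, ip (φ a) (φ b) = if a = b then 1 else 0
  e : K → ℝ
  eJ : ℝ
  eigK : ∀ k f, 1 / 2 * dir f (φ (Sum.inl k)) - bc hardyInt f (φ (Sum.inl k)) =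
    e k * ip f (φ (Sum.inl k))
  eigV : ∀ i f, 1 / 2 * dir f (φ (Sum.inr i)) - bc hardyInt f (φ (Sum.inr i)) =
    eJ * ip f (φ (Sum.inr i))

namespace Orbs

variable (O : Orbs K m)

/-- one-body energies -/
def en : K ⊕ Fin m → ℝ := Sum.elim O.e (fun _ => O.eJ)

theorem eig (a : K ⊕ Fin m) (f : H1) : 1 / 2 * dir f (O.φ a) - bc hardyInt f (O.φ a) =
    O.en a * ip f (O.φ a) := by
  rcases a with k | i
  · exact O.eigK k f
  · exact O.eigV i f

/-- matrix of the external potential `v` -/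
def tv (v : R3 → ℝ) (a b : K ⊕ Fin m) : ℝ := vI v (O.φ a) (O.φ b)

/-- Coulomb integrals `(ab|cd)` -/
def gv (a b c d : K ⊕ Fin m) : ℝ := gI (O.φ a) (O.φ b) (O.φ c) (O.φ d)

theorem gv_symm (a b c d : K ⊕ Fin m) : O.gv a b c d = O.gv c d a b := gI_symm _ _ _ _

/-- effective one-body matrix on the valence shell -/
def tEff (v : R3 → ℝ) (α β : Fin m) : ℝ := v1 (Teff (O.tv v) O.gv) α β

/-- Coulomb integrals of the valence shell -/
def gEff (α β γ δ : Fin m) : ℝ := v2 O.gv α β γ δ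

/-- first order energy of the closed shells -/
def eCore (v : R3 → ℝ) : ℝ := Ec (O.tv v) O.gv

theorem tEff_eq (v : R3 → ℝ) (α β : Fin m) : O.tEff v α β =
    vI v (O.φ (Sum.inr α)) (O.φ (Sum.inr β)) + ∑ k : K,
      (2 * gI (O.φ (Sum.inr α)) (O.φ (Sum.inr β)) (O.φ (Sum.inl k)) (O.φ (Sum.inl k)) -
        gI (O.φ (Sum.inr α)) (O.φ (Sum.inl k)) (O.φ (Sum.inr β)) (O.φ (Sum.inl k))) := by
  unfold tEff v1 Teff tv gv
  congr 1
  refine Finset.sum_congr rfl fun k _ => ?_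
  rw [gI_swap_right (O.φ (Sum.inr α)) (O.φ (Sum.inl k)) (O.φ (Sum.inl k)) (O.φ (Sum.inr β))]

theorem eCore_eq (v : R3 → ℝ) : O.eCore v = 2 * ∑ k : K, vI v (O.φ (Sum.inl k)) (O.φ (Sum.inl k)) +
    ∑ k : K, ∑ l : K,
      (2 * gI (O.φ (Sum.inl k)) (O.φ (Sum.inl k)) (O.φ (Sum.inl l)) (O.φ (Sum.inl l)) -
        gI (O.φ (Sum.inl k)) (O.φ (Sum.inl l)) (O.φ (Sum.inl k)) (O.φ (Sum.inl l))) := by
  unfold eCore Ec tv gv
  congr 1
  refine Finset.sum_congr rfl fun k _ => Finset.sum_congr rfl fun l _ => ?_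
  rw [gI_swap_right (O.φ (Sum.inl k)) (O.φ (Sum.inl l)) (O.φ (Sum.inl l)) (O.φ (Sum.inl k))]

/-- zeroth order energy of the closed shells and `D` valence electrons -/
def e0 (D : ℕ) : ℝ := 2 * ∑ k, O.e k + D * O.eJ

/-- the scaled one-body potential -/
def pot1 (lam : ℝ) (v : R3 → ℝ) (x : R3) : ℝ := -(1 / ‖x‖) + lam * v x

theorem vIntR_pot1 {v : R3 → ℝ} (hv : VIntR v O.φ) (lam : ℝ) : VIntR (pot1 lam v) O.φ := by
  intro a b
  have h1 := (Vale.Agent.P363.H849.bc_integrable hardyInt (O.φ a) (O.φ b)).neg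
  have h2 := (hv a b).const_mul lam
  refine (h1.add h2).congr (Eventually.of_forall fun x => ?_)
  simp only [Pi.add_apply, Pi.neg_apply, pot1]
  ring

theorem vI_pot1 {v : R3 → ℝ} (hv : VIntR v O.φ) (lam : ℝ) (a b : K ⊕ Fin m) :
    vI (pot1 lam v) (O.φ a) (O.φ b) = -bc hardyInt (O.φ a) (O.φ b) +
      lam * vI v (O.φ a) (O.φ b) := by
  unfold vI
  rw [Vale.Agent.P363.H849.bc_apply, ← integral_neg, ← integral_const_mul, ← integral_add]
  · congr 1; funext x
    unfold pot1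
    ring
  · exact (Vale.Agent.P363.H849.bc_integrable hardyInt (O.φ a) (O.φ b)).neg
  · exact (hv a b).const_mul lam

/-- one-body matrix of the scaled Hamiltonian -/
def t01 (lam : ℝ) (v : R3 → ℝ) (a b : K ⊕ Fin m) : ℝ :=
  (if a = b then O.en b else 0) + lam * O.tv v a b

theorem hOne_eq {v : R3 → ℝ} (hv : VIntR v O.φ) (lam : ℝ) (a b : K ⊕ Fin m) :
    hOne (pot1 lam v) (cu O.φ) (cgu O.φ) a b = ((O.t01 lam v a b : ℝ) : ℂ) := by
  unfold hOne
  rw [Kc_eq, Vc_eq, O.vI_pot1 hv]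
  have h1 := O.eig b (O.φ a)
  rw [O.on] at h1
  unfold t01 tv
  have h2 : (1 / 2 : ℂ) * ((dir (O.φ a) (O.φ b) : ℝ) : ℂ) +
      ((-bc hardyInt (O.φ a) (O.φ b) + lam * vI v (O.φ a) (O.φ b) : ℝ) : ℂ) =
      ((1 / 2 * dir (O.φ a) (O.φ b) - bc hardyInt (O.φ a) (O.φ b) +
        lam * vI v (O.φ a) (O.φ b) : ℝ) : ℂ) := by
    push_cast
    ring
  rw [h2, h1]
  congr 2
  split_ifs <;> simp

theorem sp_hOne {v : R3 → ℝ} (hv : VIntR v O.φ) (lam : ℝ) :
    sp (hOne (pot1 lam v) (cu O.φ) (cgu O.φ)) = spR (O.t01 lam v) := by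
  funext p q
  unfold sp spR
  split_ifs
  · exact O.hOne_eq hv lam _ _
  · rfl

theorem sp2_Dc : sp2 (Dc (cu O.φ)) = sp2R O.gv := by
  funext p p' q q'
  unfold sp2 sp2R
  split_ifs
  · exact Dc_eq O.φ _ _ _ _
  · rfl

theorem sp2R_smul (lam : ℝ) (G : K ⊕ Fin m → K ⊕ Fin m → K ⊕ Fin m → K ⊕ Fin m → ℝ) :
    sp2R (fun a b c d => lam * G a b c d) = fun p p' q q' => (lam : ℂ) * sp2R G p p' q q' := by
  funext p p' q q'
  unfold sp2R
  split_ifs
  · push_cast; ring
  · simp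

/-- the state of a tensor -/
def st {c : (Fin N → (K ⊕ Fin m) × Fin 2) → ℂ} (hc : Anti c) : ElectronState N :=
  ofTen (oneBody O.φ) c hc

theorem normSq_st {c : (Fin N → (K ⊕ Fin m) × Fin 2) → ℂ} (hc : Anti c) :
    ((normSq (O.st hc) : ℝ) : ℂ) = inn c c := by
  rw [Vale.Agent.P363.H95.normSq_eq_inn]
  exact Vale.Agent.P363.H95.inn_ofTen (orth O.on)

/-- energy of the state of a tensor -/
theorem energy_st (hN : 2 ≤ N) {c : (Fin N → (K ⊕ Fin m) × Fin 2) → ℂ} (hc : Anti c)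
    {v : R3 → ℝ} (hv : VIntR v O.φ) (lam : ℝ) :
    energy (fun x => sumPotential (pot1 lam v) x + lam * rep x) (O.st hc) =
      (F1 (spR (O.t01 lam v)) c + F2 (sp2R fun a b c d => lam * O.gv a b c d) c).re := by
  obtain ⟨n, rfl⟩ : ∃ n, N = n + 2 := ⟨N - 2, by omega⟩
  have h := energy_ofTen (H := oneBody O.φ) (c := c) (hc := hc) (orth O.on) (coulInt O.φ)
    (vInt_of (O.vIntR_pot1 hv lam)) lam
  rw [O.sp_hOne hv, O.sp2_Dc] at h
  rw [sp2R_smul, F2_smul, ← h, Complex.ofReal_re]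
  rfl

/-! ### splitting of the forms -/

theorem Ec_t01 (v : R3 → ℝ) (lam : ℝ) :
    Ec (O.t01 lam v) (fun a b c d => lam * O.gv a b c d) = 2 * ∑ k, O.e k + lam * O.eCore v := by
  unfold Ec eCore Ec t01
  have h1 : ∀ k : K, ((if (Sum.inl k : K ⊕ Fin m) = Sum.inl k then O.en (Sum.inl k) else 0) +
      lam * O.tv v (Sum.inl k) (Sum.inl k)) = O.e k + lam * O.tv v (Sum.inl k) (Sum.inl k) := by
    intro k
    rw [if_pos rfl]
    rfl
  rw [Finset.sum_congr rfl fun k _ => h1 k]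
  rw [Finset.sum_add_distrib, ← Finset.mul_sum]
  have h2 : ∀ k l : K, 2 * (lam * O.gv (Sum.inl k) (Sum.inl k) (Sum.inl l) (Sum.inl l)) -
      lam * O.gv (Sum.inl k) (Sum.inl l) (Sum.inl l) (Sum.inl k) =
      lam * (2 * O.gv (Sum.inl k) (Sum.inl k) (Sum.inl l) (Sum.inl l) -
        O.gv (Sum.inl k) (Sum.inl l) (Sum.inl l) (Sum.inl k)) := fun k l => by ring
  simp only [h2, ← Finset.mul_sum]
  ring

theorem v1_t01 (v : R3 → ℝ) (lam : ℝ) (α β : Fin m) :
    v1 (Teff (O.t01 lam v) (fun a b c d => lam * O.gv a b c d)) α β =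
      (if α = β then O.eJ else 0) + lam * O.tEff v α β := by
  unfold tEff v1 Teff t01
  have h2 : ∀ k : K, 2 * (lam * O.gv (Sum.inr α) (Sum.inr β) (Sum.inl k) (Sum.inl k)) -
      lam * O.gv (Sum.inr α) (Sum.inl k) (Sum.inl k) (Sum.inr β) =
      lam * (2 * O.gv (Sum.inr α) (Sum.inr β) (Sum.inl k) (Sum.inl k) -
        O.gv (Sum.inr α) (Sum.inl k) (Sum.inl k) (Sum.inr β)) := fun k => by ring
  simp only [h2, ← Finset.mul_sum, Sum.inr.injEq]
  have h3 : O.en (Sum.inr β) = O.eJ := rfl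
  rw [h3]
  ring

theorem hform_split (z lam : ℝ) (t : Fin m → Fin m → ℝ) (g : Fin m → Fin m → Fin m → Fin m → ℝ)
    (ψ : MSt D m) :
    hform (fun α β => (if α = β then z else 0) + lam * t α β) (fun a b c d => lam * g a b c d) ψ =
      D * z * nsq ψ + lam * hform t g ψ := by
  have h1 : ∀ a s, T1 (fun α β => (if α = β then z else 0) + lam * t α β) ψ a s =
      D * z * ψ a s + lam * T1 t ψ a s := by
    intro a s
    unfold T1
    have h2 : ∀ i : Fin D, ∑ b, ((if a i = b then z else 0) + lam * t (a i) b) *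
        ψ (Function.update a i b) s = z * ψ a s + lam * ∑ b, t (a i) b *
        ψ (Function.update a i b) s := by
      intro i
      simp only [add_mul, Finset.sum_add_distrib, ite_mul, zero_mul, Finset.sum_ite_eq,
        Finset.mem_univ, if_true, Function.update_eq_self]
      rw [Finset.mul_sum]
      congr 1
      exact Finset.sum_congr rfl fun b _ => by ring
    rw [Finset.sum_congr rfl fun i _ => h2 i, Finset.sum_add_distrib, Finset.sum_const,
      Finset.card_univ, Fintype.card_fin, nsmul_eq_mul, ← Finset.mul_sum]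
    ring
  have h3 : ∀ a s, T2 (fun a b c d => lam * g a b c d) ψ a s = lam * T2 g ψ a s := by
    intro a s
    unfold T2
    simp only [mul_assoc, ← Finset.mul_sum]
    ring
  unfold hform nsq Vale.Agent.P370.H600.ip
  simp only [h1, h3]
  have h4 : ∀ (a : Fin D → Fin m) (s : Fin D → Bool), ψ a s * (D * z * ψ a s + lam * T1 t ψ a s) =
      D * z * (ψ a s * ψ a s) + lam * (ψ a s * T1 t ψ a s) := fun a s => by ring
  have h5 : ∀ (a : Fin D → Fin m) (s : Fin D → Bool), ψ a s * (lam * T2 g ψ a s) =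
      lam * (ψ a s * T2 g ψ a s) := fun a s => by ring
  simp only [h4, h5, Finset.sum_add_distrib, ← Finset.mul_sum]
  ring

theorem hform_t01 (v : R3 → ℝ) (lam : ℝ) (ψ : MSt D m) :
    hform (v1 (Teff (O.t01 lam v) (fun a b c d => lam * O.gv a b c d)))
      (v2 (fun a b c d => lam * O.gv a b c d)) ψ =
      D * O.eJ * nsq ψ + lam * hform (O.tEff v) O.gEff ψ := by
  have h1 : v1 (Teff (O.t01 lam v) (fun a b c d => lam * O.gv a b c d)) =
      fun α β => (if α = β then O.eJ else 0) + lam * O.tEff v α β := by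
    funext α β
    exact O.v1_t01 v lam α β
  rw [h1]
  exact hform_split O.eJ lam (O.tEff v) O.gEff ψ

/-- **C3, down**: energy of a state with filled closed shells. -/
theorem energy_down (hN : N = D + 2 * Fintype.card K) (hD : 2 ≤ D)
    {c : (Fin N → (K ⊕ Fin m) × Fin 2) → ℂ} (hc : Anti c)
    (hk : ∀ (k : K) (t : Fin 2), CoreK (Sum.inl k, t) c) :
    ∃ ψ χ : MSt D m, Vale.Agent.P370.H600.Anti ψ ∧ Vale.Agent.P370.H600.Anti χ ∧
      normSq (O.st hc) = nsq ψ + nsq χ ∧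
      ∀ (v : R3 → ℝ) (_ : VIntR v O.φ) (lam : ℝ),
        energy (fun x => sumPotential (pot1 lam v) x + lam * rep x) (O.st hc) =
          (O.e0 D + lam * O.eCore v) * normSq (O.st hc) +
            lam * (hform (O.tEff v) O.gEff ψ + hform (O.tEff v) O.gEff χ) := by
  obtain ⟨ψ, χ, h1, h2, h3, h4⟩ := down hN hD hc hk
  have h5 : normSq (O.st hc) = nsq ψ + nsq χ := by
    have := O.normSq_st hc
    rw [h3] at this
    exact_mod_cast this
  refine ⟨ψ, χ, h1, h2, h5, fun v hv lam => ?_⟩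
  rw [O.energy_st (by omega) hc hv, h4 (O.t01 lam v) (fun a b c d => lam * O.gv a b c d)
    (fun a b c d => by rw [O.gv_symm]), O.Ec_t01, O.hform_t01, O.hform_t01, h5]
  unfold e0
  ring

/-- **C3, up**: a valence tensor gives a state with filled closed shells. -/
theorem energy_up (hN : N = D + 2 * Fintype.card K) (hD : 2 ≤ D) {ψ : MSt D m}
    (hψ : Vale.Agent.P370.H600.Anti ψ) :
    ∃ (c : (Fin N → (K ⊕ Fin m) × Fin 2) → ℂ) (hc : Anti c),
      (∀ (k : K) (t : Fin 2), CoreK (Sum.inl k, t) c) ∧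
      normSq (O.st hc) = nsq ψ ∧
      ∀ (v : R3 → ℝ) (_ : VIntR v O.φ) (lam : ℝ),
        energy (fun x => sumPotential (pot1 lam v) x + lam * rep x) (O.st hc) =
          (O.e0 D + lam * O.eCore v) * nsq ψ + lam * hform (O.tEff v) O.gEff ψ := by
  obtain ⟨c, hc, h1, h2, h4⟩ := up hN hD hψ
  have h5 : normSq (O.st hc) = nsq ψ := by
    have := O.normSq_st hc
    rw [h2] at this
    exact_mod_cast this
  refine ⟨c, hc, h1, h5, fun v hv lam => ?_⟩
  rw [O.energy_st (by omega) hc hv, h4 (O.t01 lam v) (fun a b c d => lam * O.gv a b c d)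
    (fun a b c d => by rw [O.gv_symm]), O.Ec_t01, O.hform_t01]
  unfold e0
  ring

end Orbs

/-- orbitals from closed shells and an orthonormal basis of the next shell (block C1). -/
def orbsOfClosed {J : ℕ} (φ : Vale.Agent.P370.H624.Closed J → H1)
    (hφ : ∀ a, φ a ∈ Vale.Agent.P370.H624.Shell a.1.1)
    (hφo : ∀ a b, ip (φ a) (φ b) = if a = b then 1 else 0)
    (w : Fin m → H1) (hw : ∀ i, w i ∈ Vale.Agent.P370.H624.Shell J)
    (ho : ∀ i k, ip (w i) (w k) = if i = k then 1 else 0) :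
    Orbs (Vale.Agent.P370.H624.Closed J) m where
  φ := Sum.elim φ w
  on := by
    rintro (a | i) (b | k)
    · simp only [Sum.elim_inl, hφo, Sum.inl.injEq]
    · simp only [Sum.elim_inl, Sum.elim_inr, reduceCtorEq, if_false]
      exact Vale.Agent.P370.H624.Shell_orth (Nat.ne_of_lt a.1.2) (hφ a) (hw k)
    · simp only [Sum.elim_inl, Sum.elim_inr, reduceCtorEq, if_false]
      exact Vale.Agent.P370.H624.Shell_orth (Nat.ne_of_gt b.1.2) (hw i) (hφ b)
    · simp only [Sum.elim_inr, ho, Sum.inr.injEq]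
  e a := Vale.Agent.P370.H624.se a.1.1
  eJ := Vale.Agent.P370.H624.se J
  eigK a f := Vale.Agent.P370.H624.Shell_eig (hφ a) f
  eigV i f := Vale.Agent.P370.H624.Shell_eig (hw i) f

end

end Vale.Agent.P370.H405.C3
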