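import Vale.Agent.P370.H405.A1
import Vale.Agent.P370.H728.Point

/-!
Problem P370: `LowerStmt`, complete (blocks A1, A2, A3).
-/

namespace Vale.Agent.P370.H405

/-- **Block A3**, unconditional. -/
theorem lowerStmt : LowerStmt := lower oneBody Vale.Agent.P370.H728.pointStmt

end Vale.Agent.P370.H405
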