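import Vale.Agent.P370.Interface

/-!
Problem P370, block A4, part 2: pointwise upper bound of the Coulomb potential for well-localised
electrons.
-/

namespace Vale.Agent.P370.H405

open Vale.Agent.P363.Stmt

noncomputable section

/-- attraction of an electron by the proton near it (among the protons of `S`). -/
def near {M : ℕ} (R : Fin M → R3) (S : Finset (Fin M)) (ρ : ℝ) (r : R3) : ℝ :=
  ∑ j ∈ S, if ‖r - R j‖ < 2 * ρ then -(1 / ‖r - R j‖) else 0

theorem near_eq {M : ℕ} {R : Fin M → R3} {S : Finset (Fin M)} {ρ : ℝ}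
    (hR : ∀ j k, j ≠ k → 4 * ρ ≤ ‖R j - R k‖) {r : R3} {a : Fin M} (ha : a ∈ S)
    (hr : ‖r - R a‖ < 2 * ρ) : near R S ρ r = -(1 / ‖r - R a‖) := by
  unfold near
  rw [Finset.sum_eq_single a]
  · rw [if_pos hr]
  · intro j _ hj
    rw [if_neg]
    intro h
    have h1 := hR j a hj
    have h2 : ‖R j - R a‖ ≤ ‖r - R j‖ + ‖r - R a‖ := by
      calc ‖R j - R a‖ = ‖(r - R a) - (r - R j)‖ := by congr 1; abel
        _ ≤ ‖r - R a‖ + ‖r - R j‖ := norm_sub_le _ _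
        _ = _ := add_comm _ _
    linarith
  · intro h
    exact absurd ha h

theorem inv_up {μ r d : ℝ} (hμ : 8 ≤ μ) (hr : μ ^ 3 ≤ r) (hd : 0 < d) (h : d ≤ r + 2 * μ ^ 2) :
    -(1 / d) ≤ -(1 / r) + 2 / μ ^ 4 := by
  have hμ0 : 0 < μ := by linarith
  have h3 : 0 < μ ^ 3 := by positivity
  have hr0 : 0 < r := by linarith
  have h1 : 1 / (r + 2 * μ ^ 2) ≤ 1 / d := by gcongr
  have h2 : 1 / r - 1 / (r + 2 * μ ^ 2) = 2 * μ ^ 2 / (r * (r + 2 * μ ^ 2)) := by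
    field_simp
    ring
  have h4 : 2 * μ ^ 2 / (r * (r + 2 * μ ^ 2)) ≤ 2 * μ ^ 2 / (μ ^ 3 * μ ^ 3) := by
    have : μ ^ 3 ≤ r + 2 * μ ^ 2 := by nlinarith [sq_nonneg μ]
    gcongr
  have h5 : 2 * μ ^ 2 / (μ ^ 3 * μ ^ 3) = 2 / μ ^ 4 := by
    field_simp
  linarith

theorem inv_down {μ r d : ℝ} (hμ : 8 ≤ μ) (hr : μ ^ 3 ≤ r) (h : r - 4 * μ ^ 2 ≤ d) :
    1 / d ≤ 1 / r + 8 / μ ^ 4 := by
  have hμ0 : 0 < μ := by linarith
  have h3 : 0 < μ ^ 3 := by positivity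
  have hr0 : 0 < r := by linarith
  have h8 : 8 * μ ^ 2 ≤ μ ^ 3 := by
    have : μ ^ 3 = μ * μ ^ 2 := by ring
    rw [this]
    gcongr
  have hhalf : r / 2 ≤ r - 4 * μ ^ 2 := by linarith
  have hpos : 0 < r - 4 * μ ^ 2 := by linarith
  have h1 : 1 / d ≤ 1 / (r - 4 * μ ^ 2) := by gcongr
  have h2 : 1 / (r - 4 * μ ^ 2) - 1 / r = 4 * μ ^ 2 / (r * (r - 4 * μ ^ 2)) := by
    field_simp
    ring
  have h4 : 4 * μ ^ 2 / (r * (r - 4 * μ ^ 2)) ≤ 4 * μ ^ 2 / (μ ^ 3 * (μ ^ 3 / 2)) := by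
    have : μ ^ 3 / 2 ≤ r - 4 * μ ^ 2 := by linarith
    gcongr
  have h5 : 4 * μ ^ 2 / (μ ^ 3 * (μ ^ 3 / 2)) = 8 / μ ^ 4 := by
    field_simp
    norm_num
  linarith

theorem pointwise {M N : ℕ} {R : Fin M → R3} {μ : ℝ} (hμ : 8 ≤ μ) (hNM : N ≤ M)
    (hR : ∀ j k, j ≠ k → μ ^ 3 ≤ ‖R j - R k‖) {S : Finset (Fin M)} (E : Fin N ≃ S) {x : Conf N}
    (hx : ∀ i, ‖x i - R (E i)‖ < 2 * μ ^ 2) :
    coulombPotential (fun _ => 1) R x ≤
      sumPotential (near R S (μ ^ 2)) x + (selE R S + 10 * (M : ℝ) ^ 2 / μ ^ 4) := by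
  have hμ0 : 0 < μ := by linarith
  have h84 : 8 * μ ^ 2 ≤ μ ^ 3 := by
    have : μ ^ 3 = μ * μ ^ 2 := by ring
    rw [this]
    gcongr
  have hμ2 : 0 < μ ^ 2 := by positivity
  have hNM' : (N : ℝ) ≤ M := by exact_mod_cast hNM
  have hN0 : (0 : ℝ) ≤ N := by positivity
  -- attraction
  have hatt : ∀ i, ∑ j, -((((1 : ℕ) : ℝ)) / ‖x i - R j‖) ≤ near R S (μ ^ 2) (x i) +
      (-(∑ j ∈ Finset.univ.erase (E i : Fin M), 1 / ‖R (E i) - R j‖) + M * (2 / μ ^ 4)) := by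
    intro i
    have h1 : near R S (μ ^ 2) (x i) = -(1 / ‖x i - R (E i)‖) :=
      near_eq (fun j k hjk => by have := hR j k hjk; linarith) (E i).2 (hx i)
    rw [h1, ← Finset.add_sum_erase _ _ (Finset.mem_univ (E i : Fin M))]
    refine add_le_add (le_of_eq (by simp)) ?_
    calc ∑ j ∈ Finset.univ.erase (E i : Fin M), -((((1 : ℕ) : ℝ)) / ‖x i - R j‖)
        ≤ ∑ j ∈ Finset.univ.erase (E i : Fin M), (-(1 / ‖R (E i) - R j‖) + 2 / μ ^ 4) := by
          refine Finset.sum_le_sum fun j hj => ?_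
          have hj' : (E i : Fin M) ≠ j := fun h => by simp [h] at hj
          have h2 := hR _ _ hj'
          have h3 : ‖x i - R j‖ ≤ ‖R (E i) - R j‖ + 2 * μ ^ 2 := by
            calc ‖x i - R j‖ = ‖(x i - R (E i)) + (R (E i) - R j)‖ := by congr 1; abel
              _ ≤ ‖x i - R (E i)‖ + ‖R (E i) - R j‖ := norm_add_le _ _
              _ ≤ _ := by have := hx i; linarith
          have h4 : ‖R (E i) - R j‖ ≤ ‖x i - R j‖ + ‖x i - R (E i)‖ := by
            calc ‖R (E i) - R j‖ = ‖(x i - R j) - (x i - R (E i))‖ := by congr 1; abel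
              _ ≤ ‖x i - R j‖ + ‖x i - R (E i)‖ := norm_sub_le _ _
          have h5 : 0 < ‖x i - R j‖ := by have := hx i; linarith
          rw [Nat.cast_one]
          exact inv_up hμ h2 h5 h3
      _ = -(∑ j ∈ Finset.univ.erase (E i : Fin M), 1 / ‖R (E i) - R j‖) +
          ((Finset.univ.erase (E i : Fin M)).card : ℝ) * (2 / μ ^ 4) := by
          rw [Finset.sum_add_distrib, Finset.sum_neg_distrib, Finset.sum_const, nsmul_eq_mul]
      _ ≤ _ := by
          have h6 : ((Finset.univ.erase (E i : Fin M)).card : ℝ) ≤ M := by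
            have := Finset.card_le_univ (Finset.univ.erase (E i : Fin M))
            rw [Fintype.card_fin] at this
            exact_mod_cast this
          gcongr
  have hatt' : ∑ i, ∑ j, -((((1 : ℕ) : ℝ)) / ‖x i - R j‖) ≤ sumPotential (near R S (μ ^ 2)) x +
      (-(∑ i ∈ S, ∑ j ∈ Finset.univ.erase i, 1 / ‖R i - R j‖) + N * (M * (2 / μ ^ 4))) := by
    refine (Finset.sum_le_sum fun i _ => hatt i).trans (le_of_eq ?_)
    rw [Finset.sum_add_distrib, Finset.sum_add_distrib, Finset.sum_neg_distrib, Finset.sum_const,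
      Finset.card_univ, Fintype.card_fin, nsmul_eq_mul]
    unfold sumPotential
    congr 3
    rw [E.sum_comp (fun a : S => ∑ j ∈ Finset.univ.erase (a : Fin M), 1 / ‖R a - R j‖)]
    exact Finset.sum_coe_sort S (fun a => ∑ j ∈ Finset.univ.erase a, 1 / ‖R a - R j‖)
  -- repulsion
  have hrep : ∑ i, ∑ k ∈ Finset.Ioi i, 1 / ‖x i - x k‖ ≤
      (∑ i, ∑ k ∈ Finset.Ioi i, 1 / ‖R (E i) - R (E k)‖) + N * (N * (8 / μ ^ 4)) := by
    have h1 : (N : ℝ) * (N * (8 / μ ^ 4)) = ∑ _i : Fin N, ∑ _k : Fin N, 8 / μ ^ 4 := by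
      simp
    have h2 : ∑ i : Fin N, ∑ _k ∈ Finset.Ioi i, 8 / μ ^ 4 ≤ ∑ _i : Fin N, ∑ _k : Fin N, 8 / μ ^ 4 :=
      Finset.sum_le_sum fun i _ => Finset.sum_le_sum_of_subset_of_nonneg (Finset.subset_univ _)
        fun _ _ _ => by positivity
    have h3 : ∑ i, ∑ k ∈ Finset.Ioi i, 1 / ‖x i - x k‖ ≤
        ∑ i, ∑ k ∈ Finset.Ioi i, (1 / ‖R (E i) - R (E k)‖ + 8 / μ ^ 4) := by
      refine Finset.sum_le_sum fun i _ => Finset.sum_le_sum fun k hk => ?_
      have hik : (E i : Fin M) ≠ E k := by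
        intro h
        have := E.injective (Subtype.ext h)
        subst this
        simp at hk
      refine inv_down hμ (hR _ _ hik) ?_
      have h4 : ‖R (E i) - R (E k)‖ ≤ ‖x i - x k‖ + (‖x i - R (E i)‖ + ‖x k - R (E k)‖) := by
        calc ‖R (E i) - R (E k)‖ = ‖(x i - x k) - ((x i - R (E i)) - (x k - R (E k)))‖ := by
              congr 1; abel
          _ ≤ ‖x i - x k‖ + ‖(x i - R (E i)) - (x k - R (E k))‖ := norm_sub_le _ _
          _ ≤ _ := by gcongr; exact norm_sub_le _ _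
      have := hx i
      have := hx k
      linarith
    simp only [Finset.sum_add_distrib] at h3
    linarith
  have hhalf : (∑ i, ∑ k ∈ Finset.Ioi i, 1 / ‖R (E i) - R (E k)‖) =
      1 / 2 * ∑ i ∈ S, ∑ j ∈ S.erase i, 1 / ‖R i - R j‖ := by
    have h1 := Finset.sum_sum_Ioi_add_eq_sum_sum_off_diag
      (fun i k : Fin N => 1 / ‖R (E i) - R (E k)‖)
    have h2 : ∑ i : Fin N, ∑ j ∈ Finset.Ioi i, (1 / ‖R (E j) - R (E i)‖ + 1 / ‖R (E i) - R (E j)‖) =
        2 * ∑ i, ∑ k ∈ Finset.Ioi i, 1 / ‖R (E i) - R (E k)‖ := by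
      rw [Finset.mul_sum]
      refine Finset.sum_congr rfl fun i _ => ?_
      rw [Finset.mul_sum]
      refine Finset.sum_congr rfl fun k _ => ?_
      rw [norm_sub_rev]; ring
    have h3 : ∑ i : Fin N, ∑ j ∈ ({i} : Finset (Fin N))ᶜ, 1 / ‖R (E j) - R (E i)‖ =
        ∑ i ∈ S, ∑ j ∈ S.erase i, 1 / ‖R i - R j‖ := by
      rw [← Finset.sum_coe_sort S, ← E.sum_comp]
      refine Finset.sum_congr rfl fun i _ => ?_
      refine Finset.sum_bij (fun k _ => (E k : Fin M)) ?_ ?_ ?_ ?_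
      · intro k hk
        rw [Finset.mem_erase]
        refine ⟨fun h => ?_, (E k).2⟩
        have := E.injective (Subtype.ext h)
        subst this
        simp at hk
      · intro k _ l _ h
        exact E.injective (Subtype.ext h)
      · intro j hj
        rw [Finset.mem_erase] at hj
        refine ⟨E.symm ⟨j, hj.2⟩, ?_, by simp⟩
        rw [Finset.mem_compl, Finset.mem_singleton]
        intro h
        apply hj.1
        rw [← h]; simp
      · intro k _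
        rw [norm_sub_rev]
    rw [h2, h3] at h1
    linarith
  have hconst : (N : ℝ) * (M * (2 / μ ^ 4)) + N * (N * (8 / μ ^ 4)) ≤ 10 * (M : ℝ) ^ 2 / μ ^ 4 := by
    have h1 : (N : ℝ) * (M * (2 / μ ^ 4)) ≤ M * (M * (2 / μ ^ 4)) := by gcongr
    have h2 : (N : ℝ) * (N * (8 / μ ^ 4)) ≤ M * (M * (8 / μ ^ 4)) := by gcongr
    have h3 : (M : ℝ) * (M * (2 / μ ^ 4)) + M * (M * (8 / μ ^ 4)) = 10 * (M : ℝ) ^ 2 / μ ^ 4 := by
      ring
    linarith
  unfold coulombPotential selE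
  rw [hhalf] at hrep
  linarith

end

end Vale.Agent.P370.H405
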