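import Vale.Agent.P370.H405.OneBody
import Vale.Agent.P370.H405.Point
import Vale.Agent.P363.H574.Slater
import Vale.Agent.P363.R801.H2

/-!
Problem P370, block A4: the trial states (Slater determinants of cut-off hydrogen ground states with
disjoint supports, all spins up).
-/

namespace Vale.Agent.P370.H405

open MeasureTheory Filter Topology
open Vale.Agent.P363.Stmt
open Vale.Agent.P363.R.Sob
open Vale.Agent.P363.R.KS (H1 H1.mul_test H1.const_mul)
open Vale.Agent.P363.H382 (dir intR_eq isWeakDeriv_iff)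
open Vale.Agent.P363.R801 (prj prj_dir prj_sub_dir)
open Vale.Agent.P363.H574 (SO slater slater_normSq slater_energy slater_amp mdet_self tens)
open scoped ContDiff ENNReal ComplexConjugate

noncomputable section

/-! ### translations -/

theorem isWD_shift {f g : R3 → ℝ} {v : R3} (h : IsWD volume v f g) (a : R3) :
    IsWD volume v (fun x => f (x - a)) (fun x => g (x - a)) := by
  intro φ hφ
  have ht : Test (fun x => φ (x + a)) :=
    ⟨hφ.1.comp (contDiff_id.add contDiff_const), hφ.2.comp_homeomorph (Homeomorph.addRight a)⟩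
  have h1 := h _ ht
  have e1 : ∫ x, (fderiv ℝ φ x v) • f (x - a) = ∫ x, (fderiv ℝ (fun x => φ (x + a)) x v) • f x := by
    rw [← integral_add_right_eq_self _ a]
    congr 1; funext x
    rw [fderiv_comp_add_right, add_sub_cancel_right]
  have e2 : ∫ x, φ x • g (x - a) = ∫ x, φ (x + a) • g x := by
    rw [← integral_add_right_eq_self _ a]
    congr 1; funext x
    rw [add_sub_cancel_right]
  rw [e1, e2, h1]

theorem H1_shift {f : R3 → ℝ} {g : Fin 3 → R3 → ℝ} (h : H1 f g) (a : R3) :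
    H1 (fun x => f (x - a)) (fun k x => g k (x - a)) :=
  ⟨h.mem.comp_measurePreserving (measurePreserving_sub_right volume a),
    fun k => (h.gmem k).comp_measurePreserving (measurePreserving_sub_right volume a),
    fun k => isWD_shift (h.wd k) a⟩

theorem isWD_ofReal {f g : R3 → ℝ} {v : R3} (hf : MemLp f 2 volume) (hg : MemLp g 2 volume)
    (h : IsWD volume v f g) : IsWD volume v (fun x => (f x : ℂ)) (fun x => (g x : ℂ)) :=
  h.clm_comp Complex.ofRealCLM
    (fun _ hφ => hφ.integrable_smul (hf.locallyIntegrable (by norm_num)))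
    (fun _ hφ => hφ.integrable_smul (hg.locallyIntegrable (by norm_num)))

/-! ### the spin orbitals -/

/-- the data of the orbitals -/
structure Orb (n : ℕ) where
  φ : R3 → ℝ
  g : Fin 3 → R3 → ℝ
  ρ : ℝ
  Q : Fin (n + 1) → R3
  hφ : H1 φ g
  supp : ∀ x, 2 * ρ ≤ ‖x‖ → φ x = 0
  norm : ∫ x, φ x ^ 2 = 1
  sep : ∀ a b, a ≠ b → 4 * ρ ≤ ‖Q a - Q b‖

variable {n : ℕ}

theorem Orb.near (o : Orb n) {a : Fin (n + 1)} {x : R3} (h : o.φ (x - o.Q a) ≠ 0) :
    ‖x - o.Q a‖ < 2 * o.ρ := by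
  by_contra hc
  exact h (o.supp _ (not_lt.1 hc))

theorem Orb.disj (o : Orb n) {a b : Fin (n + 1)} (hab : a ≠ b) (x : R3) :
    o.φ (x - o.Q a) * o.φ (x - o.Q b) = 0 := by
  by_contra h
  have ha := o.near (left_ne_zero_of_mul h)
  have hb := o.near (right_ne_zero_of_mul h)
  have h1 := o.sep a b hab
  have h2 : ‖o.Q a - o.Q b‖ ≤ ‖x - o.Q a‖ + ‖x - o.Q b‖ := by
    calc ‖o.Q a - o.Q b‖ = ‖(x - o.Q b) - (x - o.Q a)‖ := by congr 1; abel
      _ ≤ ‖x - o.Q b‖ + ‖x - o.Q a‖ := norm_sub_le _ _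
      _ = _ := add_comm _ _
  linarith

/-- the spin orbitals -/
def Orb.so (o : Orb n) : SO (n + 1) where
  f a t x := if t = 0 then (o.φ (x - o.Q a) : ℂ) else 0
  g a t k x := if t = 0 then (o.g k (x - o.Q a) : ℂ) else 0
  fm a t := by
    by_cases ht : t = 0
    · simp only [ht, if_true]
      exact (H1_shift o.hφ (o.Q a)).mem.ofReal
    · simp only [ht, if_false]
      exact MemLp.zero
  gm a t k := by
    by_cases ht : t = 0
    · simp only [ht, if_true]
      exact ((H1_shift o.hφ (o.Q a)).gmem k).ofReal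
    · simp only [ht, if_false]
      exact MemLp.zero
  wd a t k := by
    by_cases ht : t = 0
    · simp only [ht, if_true]
      exact isWD_ofReal (H1_shift o.hφ (o.Q a)).mem ((H1_shift o.hφ (o.Q a)).gmem k)
        ((H1_shift o.hφ (o.Q a)).wd k)
    · simp only [ht, if_false]
      exact isWD_zero
  orth a b := by
    rw [Fin.sum_univ_two]
    simp only [if_true, Fin.isValue, one_ne_zero, if_false, mul_zero, integral_zero, add_zero,
      Complex.conj_ofReal]
    by_cases hab : a = b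
    · subst hab
      rw [if_pos rfl]
      have h1 : ∫ x, o.φ (x - o.Q a) ^ 2 = 1 := by
        rw [integral_sub_right_eq_self (fun x => o.φ x ^ 2) (o.Q a)]
        exact o.norm
      have h2 : ∀ x, (o.φ (x - o.Q a) : ℂ) * (o.φ (x - o.Q a) : ℂ) =
          ((o.φ (x - o.Q a) ^ 2 : ℝ) : ℂ) := fun x => by push_cast; ring
      simp only [h2]
      rw [integral_complex_ofReal, h1, Complex.ofReal_one]
    · rw [if_neg hab]
      have h2 : ∀ x, (o.φ (x - o.Q a) : ℂ) * (o.φ (x - o.Q b) : ℂ) = 0 := fun x => by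
        rw [← Complex.ofReal_mul, o.disj hab, Complex.ofReal_zero]
      simp only [h2, integral_zero]

/-- where the amplitude does not vanish, each electron is near its own proton. -/
theorem Orb.amp_supp (o : Orb n) {s : Fin (n + 1) → Fin 2} {x : Conf (n + 1)}
    (h : (slater o.so).amp s x ≠ 0) :
    ∃ τ : Equiv.Perm (Fin (n + 1)), ∀ i, ‖x i - o.Q (τ i)‖ < 2 * o.ρ := by
  rw [slater_amp _ 0, mdet_self] at h
  obtain ⟨σ, -, hσ⟩ := Finset.exists_ne_zero_of_sum_ne_zero (right_ne_zero_of_mul h)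
  refine ⟨σ, fun i => o.near fun h0 => ?_⟩
  apply hσ
  unfold tens
  rw [Finset.prod_eq_zero (Finset.mem_univ i), mul_zero]
  show (if s i = 0 then (o.φ (x i - o.Q (σ i)) : ℂ) else 0) = 0
  rw [h0]
  simp

theorem int_hydrogen {φ : R3 → ℝ} {g : Fin 3 → R3 → ℝ} (h : H1 φ g) (a : R3) :
    Integrable (fun x => φ (x - a) ^ 2 / ‖x - a‖) := by
  have hs := H1_shift h a
  have := (coulomb_le (μ := (volume : Measure R3)) (ContinuousLinearMap.id ℝ R3) a
    (fun k => EuclideanSpace.single k (1 : ℝ)) (fun k => rfl) hs.mem hs.gmem hs.wd).1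
  refine this.congr (Eventually.of_forall fun x => ?_)
  simp

/-- energy of the Slater determinant in a potential which is minus the Coulomb potential of the
proton near the electron. -/
theorem Orb.energy (o : Orb n) {v : R3 → ℝ}
    (hv : ∀ a x, ‖x - o.Q a‖ < 2 * o.ρ → v x = -(1 / ‖x - o.Q a‖)) :
    energy (sumPotential v) (slater o.so) = ((n + 1 : ℕ) : ℝ) *
      ((1 / 2) * (∑ k, ∫ x, o.g k x ^ 2) - ∫ x, o.φ x ^ 2 / ‖x‖) := by
  have hpot : ∀ a x, v x * o.φ (x - o.Q a) ^ 2 = -(o.φ (x - o.Q a) ^ 2 / ‖x - o.Q a‖) := by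
    intro a x
    by_cases h : o.φ (x - o.Q a) = 0
    · rw [h]; simp
    · rw [hv a x (o.near h)]
      ring
  rw [slater_energy]
  · have e1 : ∀ l : Fin (n + 1), ∑ t, ∑ k, ∫ r, ‖o.so.g l t k r‖ ^ 2 = ∑ k, ∫ x, o.g k x ^ 2 := by
      intro l
      rw [Fin.sum_univ_two]
      have h1 : ∀ k, ∫ r, ‖o.so.g l 0 k r‖ ^ 2 = ∫ x, o.g k x ^ 2 := by
        intro k
        rw [← integral_sub_right_eq_self (fun x => o.g k x ^ 2) (o.Q l)]
        congr 1; funext x
        show ‖(if (0 : Fin 2) = 0 then (o.g k (x - o.Q l) : ℂ) else 0)‖ ^ 2 = _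
        rw [if_pos rfl, Complex.norm_real, Real.norm_eq_abs, sq_abs]
      have h2 : ∀ k, ∫ r, ‖o.so.g l 1 k r‖ ^ 2 = 0 := by
        intro k
        have : ∀ r, ‖o.so.g l 1 k r‖ ^ 2 = 0 := fun r => by
          show ‖(if (1 : Fin 2) = 0 then (o.g k (r - o.Q l) : ℂ) else 0)‖ ^ 2 = 0
          simp
        simp only [this, integral_zero]
      simp only [h1, h2, Finset.sum_const_zero, add_zero]
    have e2 : ∀ l : Fin (n + 1), ∑ t, ∫ r, v r * ‖o.so.f l t r‖ ^ 2 =
        -∫ x, o.φ x ^ 2 / ‖x‖ := by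
      intro l
      rw [Fin.sum_univ_two]
      have h1 : ∫ r, v r * ‖o.so.f l 0 r‖ ^ 2 = -∫ x, o.φ x ^ 2 / ‖x‖ := by
        rw [← integral_sub_right_eq_self (fun x => o.φ x ^ 2 / ‖x‖) (o.Q l), ← integral_neg]
        congr 1; funext x
        rw [← hpot]
        show v x * ‖(if (0 : Fin 2) = 0 then (o.φ (x - o.Q l) : ℂ) else 0)‖ ^ 2 = _
        rw [if_pos rfl, Complex.norm_real, Real.norm_eq_abs, sq_abs]
      have h2 : ∫ r, v r * ‖o.so.f l 1 r‖ ^ 2 = 0 := by
        have : ∀ r, v r * ‖o.so.f l 1 r‖ ^ 2 = 0 := fun r => by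
          show v r * ‖(if (1 : Fin 2) = 0 then (o.φ (r - o.Q l) : ℂ) else 0)‖ ^ 2 = 0
          simp
        simp only [this, integral_zero]
      rw [h1, h2, add_zero]
    simp only [e1, e2, Finset.sum_const, Finset.card_univ, Fintype.card_fin, nsmul_eq_mul]
    ring
  · intro a b t
    by_cases ht : t = 0
    · by_cases hab : a = b
      · subst hab
        have h1 := (int_hydrogen o.hφ (o.Q a)).neg.ofReal (𝕜 := ℂ)
        refine h1.congr (Eventually.of_forall fun x => ?_)
        show ((-(o.φ (x - o.Q a) ^ 2 / ‖x - o.Q a‖) : ℝ) : ℂ) =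
          (v x : ℂ) * (conj (if t = 0 then (o.φ (x - o.Q a) : ℂ) else 0) *
            (if t = 0 then (o.φ (x - o.Q a) : ℂ) else 0))
        rw [← hpot, if_pos ht, Complex.conj_ofReal]
        push_cast
        ring
      · refine (integrable_zero R3 ℂ volume).congr (Eventually.of_forall fun x => ?_)
        show (0 : ℂ) = (v x : ℂ) * (conj (if t = 0 then (o.φ (x - o.Q a) : ℂ) else 0) *
            (if t = 0 then (o.φ (x - o.Q b) : ℂ) else 0))
        rw [if_pos ht, if_pos ht, Complex.conj_ofReal, ← Complex.ofReal_mul, o.disj hab]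
        simp
    · refine (integrable_zero R3 ℂ volume).congr (Eventually.of_forall fun x => ?_)
      show (0 : ℂ) = (v x : ℂ) * (conj (if t = 0 then (o.φ (x - o.Q a) : ℂ) else 0) *
          (if t = 0 then (o.φ (x - o.Q b) : ℂ) else 0))
      rw [if_neg ht, if_neg ht]
      simp

/-! ### comparison of potentials -/

theorem int_att {N : ℕ} (Ψ : ElectronState N) (s : Fin N → Fin 2) (i : Fin N) (a : R3) :
    Integrable (fun x : Conf N => ‖Ψ.amp s x‖ ^ 2 / ‖x i - a‖) := by
  have := (coulomb_le (μ := (volume : Measure (Conf N))) (prj i) a (fun k => dir i k)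
    (fun k => prj_dir i k) (Ψ.amp_memLp s) (fun k => Ψ.grad_memLp s i k)
    (fun k => isWeakDeriv_iff.1 (Ψ.grad_weak s i k))).1
  simpa [prj] using this

theorem int_rep {N : ℕ} (Ψ : ElectronState N) (s : Fin N → Fin 2) {i j : Fin N} (hij : i ≠ j) :
    Integrable (fun x : Conf N => ‖Ψ.amp s x‖ ^ 2 / ‖x i - x j‖) := by
  have := (coulomb_le (μ := (volume : Measure (Conf N))) (prj i - prj j) 0 (fun k => dir i k)
    (fun k => prj_sub_dir hij k) (Ψ.amp_memLp s) (fun k => Ψ.grad_memLp s i k)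
    (fun k => isWeakDeriv_iff.1 (Ψ.grad_weak s i k))).1
  simpa [prj] using this

theorem int_coul {N M : ℕ} (Z : Fin M → ℕ) (R : Fin M → R3) (Ψ : ElectronState N)
    (s : Fin N → Fin 2) :
    Integrable (fun x : Conf N => coulombPotential Z R x * ‖Ψ.amp s x‖ ^ 2) := by
  have h1 : Integrable (fun x : Conf N => ∑ i, ∑ j, -((Z j : ℝ) * (‖Ψ.amp s x‖ ^ 2 / ‖x i - R j‖))) :=
    integrable_finsetSum _ fun i _ => integrable_finsetSum _ fun j _ =>
      ((int_att Ψ s i (R j)).const_mul _).neg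
  have h2 : Integrable (fun x : Conf N => ∑ i, ∑ k ∈ Finset.Ioi i, ‖Ψ.amp s x‖ ^ 2 / ‖x i - x k‖) :=
    integrable_finsetSum _ fun i _ => integrable_finsetSum _ fun k hk =>
      int_rep Ψ s (Finset.mem_Ioi.1 hk).ne
  refine (h1.add h2).congr (Eventually.of_forall fun x => ?_)
  simp only [Pi.add_apply]
  unfold coulombPotential
  rw [add_mul, Finset.sum_mul, Finset.sum_mul]
  congr 1
  · refine Finset.sum_congr rfl fun i _ => ?_
    rw [Finset.sum_mul]
    exact Finset.sum_congr rfl fun j _ => by ring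
  · refine Finset.sum_congr rfl fun i _ => ?_
    rw [Finset.sum_mul]
    exact Finset.sum_congr rfl fun j _ => by ring

theorem int_near {N M : ℕ} (R : Fin M → R3) (S : Finset (Fin M)) (ρ : ℝ) (Ψ : ElectronState N)
    (s : Fin N → Fin 2) :
    Integrable (fun x : Conf N => sumPotential (near R S ρ) x * ‖Ψ.amp s x‖ ^ 2) := by
  have h1 : ∀ (i : Fin N) (j : Fin M), Integrable (fun x : Conf N =>
      Set.indicator {x : Conf N | ‖x i - R j‖ < 2 * ρ}
        (fun x => -(‖Ψ.amp s x‖ ^ 2 / ‖x i - R j‖)) x) := by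
    intro i j
    refine (int_att Ψ s i (R j)).neg.indicator ?_
    exact (isOpen_lt (((continuous_apply i).sub continuous_const).norm) continuous_const).measurableSet
  have h2 : Integrable (fun x : Conf N => ∑ i, ∑ j ∈ S,
      Set.indicator {x : Conf N | ‖x i - R j‖ < 2 * ρ}
        (fun x => -(‖Ψ.amp s x‖ ^ 2 / ‖x i - R j‖)) x) :=
    integrable_finsetSum _ fun i _ => integrable_finsetSum _ fun j _ => h1 i j
  refine h2.congr (Eventually.of_forall fun x => ?_)
  simp only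
  unfold sumPotential near
  rw [Finset.sum_mul]
  refine Finset.sum_congr rfl fun i _ => ?_
  rw [Finset.sum_mul]
  refine Finset.sum_congr rfl fun j _ => ?_
  by_cases h : ‖x i - R j‖ < 2 * ρ
  · rw [Set.indicator_of_mem (by exact h), if_pos h]
    ring
  · rw [Set.indicator_of_notMem (by exact h), if_neg h]
    ring

theorem energy_le {N M : ℕ} {R : Fin M → R3} {S : Finset (Fin M)} {ρ K : ℝ} (Ψ : ElectronState N)
    (h : ∀ s x, Ψ.amp s x ≠ 0 →
      coulombPotential (fun _ => 1) R x ≤ sumPotential (near R S ρ) x + K) :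
    energy (coulombPotential (fun _ => 1) R) Ψ ≤
      energy (sumPotential (near R S ρ)) Ψ + K * normSq Ψ := by
  have key : ∑ s, intR (fun x => coulombPotential (fun _ => 1) R x * ‖Ψ.amp s x‖ ^ 2) ≤
      ∑ s, intR (fun x => sumPotential (near R S ρ) x * ‖Ψ.amp s x‖ ^ 2) + K * normSq Ψ := by
    unfold normSq
    rw [Finset.mul_sum, ← Finset.sum_add_distrib]
    refine Finset.sum_le_sum fun s _ => ?_
    simp only [intR_eq]
    have i1 := int_coul (fun _ => 1) R Ψ s
    have i2 := int_near R S ρ Ψ s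
    have i3 : Integrable (fun x : Conf N => K * ‖Ψ.amp s x‖ ^ 2) := by
      have h0 : MemLp (Ψ.amp s) 2 volume := Ψ.amp_memLp s
      exact (h0.integrable_norm_pow (by norm_num)).const_mul K
    rw [← integral_const_mul, ← integral_add i2 i3]
    refine integral_mono i1 (i2.add i3) fun x => ?_
    simp only
    rw [← add_mul]
    by_cases hx : Ψ.amp s x = 0
    · rw [hx]; simp
    · exact mul_le_mul_of_nonneg_right (h s x hx) (sq_nonneg _)
  unfold energy
  linarith

/-- **Block A4.** -/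
theorem upper : UpperStmt := by
  obtain ⟨C₁, hC₁, htrial⟩ := trial
  refine ⟨C₁ + 10, by positivity, ?_⟩
  intro M N R μ hN hNM hCM hR S hS
  obtain ⟨n, rfl⟩ : ∃ n, N = n + 1 := ⟨N - 1, by omega⟩
  have hM1 : (1 : ℝ) ≤ M := by exact_mod_cast le_trans hN hNM
  have hμ : 8 ≤ μ := by nlinarith
  have hμ0 : 0 < μ := by linarith
  have h84 : 8 * μ ^ 2 ≤ μ ^ 3 := by
    have : μ ^ 3 = μ * μ ^ 2 := by ring
    rw [this]
    gcongr
  have hμ2 : 0 < μ ^ 2 := by positivity
  obtain ⟨φ, g, hφ, hsupp, hnorm, hE⟩ := htrial (μ ^ 2) (by nlinarith)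
  have e : Fin (n + 1) ≃ S := (Finset.equivFinOfCardEq hS).symm
  let o : Orb n :=
    { φ := φ, g := g, ρ := μ ^ 2, Q := fun a => R (e a), hφ := hφ, supp := hsupp, norm := hnorm
      sep := fun a b hab => by
        have h1 := hR (e a) (e b) fun h => hab (e.injective (Subtype.ext h))
        linarith }
  refine ⟨slater o.so, slater_normSq _, ?_⟩
  have h1 : energy (coulombPotential (fun _ => 1) R) (slater o.so) ≤
      energy (sumPotential (near R S (μ ^ 2))) (slater o.so) +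
        (selE R S + 10 * (M : ℝ) ^ 2 / μ ^ 4) * normSq (slater o.so) := by
    refine energy_le _ fun s x hx => ?_
    obtain ⟨τ, hτ⟩ := o.amp_supp hx
    exact pointwise hμ hNM hR (τ.trans e) hτ
  have hsep : ∀ j k, j ≠ k → 4 * μ ^ 2 ≤ ‖R j - R k‖ := fun j k hjk => by
    have := hR j k hjk
    linarith
  have h2 := o.energy (v := near R S (μ ^ 2)) fun a x hx => near_eq hsep (e a).2 hx
  have h3 : energy (sumPotential (near R S (μ ^ 2))) (slater o.so) ≤
      ((n + 1 : ℕ) : ℝ) * (-(1 / 2) + C₁ / (μ ^ 2) ^ 2) := by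
    rw [h2]
    exact mul_le_mul_of_nonneg_left hE (by positivity)
  rw [slater_normSq, mul_one] at h1
  have h4 : ((n + 1 : ℕ) : ℝ) * (C₁ / (μ ^ 2) ^ 2) ≤ C₁ * (M : ℝ) ^ 2 / μ ^ 4 := by
    have h5 : ((n + 1 : ℕ) : ℝ) ≤ (M : ℝ) ^ 2 := by
      have h6 : ((n + 1 : ℕ) : ℝ) ≤ M := by exact_mod_cast hNM
      nlinarith
    calc ((n + 1 : ℕ) : ℝ) * (C₁ / (μ ^ 2) ^ 2) ≤ (M : ℝ) ^ 2 * (C₁ / (μ ^ 2) ^ 2) := by gcongr
      _ = _ := by ring
  have h7 : (C₁ + 10) * (M : ℝ) ^ 2 / μ ^ 4 =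
      C₁ * (M : ℝ) ^ 2 / μ ^ 4 + 10 * (M : ℝ) ^ 2 / μ ^ 4 := by ring
  rw [h7]
  have h8 : ((n + 1 : ℕ) : ℝ) * (-(1 / 2) + C₁ / (μ ^ 2) ^ 2) =
      -((n + 1 : ℕ) : ℝ) / 2 + ((n + 1 : ℕ) : ℝ) * (C₁ / (μ ^ 2) ^ 2) := by ring
  rw [h8] at h3
  linarith

end

end Vale.Agent.P370.H405
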