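import Vale.Agent.P370.H405.Field
import Vale.Agent.P370.H405.Lower

/-!
Problem P370, block A1: the one-body inequality (sharp hydrogen bound, localised around the
protons).
-/

namespace Vale.Agent.P370.H405

open MeasureTheory Filter Topology
open Vale.Agent.P363.Stmt
open Vale.Agent.P363.R.Sob
open Vale.Agent.P363.H382 (dir intR_eq isWeakDeriv_iff)
open Vale.Agent.P363.R801 (prj prj_dir prj_sub_dir)
open scoped ContDiff ENNReal

set_option linter.unusedSectionVars false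

noncomputable section

/-- the comparison potential of one proton at distance `r`. -/
def wE (ρ ε r : ℝ) : ℝ :=
  eta (r ^ 2 / (4 * ρ ^ 2)) / Real.sqrt (r ^ 2 + ε) - (if r < 2 * ρ then r / (2 * ρ ^ 2) else 0) -
    eta (r ^ 2 / (4 * ρ ^ 2)) ^ 2 / 2

theorem wE_meas (ρ ε : ℝ) : Measurable (wE ρ ε) := by
  unfold wE
  have h1 : Measurable (fun r : ℝ => eta (r ^ 2 / (4 * ρ ^ 2))) :=
    eta_contDiff.continuous.measurable.comp ((measurable_id.pow_const 2).div_const _)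
  have h2 : Measurable (fun r : ℝ => Real.sqrt (r ^ 2 + ε)) :=
    (Real.continuous_sqrt.comp ((continuous_id.pow 2).add continuous_const)).measurable
  have h3 : Measurable (fun r : ℝ => if r < 2 * ρ then r / (2 * ρ ^ 2) else 0) :=
    Measurable.ite measurableSet_Iio (measurable_id.div_const _) measurable_const
  exact ((h1.div h2).sub h3).sub ((h1.pow_const 2).div_const 2)

theorem wE_abs_le {ρ ε r : ℝ} (hρ : 0 < ρ) (hε : 0 ≤ ε) (hr : 0 < r) :
    |wE ρ ε r| ≤ 1 / r + (1 / ρ + 1 / 2) := by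
  have h1 : eta (r ^ 2 / (4 * ρ ^ 2)) ≤ 1 := eta_le_one (by positivity)
  have h0 := eta_nonneg (r ^ 2 / (4 * ρ ^ 2))
  have hrs : r ≤ Real.sqrt (r ^ 2 + ε) := Real.le_sqrt_of_sq_le (by linarith)
  have hs : 0 < Real.sqrt (r ^ 2 + ε) := by linarith
  have h2 : eta (r ^ 2 / (4 * ρ ^ 2)) / Real.sqrt (r ^ 2 + ε) ≤ 1 / r := by gcongr
  have h3 : 0 ≤ eta (r ^ 2 / (4 * ρ ^ 2)) / Real.sqrt (r ^ 2 + ε) := by positivity
  have h4 : 0 ≤ (if r < 2 * ρ then r / (2 * ρ ^ 2) else 0) := by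
    split_ifs
    · positivity
    · exact le_rfl
  have h5 : (if r < 2 * ρ then r / (2 * ρ ^ 2) else 0) ≤ 1 / ρ := by
    split_ifs with h
    · rw [div_le_div_iff₀ (by positivity) hρ]
      nlinarith
    · positivity
  have h6 : eta (r ^ 2 / (4 * ρ ^ 2)) ^ 2 ≤ 1 := by nlinarith
  have h7 : 0 ≤ eta (r ^ 2 / (4 * ρ ^ 2)) ^ 2 := sq_nonneg _
  unfold wE
  rw [abs_le]
  have h8 : 0 < 1 / r := by positivity
  have h9 : 0 < 1 / ρ := by positivity
  constructor <;> linarith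

theorem wE_tendsto (ρ : ℝ) {r : ℝ} (hr : 0 < r) :
    Tendsto (fun n : ℕ => wE ρ (1 / ((n : ℝ) + 1)) r) atTop (𝓝 (wE ρ 0 r)) := by
  unfold wE
  refine ((Tendsto.div tendsto_const_nhds ?_ ?_).sub_const _).sub_const _
  · refine (Real.continuous_sqrt.tendsto _).comp ?_
    exact tendsto_const_nhds.add tendsto_one_div_add_atTop_nhds_zero_nat
  · rw [add_zero, Real.sqrt_sq hr.le]
    exact hr.ne'

section general

variable {E : Type*} [NormedAddCommGroup E] [NormedSpace ℝ E] [FiniteDimensional ℝ E]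
  [MeasurableSpace E] [BorelSpace E]
variable {F : Type*} [NormedAddCommGroup F] [InnerProductSpace ℝ F] [CompleteSpace F]
variable {μ : Measure E} [μ.IsAddHaarMeasure]

theorem ae_proj_ne (p : E →L[ℝ] R3) (a : R3) (b : Fin 3 → E)
    (hb : ∀ k, p (b k) = EuclideanSpace.single k 1) : ∀ᵐ x ∂μ, p x ≠ a := by
  set x0 : E := ∑ k, a k • b k with hx0
  have hpx0 : p x0 = a := by
    rw [hx0, map_sum]
    simp only [map_smul, hb]
    ext j
    simp [Finset.sum_apply, Pi.single_apply]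
  have hne : (AffineSubspace.mk' x0 (LinearMap.ker (p : E →ₗ[ℝ] R3))) ≠ ⊤ := by
    intro h
    have h1 : x0 + b 0 ∈ AffineSubspace.mk' x0 (LinearMap.ker (p : E →ₗ[ℝ] R3)) :=
      h ▸ AffineSubspace.mem_top ℝ E _
    rw [AffineSubspace.mem_mk'] at h1
    have h2 : p (b 0) = 0 := by simpa using h1
    rw [hb] at h2
    have h3 := congrArg (fun v : R3 => v 0) h2
    simp at h3
  have h0 := Measure.addHaar_affineSubspace μ _ hne
  rw [ae_iff]
  refine measure_mono_null ?_ h0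
  intro x hx
  have hx' : p x = a := by simpa using hx
  rw [SetLike.mem_coe, AffineSubspace.mem_mk']
  simp [hx', hpx0]

/-- disjoint supports of the fields of different protons. -/
theorem fV_sum_sq {M : ℕ} (R : Fin M → R3) {ρ : ℝ} (ε : ℝ) (hρ : 0 < ρ)
    (hR : ∀ j k, j ≠ k → 4 * ρ ≤ ‖R j - R k‖) (p : E →L[ℝ] R3) (k : Fin 3) (x : E) :
    (∑ j, fV p (R j) ρ ε k x) ^ 2 = ∑ j, fV p (R j) ρ ε k x ^ 2 := by
  rw [sq, Finset.sum_mul_sum]
  refine Finset.sum_congr rfl fun j _ => ?_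
  rw [Finset.sum_eq_single j]
  · rw [sq]
  · intro l _ hl
    rcases le_or_gt (2 * ρ) ‖p x - R j‖ with h | h
    · rw [fV_zero p (R j) ε hρ k h, zero_mul]
    · rw [fV_zero p (R l) ε hρ k, mul_zero]
      have h1 := hR l j hl
      have h2 : ‖R l - R j‖ ≤ ‖p x - R j‖ + ‖p x - R l‖ := by
        calc ‖R l - R j‖ = ‖(p x - R j) - (p x - R l)‖ := by congr 1; abel
          _ ≤ ‖p x - R j‖ + ‖p x - R l‖ := norm_sub_le _ _
      linarith
  · intro h
    exact absurd (Finset.mem_univ j) h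

variable {f : E → F} {g : Fin 3 → E → F}

theorem wE_aesm (hf : MemLp f 2 μ) (p : E →L[ℝ] R3) {M : ℕ} (R : Fin M → R3) (ρ ε : ℝ) :
    AEStronglyMeasurable (fun x => (∑ j, wE ρ ε ‖p x - R j‖) * ‖f x‖ ^ 2) μ := by
  have h1 : Measurable (fun x : E => ∑ j, wE ρ ε ‖p x - R j‖) :=
    Finset.measurable_fun_sum _ fun j _ => (wE_meas ρ ε).comp
      ((p.continuous.sub continuous_const).norm.measurable)
  exact h1.aestronglyMeasurable.mul (hf.1.norm.pow 2)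

theorem bound_int (p : E →L[ℝ] R3) {M : ℕ} (R : Fin M → R3) (b : Fin 3 → E)
    (hb : ∀ k, p (b k) = EuclideanSpace.single k 1) (c : ℝ)
    (hf : MemLp f 2 μ) (hg : ∀ k, MemLp (g k) 2 μ) (h : ∀ k, IsWD μ (b k) f (g k)) :
    Integrable (fun x => (∑ j, (1 / ‖p x - R j‖ + c)) * ‖f x‖ ^ 2) μ := by
  have i0 : Integrable (fun x => ‖f x‖ ^ 2) μ := hf.integrable_norm_pow (by norm_num)
  have h1 : Integrable (fun x => ∑ j, (‖f x‖ ^ 2 / ‖p x - R j‖ + c * ‖f x‖ ^ 2)) μ :=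
    integrable_finsetSum _ fun j _ => ((coulomb_le p (R j) b hb hf hg h).1).add (i0.const_mul c)
  refine h1.congr (Eventually.of_forall fun x => ?_)
  simp only
  rw [Finset.sum_mul]
  exact Finset.sum_congr rfl fun j _ => by ring

theorem wE_le_bound (p : E →L[ℝ] R3) {M : ℕ} (R : Fin M → R3) (b : Fin 3 → E)
    (hb : ∀ k, p (b k) = EuclideanSpace.single k 1) {ρ ε : ℝ} (hρ : 0 < ρ) (hε : 0 ≤ ε) :
    ∀ᵐ x ∂μ, ‖(∑ j, wE ρ ε ‖p x - R j‖) * ‖f x‖ ^ 2‖ ≤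
      (∑ j, (1 / ‖p x - R j‖ + (1 / ρ + 1 / 2))) * ‖f x‖ ^ 2 := by
  have h := ae_all_iff.2 fun j : Fin M => ae_proj_ne (μ := μ) p (R j) b hb
  filter_upwards [h] with x hx
  rw [norm_mul, norm_pow, norm_norm, Real.norm_eq_abs]
  refine mul_le_mul_of_nonneg_right ?_ (by positivity)
  refine (Finset.abs_sum_le_sum_abs _ _).trans (Finset.sum_le_sum fun j _ => ?_)
  exact wE_abs_le hρ hε (norm_pos_iff.2 (sub_ne_zero.2 (hx j)))

theorem wE_int (p : E →L[ℝ] R3) {M : ℕ} (R : Fin M → R3) (b : Fin 3 → E)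
    (hb : ∀ k, p (b k) = EuclideanSpace.single k 1) {ρ ε : ℝ} (hρ : 0 < ρ) (hε : 0 ≤ ε)
    (hf : MemLp f 2 μ) (hg : ∀ k, MemLp (g k) 2 μ) (h : ∀ k, IsWD μ (b k) f (g k)) :
    Integrable (fun x => (∑ j, wE ρ ε ‖p x - R j‖) * ‖f x‖ ^ 2) μ :=
  (bound_int p R b hb _ hf hg h).mono' (wE_aesm hf p R ρ ε) (wE_le_bound p R b hb hρ hε)

/-- the regularised one-body inequality. -/
theorem one_reg (p : E →L[ℝ] R3) {M : ℕ} (R : Fin M → R3) (b : Fin 3 → E)
    (hb : ∀ k, p (b k) = EuclideanSpace.single k 1) {ρ ε : ℝ} (hρ : 0 < ρ) (hε : 0 < ε)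
    (hR : ∀ j k, j ≠ k → 4 * ρ ≤ ‖R j - R k‖)
    (hf : MemLp f 2 μ) (hg : ∀ k, MemLp (g k) 2 μ) (h : ∀ k, IsWD μ (b k) f (g k)) :
    ∫ x, (∑ j, wE ρ ε ‖p x - R j‖) * ‖f x‖ ^ 2 ∂μ ≤ 1 / 2 * ∑ k, ∫ x, ‖g k x‖ ^ 2 ∂μ := by
  have hε0 : 0 < Real.sqrt ε := Real.sqrt_pos.2 hε
  have hVd : ∀ k x, fderiv ℝ (fun x => ∑ j, fV p (R j) ρ ε k x) x (b k) =
      ∑ j, fderiv ℝ (fV p (R j) ρ ε k) x (b k) := by
    intro k x
    rw [fderiv_fun_sum fun j _ => (fV_contDiff p (R j) ρ hε k).differentiable (by simp) x]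
    simp
  have key := riccati (μ := μ) b hf hg h (V := fun k x => ∑ j, fV p (R j) ρ ε k x)
    (C := M * (1 + (2 / ρ + 2 / Real.sqrt ε)))
    (W := fun x => 2 * ∑ j, wE ρ ε ‖p x - R j‖)
    (fun k => ContDiff.sum fun j _ => fV_contDiff p (R j) ρ hε k) ?_ ?_ ?_ ?_
  · have e : ∫ x, 2 * (∑ j, wE ρ ε ‖p x - R j‖) * ‖f x‖ ^ 2 ∂μ =
        2 * ∫ x, (∑ j, wE ρ ε ‖p x - R j‖) * ‖f x‖ ^ 2 ∂μ := by
      rw [← integral_const_mul]
      congr 1; funext x; ring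
    rw [e] at key
    linarith
  · intro k x
    refine (Finset.abs_sum_le_sum_abs _ _).trans ?_
    calc ∑ j, |fV p (R j) ρ ε k x| ≤ ∑ _j : Fin M, (1 + (2 / ρ + 2 / Real.sqrt ε)) :=
          Finset.sum_le_sum fun j _ => (fV_abs_le p (R j) hρ hε k x).trans (by
            have : 0 ≤ 2 / ρ + 2 / Real.sqrt ε := by positivity
            linarith)
      _ = _ := by simp; ring
  · intro k x
    rw [hVd]
    refine (Finset.abs_sum_le_sum_abs _ _).trans ?_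
    calc ∑ j, |fderiv ℝ (fV p (R j) ρ ε k) x (b k)| ≤
          ∑ _j : Fin M, (1 + (2 / ρ + 2 / Real.sqrt ε)) :=
          Finset.sum_le_sum fun j _ => (fV_fderiv_abs_le p (R j) hρ hε b hb k x).trans (by linarith)
      _ = _ := by simp; ring
  · refine ((wE_int p R b hb hρ hε.le hf hg h).const_mul 2).congr (Eventually.of_forall fun x => ?_)
    simp only
    ring
  · refine Eventually.of_forall fun x => ?_
    simp only [hVd, fV_sum_sq R ε hρ hR]
    rw [Finset.sum_comm, Finset.sum_comm (f := fun k j => fV p (R j) ρ ε k x ^ 2),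
      ← Finset.sum_sub_distrib, Finset.mul_sum]
    refine Finset.sum_le_sum fun j _ => ?_
    have h1 := fV_div p (R j) hρ hε b hb x
    have h2 := fV_sq_le p (R j) (ρ := ρ) hε x
    unfold wE
    have h3 : (if ‖p x - R j‖ < 2 * ρ then ‖p x - R j‖ / ρ ^ 2 else 0) =
        2 * (if ‖p x - R j‖ < 2 * ρ then ‖p x - R j‖ / (2 * ρ ^ 2) else 0) := by
      split_ifs
      · field_simp
      · simp
    rw [h3] at h1
    linarith

/-- the one-body inequality. -/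
theorem one_lim (p : E →L[ℝ] R3) {M : ℕ} (R : Fin M → R3) (b : Fin 3 → E)
    (hb : ∀ k, p (b k) = EuclideanSpace.single k 1) {ρ : ℝ} (hρ : 0 < ρ)
    (hR : ∀ j k, j ≠ k → 4 * ρ ≤ ‖R j - R k‖)
    (hf : MemLp f 2 μ) (hg : ∀ k, MemLp (g k) 2 μ) (h : ∀ k, IsWD μ (b k) f (g k)) :
    ∫ x, (∑ j, wE ρ 0 ‖p x - R j‖) * ‖f x‖ ^ 2 ∂μ ≤ 1 / 2 * ∑ k, ∫ x, ‖g k x‖ ^ 2 ∂μ := by
  have hpos : ∀ n : ℕ, (0 : ℝ) < 1 / ((n : ℝ) + 1) := fun n => by positivity
  have ht : Tendsto (fun n : ℕ => ∫ x, (∑ j, wE ρ (1 / ((n : ℝ) + 1)) ‖p x - R j‖) *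
      ‖f x‖ ^ 2 ∂μ) atTop (𝓝 (∫ x, (∑ j, wE ρ 0 ‖p x - R j‖) * ‖f x‖ ^ 2 ∂μ)) := by
    refine tendsto_integral_of_dominated_convergence _ (fun n => wE_aesm hf p R ρ _)
      (bound_int p R b hb _ hf hg h) (fun n => wE_le_bound p R b hb hρ (hpos n).le) ?_
    filter_upwards [ae_all_iff.2 fun j : Fin M => ae_proj_ne (μ := μ) p (R j) b hb] with x hx
    refine Tendsto.mul_const _ (tendsto_finsetSum _ fun j _ => ?_)
    exact wE_tendsto ρ (norm_pos_iff.2 (sub_ne_zero.2 (hx j)))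
  exact le_of_tendsto' ht fun n => one_reg p R b hb hρ (hpos n) hR hf hg h

end general

theorem near_le {ρ r : ℝ} (hρ : 2 ≤ ρ) (hr : 0 ≤ r) :
    (if r ≤ 2 * ρ then -(1 / 2 + 2 / ρ ^ 2) else -(1 / r)) ≤ wE ρ 0 r - 1 / r := by
  have hρ0 : 0 < ρ := by linarith
  have hq0 : 0 ≤ r ^ 2 / (4 * ρ ^ 2) := by positivity
  unfold wE
  rw [add_zero, Real.sqrt_sq hr]
  rcases lt_trichotomy r (2 * ρ) with h | h | h
  · rw [if_pos h.le, if_pos h]
    have hq1 : r ^ 2 / (4 * ρ ^ 2) < 1 := by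
      rw [div_lt_one (by positivity)]
      nlinarith
    have h1 := one_sub_eta_le hq0
    have h2 := eta_sq_le hq0 hq1
    have h3 : (1 - eta (r ^ 2 / (4 * ρ ^ 2))) / r ≤ r / (2 * ρ ^ 2) := by
      rcases hr.eq_or_lt with h0 | h0
      · rw [← h0]; simp
      · rw [div_le_iff₀ h0]
        refine h1.trans (le_of_eq ?_)
        field_simp
        norm_num
    have h4 : (1 - eta (r ^ 2 / (4 * ρ ^ 2))) / r = 1 / r - eta (r ^ 2 / (4 * ρ ^ 2)) / r := by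
      ring
    have h5 : r / (2 * ρ ^ 2) + r / (2 * ρ ^ 2) - r ^ 2 / (8 * ρ ^ 2) ≤ 2 / ρ ^ 2 := by
      have h6 : r / (2 * ρ ^ 2) + r / (2 * ρ ^ 2) - r ^ 2 / (8 * ρ ^ 2) =
          (r - r ^ 2 / 8) / ρ ^ 2 := by
        field_simp
        ring
      rw [h6]
      have h7 : r - r ^ 2 / 8 ≤ 2 := by nlinarith [sq_nonneg (r - 4)]
      gcongr
    have h8 : r ^ 2 / (8 * ρ ^ 2) = r ^ 2 / (4 * ρ ^ 2) / 2 := by
      field_simp
      ring
    rw [h8] at h5
    linarith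
  · have h1 : r ^ 2 / (4 * ρ ^ 2) = 1 := by
      rw [h, div_eq_one_iff_eq (by positivity)]
      ring
    rw [if_pos h.le, if_neg (by linarith), h1, eta_zero le_rfl]
    have h2 : 1 / r ≤ 1 / 2 := by
      rw [h]
      gcongr
      linarith
    have h3 : 0 ≤ 2 / ρ ^ 2 := by positivity
    simp only [zero_div, ne_eq, OfNat.ofNat_ne_zero, not_false_eq_true, zero_pow, sub_zero]
    linarith
  · have h1 : 1 ≤ r ^ 2 / (4 * ρ ^ 2) := by
      rw [le_div_iff₀ (by positivity), one_mul]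
      nlinarith
    rw [if_neg (by linarith), if_neg (by linarith), eta_zero h1]
    simp

/-- **Block A1.** -/
theorem oneBody : OneBodyStmt := by
  refine ⟨2, two_pos, ?_⟩
  intro M R ρ hρ hR N Ψ s i
  have hρ0 : 0 < ρ := by linarith
  have hb : ∀ k, (prj i : Conf N →L[ℝ] R3) (dir i k) = EuclideanSpace.single k 1 :=
    fun k => prj_dir i k
  have hw : ∀ k, IsWD volume (dir i k) (Ψ.amp s) (Ψ.grad s i k) := fun k =>
    isWeakDeriv_iff.1 (Ψ.grad_weak s i k)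
  have key := one_lim (μ := (volume : Measure (Conf N))) (prj i) R (fun k => dir i k) hb hρ0
    (fun j k hjk => by have := hR j k hjk; linarith) (Ψ.amp_memLp s)
    (fun k => Ψ.grad_memLp s i k) hw
  have i1 := wE_int (μ := (volume : Measure (Conf N))) (prj i) R (fun k => dir i k) hb hρ0 le_rfl
    (Ψ.amp_memLp s) (fun k => Ψ.grad_memLp s i k) hw
  have i2 := int_attr R Ψ s i
  have i3 := int_nearW R ρ 2 Ψ s i
  simp only [intR_eq]
  have h1 : ∫ x, nearW R ρ 2 (x i) * ‖Ψ.amp s x‖ ^ 2 ≤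
      ∫ x, ((∑ j, wE ρ 0 ‖prj i x - R j‖) * ‖Ψ.amp s x‖ ^ 2 +
        (∑ j, -(1 / ‖x i - R j‖)) * ‖Ψ.amp s x‖ ^ 2) := by
    refine integral_mono i3 (i1.add i2) fun x => ?_
    simp only
    rw [← add_mul, ← Finset.sum_add_distrib]
    refine mul_le_mul_of_nonneg_right ?_ (sq_nonneg _)
    unfold nearW
    refine Finset.sum_le_sum fun j _ => ?_
    exact near_le hρ (norm_nonneg _)
  rw [integral_add i1 i2] at h1
  linarith

end

end Vale.Agent.P370.H405
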