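import Vale.Agent.P370.H405.C2Proj
import Vale.Agent.P370.C2.Defs
import Vale.Agent.P370.H365.GapN

/-!
Problem P370, blocks C2 + C3: first-order perturbation theory with filled closed shells, lower bound
in scaled units.
-/

namespace Vale.Agent.P370.H405.C2

open MeasureTheory Filter Topology
open Vale.Agent.P363.Stmt Vale.Agent.P363.R.Sob Vale.Agent.P363.R.Top
open Vale.Agent.P363.H382 hiding kin
open Vale.Agent.P363.H95 (cT)
open Vale.Agent.P363.H849 (H1 ip dir bc m1 m2 mW hardyInt)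
open Vale.Agent.P363.H943 (Fam fam)
open Vale.Agent.P370.H600 (MSt nsq hform)
open Vale.Agent.P370.H405.C3
open Vale.Agent.P370.C2 (pV V1 kin HardyStmt ScaleStmt)
open scoped ContDiff ENNReal ComplexConjugate

set_option linter.unusedSectionVars false

noncomputable section

variable {K : Type} [Fintype K] [DecidableEq K] {m N D : ℕ} {κ : Type}

/-- potential of the light unit charges -/
def vL (L : Finset κ) (y : κ → R3) (r : R3) : ℝ := -∑ k ∈ L, 1 / ‖r - y k‖

theorem adm_of {w : Conf N → ℝ} (h : Vale.Agent.P363.H943.Adm w) : Adm w where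
  meas := h.meas
  int Ψ s := h.int _ _ (Ψ.amp_memLp s) (fun i k => Ψ.grad_memLp s i k)
    (fun i k => isWeakDeriv_iff.1 (Ψ.grad_weak s i k))

theorem adm_pot0 : Adm (pot 0 : Conf N → ℝ) where
  meas := by
    unfold pot rep
    refine Measurable.aestronglyMeasurable ?_
    fun_prop
  int Ψ s := by
    have h1 : Integrable (fun x : Conf N => ∑ i, -(‖Ψ.amp s x‖ ^ 2 / ‖x i - 0‖)) :=
      integrable_finsetSum _ fun i _ => (int_att Ψ s i 0).neg
    refine h1.congr (Eventually.of_forall fun x => ?_)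
    simp only [pot, zero_mul, add_zero, sub_zero, Finset.sum_mul]
    exact Finset.sum_congr rfl fun i _ => by ring

/-- the scaled potential -/
theorem pot1_eq (L : Finset κ) (y : κ → R3) (lam : ℝ) (x : Conf N) :
    sumPotential (Orbs.pot1 lam (vL L y)) x + lam * rep x = pot 0 x + lam * pV L y x := by
  unfold pV pot sumPotential Orbs.pot1 vL
  rw [Finset.sum_add_distrib, ← Finset.mul_sum]
  ring

theorem adm_comb {w V : Conf N → ℝ} (hw : Adm w) (hV : Adm V) (lam : ℝ) :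
    Adm (fun x => w x + lam * V x) where
  meas := hw.meas.add (hV.meas.const_mul lam)
  int Ψ s := by
    refine ((hw.int Ψ s).add ((hV.int Ψ s).const_mul lam)).congr (Eventually.of_forall fun x => ?_)
    simp only [Pi.add_apply]
    ring

theorem energy_lin {w V : Conf N → ℝ} (hw : Adm w) (hV : Adm V) (lam : ℝ) (Ψ : ElectronState N) :
    energy (fun x => w x + lam * V x) Ψ =
      energy w Ψ + lam * ∑ s, intR (fun x => V x * ‖Ψ.amp s x‖ ^ 2) := by
  unfold energy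
  have h : ∀ s, intR (fun x => (w x + lam * V x) * ‖Ψ.amp s x‖ ^ 2) =
      intR (fun x => w x * ‖Ψ.amp s x‖ ^ 2) + lam * intR (fun x => V x * ‖Ψ.amp s x‖ ^ 2) := by
    intro s
    simp only [intR_eq]
    rw [← integral_const_mul, ← integral_add (hw.int Ψ s) ((hV.int Ψ s).const_mul lam)]
    congr 1; funext x; ring
  simp only [h]
  rw [Finset.sum_add_distrib, ← Finset.mul_sum]
  ring

theorem eB_lin {w V : Conf N → ℝ} (hw : Adm w) (hV : Adm V) (lam : ℝ) (Φ Ψ : ElectronState N) :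
    eB (fun x => w x + lam * V x) Φ Ψ = eB w Φ Ψ + lam * Fam.pot V (fam Φ) (fam Ψ) := by
  unfold eB Fam.pot
  have h : ∀ s, ∫ x, ((w x + lam * V x : ℝ) : ℂ) * (conj (Φ.amp s x) * Ψ.amp s x) =
      (∫ x, (w x : ℂ) * (conj (Φ.amp s x) * Ψ.amp s x)) +
      lam * ∫ x, (V x : ℂ) * (conj (Φ.amp s x) * Ψ.amp s x) := by
    intro s
    rw [← integral_const_mul, ← integral_add (hw.cross Φ Ψ s) ((hV.cross Φ Ψ s).const_mul _)]
    congr 1; funext x
    push_cast
    ring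
  simp only [h]
  rw [Finset.sum_add_distrib, ← Finset.mul_sum]
  simp only [Vale.Agent.P363.H943.fam_amp]
  ring

theorem pot0_eq : (pot 0 : Conf N → ℝ) = sumPotential vH := by
  funext x
  unfold pot sumPotential vH
  ring

/-- gap above the states with filled closed shells -/
def GapO (O : Orbs K m) (D : ℕ) (g : ℝ) : Prop :=
  ∀ Q : ElectronState (D + 2 * Fintype.card K), (∀ J, Full J → cT (cu O.φ) Q J = 0) →
    (O.e0 D + g) * normSq Q ≤ energy (pot 0) Q

theorem vIntR_vL (L : Finset κ) (y : κ → R3) (φ : K ⊕ Fin m → H1) : VIntR (vL L y) φ := by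
  intro a b
  have h1 : Integrable (fun x => ∑ j ∈ L, -((φ a).1.1 x * (φ b).1.1 x / ‖x - y j‖)) :=
    integrable_finsetSum _ fun j _ => (int_ptV (φ a) (φ b) (y j)).neg
  refine h1.congr (Eventually.of_forall fun x => ?_)
  simp only [vL, neg_mul, Finset.sum_mul, Finset.sum_neg_distrib]
  congr 1
  exact Finset.sum_congr rfl fun j _ => by ring

theorem normSq_nonneg' (Ψ : ElectronState N) : 0 ≤ normSq Ψ := by
  rw [normSq_eq]
  exact Finset.sum_nonneg fun s _ => integral_nonneg fun x => sq_nonneg _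

theorem kin_nonneg (Ψ : ElectronState N) : 0 ≤ kin Ψ := by
  unfold kin
  exact Finset.sum_nonneg fun s _ => Finset.sum_nonneg fun i _ => Finset.sum_nonneg fun k _ =>
    integral_nonneg fun x => sq_nonneg _

/-- energies of a state with filled closed shells -/
theorem energies_down (O : Orbs K m) (hD : 2 ≤ D) (hH : HardyStmt) (L : Finset κ) (y : κ → R3)
    {c : (Fin (D + 2 * Fintype.card K) → (K ⊕ Fin m) × Fin 2) → ℂ} (hc : Anti c)
    (hk : ∀ (k : K) (t : Fin 2), CoreK (Sum.inl k, t) c) :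
    ∃ ψ χ : MSt D m, Vale.Agent.P370.H600.Anti ψ ∧ Vale.Agent.P370.H600.Anti χ ∧
      normSq (O.st hc) = nsq ψ + nsq χ ∧
      energy (pot 0) (O.st hc) = O.e0 D * normSq (O.st hc) ∧
      V1 L y (O.st hc) = O.eCore (vL L y) * normSq (O.st hc) +
        (hform (O.tEff (vL L y)) O.gEff ψ + hform (O.tEff (vL L y)) O.gEff χ) := by
  obtain ⟨ψ, χ, h1, h2, h3, h4⟩ := O.energy_down rfl hD hc hk
  have hV := adm_of (hH κ L y (D + 2 * Fintype.card K)).1
  have e0 := h4 (vL L y) (vIntR_vL L y O.φ) 0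
  have e1 := h4 (vL L y) (vIntR_vL L y O.φ) 1
  simp only [pot1_eq] at e0 e1
  rw [energy_lin adm_pot0 hV] at e0 e1
  refine ⟨ψ, χ, h1, h2, h3, ?_, ?_⟩
  · rw [zero_mul, add_zero, zero_mul, zero_mul, add_zero, add_zero] at e0
    exact e0
  · rw [zero_mul, add_zero, zero_mul, zero_mul, add_zero, add_zero] at e0
    unfold V1
    linarith

theorem energies_up (O : Orbs K m) (hD : 2 ≤ D) (hH : HardyStmt) (L : Finset κ) (y : κ → R3)
    {ψ : MSt D m} (hψ : Vale.Agent.P370.H600.Anti ψ) :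
    ∃ (c : (Fin (D + 2 * Fintype.card K) → (K ⊕ Fin m) × Fin 2) → ℂ) (hc : Anti c),
      (∀ (k : K) (t : Fin 2), CoreK (Sum.inl k, t) c) ∧
      normSq (O.st hc) = nsq ψ ∧
      energy (pot 0) (O.st hc) = O.e0 D * nsq ψ ∧
      V1 L y (O.st hc) = O.eCore (vL L y) * nsq ψ + hform (O.tEff (vL L y)) O.gEff ψ := by
  obtain ⟨c, hc, h1, h3, h4⟩ := O.energy_up rfl hD hψ
  have hV := adm_of (hH κ L y (D + 2 * Fintype.card K)).1
  have e0 := h4 (vL L y) (vIntR_vL L y O.φ) 0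
  have e1 := h4 (vL L y) (vIntR_vL L y O.φ) 1
  simp only [pot1_eq] at e0 e1
  rw [energy_lin adm_pot0 hV] at e0 e1
  refine ⟨c, hc, h1, h3, ?_, ?_⟩
  · rw [zero_mul, add_zero, zero_mul, zero_mul, add_zero, add_zero] at e0
    exact e0
  · rw [zero_mul, add_zero, zero_mul, zero_mul, add_zero, add_zero] at e0
    unfold V1
    linarith

/-- real-number inequality of the Schur step -/
theorem arith {a2 q2 e0 g lam m0 E0Q kQ v1Q c v1P Lc n : ℝ} (ha : 0 ≤ a2) (hq : 0 ≤ q2)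
    (hg : 0 < g) (hg1 : g ≤ 1) (hlam : 0 ≤ lam) (hL : 0 ≤ Lc) (hn : 1 ≤ n) (hge : e0 + g ≤ n)
    (hgap : (e0 + g) * q2 ≤ E0Q) (hkQ : kQ ≤ 4 * (E0Q + 4 * n * q2))
    (hv : -(Lc * (kQ + n * q2)) ≤ v1Q) (hP : m0 * a2 ≤ v1P)
    (hc : |c| ≤ 8 * n * (Lc + n) * Real.sqrt n * (Real.sqrt a2 * Real.sqrt q2))
    (h1 : 84 * lam * Lc * n ≤ g) (h2 : lam * m0 ≤ g / 4) :
    (e0 + lam * m0 - lam ^ 2 * (128 * n ^ 3 * (Lc + n) ^ 2 / g)) * (a2 + q2) ≤
      (e0 * a2 + lam * v1P) + (E0Q + lam * v1Q) + 2 * (lam * c) := by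
  have hlL : 0 ≤ lam * Lc := mul_nonneg hlam hL
  have hlLn : lam * Lc ≤ lam * Lc * n := le_mul_of_one_le_right hlL hn
  have h4 : 4 * (lam * Lc) ≤ 1 := by nlinarith
  have hQ1 : -(lam * Lc * (4 * E0Q + 17 * n * q2)) ≤ lam * v1Q := by
    have h5 : -(Lc * (4 * (E0Q + 4 * n * q2) + n * q2)) ≤ v1Q := by
      refine le_trans ?_ hv
      have := mul_le_mul_of_nonneg_left hkQ hL
      nlinarith
    have := mul_le_mul_of_nonneg_left h5 hlam
    nlinarith
  have hQ2 : (1 - 4 * (lam * Lc)) * ((e0 + g) * q2) ≤ (1 - 4 * (lam * Lc)) * E0Q :=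
    mul_le_mul_of_nonneg_left hgap (by linarith)
  have hQ3 : lam * Lc * ((e0 + g) * q2) ≤ lam * Lc * (n * q2) :=
    mul_le_mul_of_nonneg_left (mul_le_mul_of_nonneg_right hge hq) hlL
  have hQ4 : 84 * lam * Lc * n * q2 ≤ g * q2 := mul_le_mul_of_nonneg_right h1 hq
  have hQ : (e0 + 3 / 4 * g) * q2 ≤ E0Q + lam * v1Q := by nlinarith
  -- cross term
  set B : ℝ := 8 * n * (Lc + n) * Real.sqrt n with hB
  set A : ℝ := Real.sqrt a2 with hA
  set Q : ℝ := Real.sqrt q2 with hQd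
  have hA2 : A * A = a2 := Real.mul_self_sqrt ha
  have hQ2' : Q * Q = q2 := Real.mul_self_sqrt hq
  have hn2 : Real.sqrt n * Real.sqrt n = n := Real.mul_self_sqrt (by linarith)
  have hB2 : B * B = 64 * n ^ 3 * (Lc + n) ^ 2 := by
    rw [hB]
    calc 8 * n * (Lc + n) * Real.sqrt n * (8 * n * (Lc + n) * Real.sqrt n)
        = 64 * n ^ 2 * (Lc + n) ^ 2 * (Real.sqrt n * Real.sqrt n) := by ring
      _ = _ := by rw [hn2]; ring
  have hcl : -(B * (A * Q)) ≤ c := by
    have := (abs_le.1 hc).1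
    linarith
  have hc2 : -(2 * (lam * (B * (A * Q)))) ≤ 2 * (lam * c) := by
    have := mul_le_mul_of_nonneg_left hcl hlam
    linarith
  have hEr : lam ^ 2 * (128 * n ^ 3 * (Lc + n) ^ 2 / g) = 2 * (lam * B) ^ 2 / g := by
    have : (lam * B) ^ 2 = lam ^ 2 * (B * B) := by ring
    rw [this, hB2]; ring
  have hamgm : 2 * (lam * (B * (A * Q))) ≤ g / 2 * (Q * Q) + 2 * (lam * B) ^ 2 / g * (A * A) := by
    have h5 : 0 ≤ (g * Q - 2 * (lam * B) * A) ^ 2 / (2 * g) := by positivity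
    have h6 : (g * Q - 2 * (lam * B) * A) ^ 2 / (2 * g) =
        g / 2 * (Q * Q) + 2 * (lam * B) ^ 2 / g * (A * A) - 2 * (lam * (B * (A * Q))) := by
      field_simp
      ring
    linarith
  have hErn : 0 ≤ 2 * (lam * B) ^ 2 / g := by positivity
  rw [hEr]
  rw [hA2, hQ2'] at hamgm
  have hP' : lam * (m0 * a2) ≤ lam * v1P := mul_le_mul_of_nonneg_left hP hlam
  have h7 : 2 * (lam * B) ^ 2 / g * q2 ≥ 0 := mul_nonneg hErn hq
  have h8 : lam * m0 * q2 ≤ g / 4 * q2 := mul_le_mul_of_nonneg_right h2 hq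
  nlinarith

/-- **C2 + C3, lower bound in scaled units.** -/
theorem scaled_lower (O : Orbs K m) (hD : 2 ≤ D) (hH : HardyStmt) (L : Finset κ) (y : κ → R3)
    {g lam μ : ℝ} (hg : 0 < g) (hg1 : g ≤ 1) (hgap : GapO O D g) (he0 : O.e0 D ≤ 0)
    (hlam : 0 ≤ lam) (h1 : 84 * lam * L.card * (D + 2 * Fintype.card K : ℕ) ≤ g)
    (h2 : lam * (O.eCore (vL L y) + μ) ≤ g / 4)
    (hμ : ∀ ψ : MSt D m, Vale.Agent.P370.H600.Anti ψ →
      μ * nsq ψ ≤ hform (O.tEff (vL L y)) O.gEff ψ)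
    (Ψ : ElectronState (D + 2 * Fintype.card K)) :
    (O.e0 D + lam * (O.eCore (vL L y) + μ) - lam ^ 2 *
      (128 * ((D + 2 * Fintype.card K : ℕ) : ℝ) ^ 3 *
        (L.card + ((D + 2 * Fintype.card K : ℕ) : ℝ)) ^ 2 / g)) * normSq Ψ ≤
      energy (pot 0) Ψ + lam * V1 L y Ψ := by
  obtain ⟨hadm, hcr, hv1, hkin⟩ := hH κ L y (D + 2 * Fintype.card K)
  have hV := adm_of hadm
  obtain ⟨ψ, χ, hψ, hχ, hn, hE, hV1⟩ := energies_down O hD hH L y (cP_anti O Ψ) (cP_core O Ψ)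
  set Φ := PP O Ψ with hΦ
  set Q := QQ O Ψ with hQ
  have e1 : normSq Φ = nsq ψ + nsq χ := hn
  have e2 : energy (pot 0) Φ = O.e0 D * normSq Φ := hE
  have e3 : V1 L y Φ = O.eCore (vL L y) * normSq Φ +
        (hform (O.tEff (vL L y)) O.gEff ψ + hform (O.tEff (vL L y)) O.gEff χ) := hV1
  have hns : normSq Ψ = normSq Φ + normSq Q := by
    have := normSq_split Ψ Φ
    have h3 : ∑ s, ∫ x, conj (Φ.amp s x) * (esub Ψ Φ).amp s x = 0 := inn_PQ O Ψ
    rw [h3, Complex.zero_re, mul_zero, add_zero] at this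
    exact this
  -- energies
  have hw := adm_comb adm_pot0 hV lam
  have hsplit := energy_split hw Ψ Φ
  have hx : eB (fun x => pot 0 x + lam * pV L y x) Φ (esub Ψ Φ) =
      lam * Fam.pot (pV L y) (fam Φ) (fam Q) := by
    rw [eB_lin adm_pot0 hV]
    have h3 : eB (pot 0) Φ (esub Ψ Φ) = 0 := by
      rw [pot0_eq]
      exact aForm_PQ O Ψ
    rw [h3, zero_add]
    rfl
  rw [hx, energy_lin adm_pot0 hV, energy_lin adm_pot0 hV, energy_lin adm_pot0 hV,
    Complex.re_ofReal_mul] at hsplit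
  have hfin : energy (pot 0) Ψ + lam * V1 L y Ψ =
      (O.e0 D * normSq Φ + lam * V1 L y Φ) + (energy (pot 0) Q + lam * V1 L y Q) +
        2 * (lam * (Fam.pot (pV L y) (fam Φ) (fam Q)).re) := by
    rw [← e2]
    exact hsplit
  rw [hfin, hns]
  have ha := normSq_nonneg' Φ
  have hq := normSq_nonneg' Q
  have hN1 : (1 : ℝ) ≤ ((D + 2 * Fintype.card K : ℕ) : ℝ) := by
    have : 1 ≤ D + 2 * Fintype.card K := by omega
    exact_mod_cast this
  refine arith (kQ := kin Q) ha hq hg hg1 hlam (Nat.cast_nonneg _) hN1 (by linarith)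
    (hgap Q fun J hJ => cT_QQ O Ψ hJ) ?_ (hv1 Q) ?_ ?_ h1 h2
  · exact hkin Q
  · rw [e3]
    have h5 := hμ ψ hψ
    have h6 := hμ χ hχ
    rw [e1]
    nlinarith
  · have h5 := hcr Φ Q
    have h6 := hkin Φ
    refine (Complex.abs_re_le_norm _).trans (h5.trans ?_)
    have h7 : Real.sqrt (kin Φ) ≤ 4 * Real.sqrt ((D + 2 * Fintype.card K : ℕ) : ℝ) *
        Real.sqrt (normSq Φ) := by
      have h8 : kin Φ ≤ 16 * ((D + 2 * Fintype.card K : ℕ) : ℝ) * normSq Φ := by
        rw [e2] at h6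
        have : O.e0 D * normSq Φ ≤ 0 := mul_nonpos_of_nonpos_of_nonneg he0 ha
        nlinarith
      calc Real.sqrt (kin Φ) ≤ Real.sqrt (16 * ((D + 2 * Fintype.card K : ℕ) : ℝ) * normSq Φ) :=
            Real.sqrt_le_sqrt h8
        _ = _ := by
          rw [Real.sqrt_mul (by positivity), Real.sqrt_mul (by norm_num)]
          have : Real.sqrt 16 = 4 := by
            rw [show (16 : ℝ) = 4 ^ 2 by norm_num]
            exact Real.sqrt_sq (by norm_num)
          rw [this]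
    have h9 : 0 ≤ 2 * ((D + 2 * Fintype.card K : ℕ) : ℝ) *
        ((L.card : ℝ) + ((D + 2 * Fintype.card K : ℕ) : ℝ)) := by positivity
    calc 2 * ((D + 2 * Fintype.card K : ℕ) : ℝ) *
        ((L.card : ℝ) + ((D + 2 * Fintype.card K : ℕ) : ℝ)) * Real.sqrt (kin Φ) *
        Real.sqrt (normSq Q)
        ≤ 2 * ((D + 2 * Fintype.card K : ℕ) : ℝ) *
        ((L.card : ℝ) + ((D + 2 * Fintype.card K : ℕ) : ℝ)) *
        (4 * Real.sqrt ((D + 2 * Fintype.card K : ℕ) : ℝ) * Real.sqrt (normSq Φ)) *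
        Real.sqrt (normSq Q) := by
          refine mul_le_mul_of_nonneg_right ?_ (Real.sqrt_nonneg _)
          exact mul_le_mul_of_nonneg_left h7 h9
      _ = _ := by ring

end

end Vale.Agent.P370.H405.C2
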