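import Mathlib.Data.Complex.Basic
import Mathlib.Analysis.Complex.Basic
import Mathlib.Algebra.BigOperators.Fin
import Mathlib.GroupTheory.Perm.Fin
import Mathlib.Data.Fintype.Perm

/-!
Problem P370, block C3 (Slater-Condon rules with a frozen core), algebraic part: quadratic forms of
one- and two-body operators on antisymmetric tensors, annihilation of one label, freezing.
-/

namespace Vale.Agent.P370.H405.C3

open scoped ComplexConjugate

noncomputable section

variable {A : Type*}

/-- antisymmetric tensors -/
def Anti {N : ℕ} (c : (Fin N → A) → ℂ) : Prop :=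
  ∀ (σ : Equiv.Perm (Fin N)) (J : Fin N → A), c (J ∘ σ) = ((Equiv.Perm.sign σ : ℤ) : ℂ) * c J

section fin

variable [Fintype A] {n N : ℕ}

/-- inner product of tensors, conjugate linear in the first argument -/
def inn {X : Type*} [Fintype X] (c d : X → ℂ) : ℂ := ∑ J, conj (c J) * d J

/-- annihilation of the label `p` -/
def ann (p : A) (c : (Fin (n + 1) → A) → ℂ) : (Fin n → A) → ℂ := fun J =>
  ((Real.sqrt (n + 1) : ℝ) : ℂ) * c (Fin.cons p J)

theorem sum_cons {M : Type*} [AddCommMonoid M] (f : (Fin (n + 1) → A) → M) :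
    ∑ J, f J = ∑ p : A, ∑ J' : Fin n → A, f (Fin.cons p J') := by
  rw [← Equiv.sum_comp (Fin.consEquiv (fun _ : Fin (n + 1) => A)) f, Fintype.sum_prod_type]
  rfl

theorem sum_comp_perm {M : Type*} [AddCommMonoid M] (σ : Equiv.Perm (Fin N))
    (f : (Fin N → A) → M) : ∑ J, f (J ∘ σ) = ∑ J, f J :=
  Equiv.sum_comp (Equiv.arrowCongr σ (Equiv.refl A)).symm f

end fin

variable {n N : ℕ}

theorem cons_comp (p : A) (J : Fin n → A) (σ : Equiv.Perm (Fin n)) :
    (Fin.cons p (J ∘ σ) : Fin (n + 1) → A) =
      Fin.cons p J ∘ (Equiv.Perm.decomposeFin.symm (0, σ)) := by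
  funext i
  refine Fin.cases ?_ (fun j => ?_) i
  · simp
  · simp

theorem sign_decompose (σ : Equiv.Perm (Fin n)) :
    Equiv.Perm.sign (Equiv.Perm.decomposeFin.symm ((0 : Fin (n + 1)), σ)) =
      Equiv.Perm.sign σ := by
  simp [Equiv.Perm.decomposeFin.symm_sign]

theorem Anti.ann {c : (Fin (n + 1) → A) → ℂ} (hc : Anti c) (p : A) : Anti (ann p c) := by
  intro σ J
  unfold C3.ann
  rw [cons_comp, hc, sign_decompose]
  ring

theorem Anti.zero_of_eq {c : (Fin N → A) → ℂ} (hc : Anti c) {J : Fin N → A} {i j : Fin N}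
    (hij : i ≠ j) (h : J i = J j) : c J = 0 := by
  have h1 : J ∘ Equiv.swap i j = J := by
    funext k
    by_cases hki : k = i
    · subst hki; simp [h]
    · by_cases hkj : k = j
      · subst hkj; simp [h]
      · simp [Equiv.swap_apply_of_ne_of_ne hki hkj]
  have h2 := hc (Equiv.swap i j) J
  rw [h1, Equiv.Perm.sign_swap hij] at h2
  push_cast at h2
  linear_combination h2 / 2

theorem Anti.swap {c : (Fin (n + 2) → A) → ℂ} (hc : Anti c) (p q : A) (J : Fin n → A) :
    c (Fin.cons p (Fin.cons q J : Fin (n + 1) → A)) =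
      -c (Fin.cons q (Fin.cons p J : Fin (n + 1) → A)) := by
  have h1 : (Fin.cons p (Fin.cons q J : Fin (n + 1) → A) : Fin (n + 2) → A) =
      (Fin.cons q (Fin.cons p J : Fin (n + 1) → A) : Fin (n + 2) → A) ∘ Equiv.swap 0 1 := by
    funext i
    refine Fin.cases ?_ (fun i => ?_) i
    · simp
    · refine Fin.cases ?_ (fun i => ?_) i
      · simp
      · have h0 : (i.succ.succ : Fin (n + 2)) ≠ 0 := Fin.succ_ne_zero _
        have h1' : (i.succ.succ : Fin (n + 2)) ≠ 1 := by
          intro h
          have h2 : (i.succ : Fin (n + 1)) = 0 := Fin.succ_injective _ (by simpa using h)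
          exact Fin.succ_ne_zero _ h2
        simp [Equiv.swap_apply_of_ne_of_ne h0 h1']
  rw [h1, hc, Equiv.Perm.sign_swap (by simp)]
  push_cast
  ring

theorem Anti.ann_ann {c : (Fin (n + 2) → A) → ℂ} (hc : Anti c) (p q : A) :
    C3.ann p (C3.ann q c) = fun J => -C3.ann q (C3.ann p c) J := by
  funext J
  unfold C3.ann
  rw [hc.swap q p]
  ring

/-- every tuple in the support contains `k`. -/
def CoreK (k : A) (c : (Fin N → A) → ℂ) : Prop := ∀ J, c J ≠ 0 → ∃ i, J i = k

/-- no tuple in the support contains `k`. -/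
def FreeK (k : A) (c : (Fin N → A) → ℂ) : Prop := ∀ J, c J ≠ 0 → ∀ i, J i ≠ k

theorem CoreK.ann {k p : A} (hp : p ≠ k) {c : (Fin (n + 1) → A) → ℂ} (hc : CoreK k c) :
    CoreK k (C3.ann p c) := by
  intro J hJ
  obtain ⟨i, hi⟩ := hc _ (right_ne_zero_of_mul hJ)
  revert hi
  refine Fin.cases ?_ (fun i => ?_) i
  · intro h; exact absurd h hp
  · intro h; exact ⟨i, by simpa using h⟩

theorem FreeK.ann {k : A} (p : A) {c : (Fin (n + 1) → A) → ℂ} (hc : FreeK k c) :
    FreeK k (C3.ann p c) := by
  intro J hJ i
  have := hc _ (right_ne_zero_of_mul hJ) i.succ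
  simpa using this

theorem FreeK.ann_self {k : A} {c : (Fin (n + 1) → A) → ℂ} (hc : FreeK k c) :
    C3.ann k c = 0 := by
  funext J
  by_contra h
  have := hc _ (right_ne_zero_of_mul h) 0
  exact this (by simp)

theorem Anti.free {k : A} {c : (Fin (n + 1) → A) → ℂ} (hc : Anti c) : FreeK k (C3.ann k c) := by
  intro J hJ i hi
  apply right_ne_zero_of_mul hJ
  exact hc.zero_of_eq (i := 0) (j := i.succ) (Fin.succ_ne_zero _).symm (by simp [hi])

section fin2

variable [Fintype A]

theorem inn_free_core {k : A} {c d : (Fin N → A) → ℂ} (hc : FreeK k c) (hd : CoreK k d) :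
    inn c d = 0 := by
  unfold inn
  refine Finset.sum_eq_zero fun J _ => ?_
  by_cases h1 : c J = 0
  · rw [h1]; simp
  · by_cases h2 : d J = 0
    · rw [h2]; simp
    · obtain ⟨i, hi⟩ := hd J h2
      exact absurd hi (hc J h1 i)

theorem inn_conj_symm {X : Type*} [Fintype X] (c d : X → ℂ) : conj (inn c d) = inn d c := by
  unfold inn
  rw [map_sum]
  exact Finset.sum_congr rfl fun J _ => by simp [mul_comm]

theorem inn_core_free {k : A} {c d : (Fin N → A) → ℂ} (hc : CoreK k c) (hd : FreeK k d) :
    inn c d = 0 := by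
  rw [← inn_conj_symm, inn_free_core hd hc, map_zero]

theorem inn_neg_neg {X : Type*} [Fintype X] (c d : X → ℂ) :
    inn (fun J => -c J) (fun J => -d J) = inn c d := by
  unfold inn
  exact Finset.sum_congr rfl fun J _ => by simp

theorem inn_neg_left {X : Type*} [Fintype X] (c d : X → ℂ) :
    inn (fun J => -c J) d = -inn c d := by
  unfold inn
  rw [← Finset.sum_neg_distrib]
  exact Finset.sum_congr rfl fun J _ => by simp

theorem inn_neg_right {X : Type*} [Fintype X] (c d : X → ℂ) :
    inn c (fun J => -d J) = -inn c d := by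
  unfold inn
  rw [← Finset.sum_neg_distrib]
  exact Finset.sum_congr rfl fun J _ => by simp

theorem inn_zero_left {X : Type*} [Fintype X] (d : X → ℂ) : inn 0 d = 0 := by
  unfold inn; simp

theorem inn_zero_right {X : Type*} [Fintype X] (d : X → ℂ) : inn d 0 = 0 := by
  unfold inn; simp

variable [DecidableEq A]

/-- the place of the label `k`. -/
theorem sum_occ {k : A} {f : (Fin (n + 1) → A) → ℂ}
    (hsym : ∀ (σ : Equiv.Perm (Fin (n + 1))) J, f (J ∘ σ) = f J)
    (hocc : ∀ J, f J ≠ 0 → ∃! i, J i = k) :
    ∑ J, f J = (n + 1 : ℂ) * ∑ J' : Fin n → A, f (Fin.cons k J') := by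
  have h1 : ∀ J, f J = ∑ i, if J i = k then f J else 0 := by
    intro J
    by_cases h : f J = 0
    · simp [h]
    · obtain ⟨i, hi, hu⟩ := hocc J h
      rw [Finset.sum_eq_single i]
      · rw [if_pos hi]
      · intro j _ hj
        rw [if_neg fun h2 => hj (hu j h2)]
      · intro h2; exact absurd (Finset.mem_univ _) h2
  have h2 : ∀ i : Fin (n + 1), ∑ J, (if J i = k then f J else 0) =
      ∑ J' : Fin n → A, f (Fin.cons k J') := by
    intro i
    rw [← sum_comp_perm (Equiv.swap 0 i)]
    simp only [hsym, Function.comp_apply, Equiv.swap_apply_right]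
    rw [sum_cons, Finset.sum_eq_single k]
    · simp
    · intro p _ hp
      simp [hp]
    · intro h; exact absurd (Finset.mem_univ _) h
  calc ∑ J, f J = ∑ J, ∑ i, (if J i = k then f J else 0) :=
        Finset.sum_congr rfl fun J _ => h1 J
    _ = ∑ i : Fin (n + 1), ∑ J, (if J i = k then f J else 0) := Finset.sum_comm
    _ = ∑ _i : Fin (n + 1), ∑ J' : Fin n → A, f (Fin.cons k J') :=
        Finset.sum_congr rfl fun i _ => h2 i
    _ = _ := by simp

theorem sqrt_mul (n : ℕ) : ((Real.sqrt (n + 1) : ℝ) : ℂ) * ((Real.sqrt (n + 1) : ℝ) : ℂ) =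
    (n + 1 : ℂ) := by
  rw [← Complex.ofReal_mul, Real.mul_self_sqrt (by positivity)]
  push_cast
  ring

/-- annihilation of a core label is an isometry. -/
theorem inn_ann {k : A} {c d : (Fin (n + 1) → A) → ℂ} (hc : Anti c) (hd : Anti d)
    (hck : CoreK k c) : inn (ann k c) (ann k d) = inn c d := by
  have h1 : inn c d = (n + 1 : ℂ) * ∑ J' : Fin n → A,
      conj (c (Fin.cons k J')) * d (Fin.cons k J') := by
    refine sum_occ (k := k) (f := fun J => conj (c J) * d J) (fun σ J => ?_) fun J hJ => ?_
    · rw [hc σ J, hd σ J, map_mul, mul_mul_mul_comm]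
      rcases Int.units_eq_one_or (Equiv.Perm.sign σ) with h | h <;> simp [h]
    · have h2 : c J ≠ 0 := by
        intro h; apply hJ; simp [h]
      obtain ⟨i, hi⟩ := hck J h2
      refine ⟨i, hi, fun j hj => ?_⟩
      by_contra hne
      exact h2 (hc.zero_of_eq hne (by rw [hj, hi]))
  rw [h1]
  unfold inn ann
  rw [Finset.mul_sum]
  refine Finset.sum_congr rfl fun J _ => ?_
  rw [map_mul, Complex.conj_ofReal, mul_mul_mul_comm, sqrt_mul]

/-- one-body matrix elements of a tensor with a core label. -/
theorem one_core {k : A} {c : (Fin (n + 2) → A) → ℂ} (hc : Anti c) (hk : CoreK k c) (p q : A) :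
    inn (ann p c) (ann q c) = inn (ann p (ann k c)) (ann q (ann k c)) +
      if p = k ∧ q = k then inn (ann k c) (ann k c) else 0 := by
  have hfree := hc.free (k := k)
  by_cases hp : p = k
  · by_cases hq : q = k
    · subst hp; subst hq
      rw [hfree.ann_self, inn_zero_left, if_pos ⟨rfl, rfl⟩, zero_add]
    · subst hp
      rw [hfree.ann_self, inn_zero_left, if_neg (by simp [hq]), zero_add]
      exact inn_free_core hfree (hk.ann hq)
  · by_cases hq : q = k
    · subst hq
      rw [hfree.ann_self, inn_zero_right, if_neg (by simp [hp]), zero_add]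
      exact inn_core_free (hk.ann hp) hfree
    · rw [if_neg (by simp [hp]), add_zero, ← inn_ann (hc.ann p) (hc.ann q) (hk.ann hp),
        hc.ann_ann k p, hc.ann_ann k q, inn_neg_neg]

/-- two-body matrix elements of a tensor with a core label. -/
theorem two_core {k : A} {c : (Fin (n + 3) → A) → ℂ} (hc : Anti c) (hk : CoreK k c)
    (p q p' q' : A) :
    inn (ann q (ann p c)) (ann q' (ann p' c)) =
      inn (ann q (ann p (ann k c))) (ann q' (ann p' (ann k c))) +
      ((if p = k ∧ p' = k then inn (ann q (ann k c)) (ann q' (ann k c)) else 0) -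
      (if p = k ∧ q' = k then inn (ann q (ann k c)) (ann p' (ann k c)) else 0) -
      (if q = k ∧ p' = k then inn (ann p (ann k c)) (ann q' (ann k c)) else 0) +
      (if q = k ∧ q' = k then inn (ann p (ann k c)) (ann p' (ann k c)) else 0)) := by
  have hfree := hc.free (k := k)
  have z : ann k (ann k c) = 0 := hfree.ann_self
  have z2 : ∀ p, ann k (ann p (ann k c)) = 0 := fun p => (hfree.ann p).ann_self
  have z3 : ∀ q, ann q (0 : (Fin (n + 1) → A) → ℂ) = 0 := by
    intro q; funext J; simp [ann]
  have sw : ∀ p, ann k (ann p c) = fun J => -ann p (ann k c) J := fun p => hc.ann_ann k p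
  -- a tensor with `k` annihilated on one side only
  by_cases hp : p = k
  · subst hp
    by_cases hq : q = p
    · subst hq
      simp [z, z3, inn_zero_left]
    · have hf : FreeK p (ann q (ann p c)) := hfree.ann q
      by_cases hp' : p' = p
      · subst hp'
        by_cases hq' : q' = p'
        · subst hq'
          simp [z, z3, inn_zero_right]
        · simp [z, z3, inn_zero_left, hq, hq']
      · by_cases hq' : q' = p
        · subst hq'
          rw [sw p', inn_neg_right]
          simp [z, z3, inn_zero_left, hq, hp']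
        · have h0 : inn (ann q (ann p c)) (ann q' (ann p' c)) = 0 :=
            inn_free_core hf ((hk.ann hp').ann hq')
          rw [h0]
          simp [z, z3, inn_zero_left, hq, hp', hq']
  · by_cases hq : q = k
    · subst hq
      rw [sw p, inn_neg_left]
      have hf : FreeK q (ann p (ann q c)) := hfree.ann p
      by_cases hp' : p' = q
      · subst hp'
        by_cases hq' : q' = p'
        · subst hq'
          simp [z, z2, z3, inn_zero_right]
        · simp [z2, inn_zero_left, hp, hq']
      · by_cases hq' : q' = q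
        · subst hq'
          rw [sw p', inn_neg_right]
          simp [z2, inn_zero_left, hp, hp']
        · have h0 : inn (ann p (ann q c)) (ann q' (ann p' c)) = 0 :=
            inn_free_core hf ((hk.ann hp').ann hq')
          rw [h0]
          simp [z2, inn_zero_left, hp', hq', hp]
    · have hcore : CoreK k (ann q (ann p c)) := (hk.ann hp).ann hq
      by_cases hp' : p' = k
      · subst hp'
        have h0 : inn (ann q (ann p c)) (ann q' (ann p' c)) = 0 :=
          inn_core_free hcore (hfree.ann q')
        rw [h0]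
        simp [z, z3, inn_zero_right, hp, hq]
      · by_cases hq' : q' = k
        · subst hq'
          have h0 : inn (ann q (ann p c)) (ann q' (ann p' c)) = 0 := by
            rw [sw p', inn_neg_right, inn_core_free hcore (hfree.ann p'), neg_zero]
          rw [h0]
          simp [z2, inn_zero_right, hp, hq]
        · have h1 : inn (ann q (ann p c)) (ann q' (ann p' c)) =
              inn (ann q (ann p (ann k c))) (ann q' (ann p' (ann k c))) := by
            rw [← inn_ann ((hc.ann p).ann q) ((hc.ann p').ann q') hcore,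
              (hc.ann p).ann_ann k q, (hc.ann p').ann_ann k q', inn_neg_neg, sw p, sw p']
            have e : ∀ r s, ann s (fun J => -ann r (ann k c) J) =
                fun J => -ann s (ann r (ann k c)) J := by
              intro r s; funext J; simp [ann]
            rw [e p q, e p' q', inn_neg_neg]
          rw [h1]
          simp [hp, hq, hp', hq']

end fin2

end

end Vale.Agent.P370.H405.C3
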