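import Vale.Agent.P370.H405.C3List
import Vale.Agent.P370.H405.Lower
import Vale.Agent.P363.H95.RepTen

/-!
Problem P370, block C3: the energy of the electron state with a given antisymmetric coefficient
tensor over an orthonormal family of orbitals.
-/

namespace Vale.Agent.P370.H405.C3

open MeasureTheory Filter Topology
open Vale.Agent.P363.Stmt Vale.Agent.P363.R.Sob Vale.Agent.P363.H382 Vale.Agent.P363.R.Top
open Vale.Agent.P363.H518 (coef memLp_conj integrable_coef)
open Vale.Agent.P363.H95 (tp OneBody Orth AntiT ofTen sum_pair Dc CoulInt velc wForm wForm_ofTen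
  coef_tp integral_tp integrable_tp conj_tp tp_mul)
open scoped ContDiff ENNReal ComplexConjugate

set_option linter.unusedSectionVars false

noncomputable section

variable {ι : Type} [Fintype ι] [DecidableEq ι] {N n : ℕ} {u : ι → R3 → ℂ}
  {gu : ι → Fin 3 → R3 → ℂ}

/-- spin-orbital matrix of a spin independent one-body operator -/
def sp (T : ι → ι → ℂ) (p q : ι × Fin 2) : ℂ := if p.2 = q.2 then T p.1 q.1 else 0

/-- spin-orbital matrix of a spin independent two-body operator, `(p p' | q q')` -/
def sp2 (D : ι → ι → ι → ι → ℂ) (p p' q q' : ι × Fin 2) : ℂ :=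
  if p.2 = p'.2 ∧ q.2 = q'.2 then D p.1 p'.1 q.1 q'.1 else 0

/-- matrix of the potential `v` -/
def Vc (v : R3 → ℝ) (u : ι → R3 → ℂ) (a b : ι) : ℂ :=
  coef (volume : Measure R3) (u a) (fun r => (v r : ℂ) * u b r)

/-- matrix of `-Δ` -/
def Kc (gu : ι → Fin 3 → R3 → ℂ) (a b : ι) : ℂ :=
  ∑ k, coef (volume : Measure R3) (gu a k) (gu b k)

/-- integrability of the potential matrix elements -/
def VInt (v : R3 → ℝ) (u : ι → R3 → ℂ) : Prop :=
  ∀ a b, Integrable (fun r => conj (u a r) * ((v r : ℂ) * u b r)) (volume : Measure R3)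

theorem sum_off {M : Type*} [AddCommMonoid M] (a : Fin N → ι) (i : Fin N)
    (f : (Fin N → ι) → M) (hf : ∀ b, (∃ j, j ≠ i ∧ b j ≠ a j) → f b = 0) :
    ∑ b, f b = ∑ β, f (Function.update a i β) := by
  classical
  have h1 : ∑ b ∈ Finset.univ.image (fun β => Function.update a i β), f b = ∑ b, f b := by
    refine Finset.sum_subset (Finset.subset_univ _) fun b _ hb => hf b ?_
    by_contra hcon
    push Not at hcon
    apply hb
    rw [Finset.mem_image]
    refine ⟨b i, Finset.mem_univ _, ?_⟩
    funext j
    by_cases hj : j = i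
    · subst hj; simp
    · rw [Function.update_of_ne hj, hcon j hj]
  rw [← h1, Finset.sum_image]
  intro β _ β' _ h
  have := congrFun h i
  simpa using this

/-- finite sums behind a one-body operator in the `i`-th variable. -/
theorem one_sum (ho : Orth u) (A B : ι → R3 → ℂ) (c d : (Fin N → ι × Fin 2) → ℂ) (i : Fin N) :
    ∑ s : Fin N → Fin 2, ∑ a : Fin N → ι, ∑ b : Fin N → ι,
      (conj (c fun j => (a j, s j)) * d fun j => (b j, s j)) *
        coef (volume : Measure (Conf N)) (tp (Function.update (fun j => u (a j)) i (A (a i))))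
          (tp (Function.update (fun j => u (b j)) i (B (b i)))) =
    ∑ J : Fin N → ι × Fin 2, conj (c J) *
      ∑ q, sp (fun a b => coef volume (A a) (B b)) (J i) q * d (Function.update J i q) := by
  rw [sum_pair]
  refine Finset.sum_congr rfl fun s _ => Finset.sum_congr rfl fun a _ => ?_
  rw [sum_off a i]
  · rw [Fintype.sum_prod_type, Finset.mul_sum]
    refine Finset.sum_congr rfl fun β _ => ?_
    have h1 : coef (volume : Measure (Conf N))
        (tp (Function.update (fun j => u (a j)) i (A (a i))))
        (tp (Function.update (fun j => u (Function.update a i β j)) i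
          (B (Function.update a i β i)))) = coef volume (A (a i)) (B β) := by
      rw [coef_tp, Finset.prod_eq_single i]
      · simp
      · intro j _ hj
        rw [Function.update_of_ne hj, Function.update_of_ne hj]
        simp only [Function.update_of_ne hj]
        rw [ho, if_pos rfl]
      · intro h; exact absurd (Finset.mem_univ _) h
    rw [h1, Finset.sum_eq_single (s i)]
    · have h2 : Function.update (fun j => (a j, s j)) i (β, s i) =
          fun j => (Function.update a i β j, s j) := by
        funext j
        by_cases hj : j = i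
        · subst hj; simp
        · simp [Function.update_of_ne hj]
      rw [h2]
      unfold sp
      rw [if_pos rfl]
      ring
    · intro t _ ht
      unfold sp
      rw [if_neg (fun h => ht h.symm), zero_mul]
    · intro h; exact absurd (Finset.mem_univ _) h
  · rintro b ⟨j, hj, hne⟩
    rw [coef_tp, Finset.prod_eq_zero (Finset.mem_univ j), mul_zero]
    rw [Function.update_of_ne hj, Function.update_of_ne hj, ho, if_neg (Ne.symm hne)]

theorem integrable_conj_tp {w w' : Fin N → R3 → ℂ}
    (h : ∀ j, Integrable (fun r => conj (w j r) * w' j r) (volume : Measure R3)) :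
    Integrable (fun x : Conf N => conj (tp w x) * tp w' x) := by
  have h1 := integrable_tp (N := N) h
  refine h1.congr (Eventually.of_forall fun x => ?_)
  simp only
  rw [conj_tp, tp_mul]

/-- integral behind a one-body operator in the `i`-th variable. -/
theorem one_int (H : OneBody u gu) (A B : ι → R3 → ℂ)
    (hAB : ∀ a b, Integrable (fun r => conj (A a r) * B b r) (volume : Measure R3))
    (c d : (Fin N → ι × Fin 2) → ℂ) (i : Fin N) (s : Fin N → Fin 2) :
    Integrable (fun x : Conf N => conj (∑ a : Fin N → ι, c (fun j => (a j, s j)) *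
        tp (Function.update (fun j => u (a j)) i (A (a i))) x) *
      (∑ b : Fin N → ι, d (fun j => (b j, s j)) *
        tp (Function.update (fun j => u (b j)) i (B (b i))) x)) ∧
    ∫ x : Conf N, conj (∑ a : Fin N → ι, c (fun j => (a j, s j)) *
        tp (Function.update (fun j => u (a j)) i (A (a i))) x) *
      (∑ b : Fin N → ι, d (fun j => (b j, s j)) *
        tp (Function.update (fun j => u (b j)) i (B (b i))) x) =
    ∑ a : Fin N → ι, ∑ b : Fin N → ι, (conj (c fun j => (a j, s j)) * d fun j => (b j, s j)) *
        coef (volume : Measure (Conf N)) (tp (Function.update (fun j => u (a j)) i (A (a i))))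
          (tp (Function.update (fun j => u (b j)) i (B (b i)))) := by
  have hI : ∀ a b : Fin N → ι, Integrable (fun x : Conf N =>
      (conj (c fun j => (a j, s j)) * d fun j => (b j, s j)) *
      (conj (tp (Function.update (fun j => u (a j)) i (A (a i))) x) *
        tp (Function.update (fun j => u (b j)) i (B (b i))) x)) := by
    intro a b
    refine (integrable_conj_tp fun j => ?_).const_mul _
    by_cases hj : j = i
    · subst hj
      simpa using hAB (a j) (b j)
    · simp only [Function.update_of_ne hj]
      exact integrable_coef (H.mem _) (H.mem _)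
  have h1 : ∀ x : Conf N, conj (∑ a : Fin N → ι, c (fun j => (a j, s j)) *
        tp (Function.update (fun j => u (a j)) i (A (a i))) x) *
      (∑ b : Fin N → ι, d (fun j => (b j, s j)) *
        tp (Function.update (fun j => u (b j)) i (B (b i))) x) =
      ∑ a : Fin N → ι, ∑ b : Fin N → ι,
      (conj (c fun j => (a j, s j)) * d fun j => (b j, s j)) *
      (conj (tp (Function.update (fun j => u (a j)) i (A (a i))) x) *
        tp (Function.update (fun j => u (b j)) i (B (b i))) x) := by
    intro x
    rw [map_sum, Finset.sum_mul_sum]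
    refine Finset.sum_congr rfl fun a _ => Finset.sum_congr rfl fun b _ => ?_
    rw [map_mul]; ring
  simp only [h1]
  refine ⟨integrable_finsetSum _ fun a _ => integrable_finsetSum _ fun b _ => hI a b, ?_⟩
  rw [integral_finsetSum _ fun a _ => integrable_finsetSum _ fun b _ => hI a b]
  refine Finset.sum_congr rfl fun a _ => ?_
  rw [integral_finsetSum _ fun b _ => hI a b]
  refine Finset.sum_congr rfl fun b _ => ?_
  rw [integral_const_mul]
  rfl

/-- sum over all electrons. -/
theorem one_form (H : OneBody u gu) (ho : Orth u) (A B : ι → R3 → ℂ)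
    (hAB : ∀ a b, Integrable (fun r => conj (A a r) * B b r) (volume : Measure R3))
    (c : (Fin N → ι × Fin 2) → ℂ) :
    ∑ i, ∑ s : Fin N → Fin 2, ∫ x : Conf N, conj (∑ a : Fin N → ι, c (fun j => (a j, s j)) *
        tp (Function.update (fun j => u (a j)) i (A (a i))) x) *
      (∑ b : Fin N → ι, c (fun j => (b j, s j)) *
        tp (Function.update (fun j => u (b j)) i (B (b i))) x) =
    F1 (sp (fun a b => coef volume (A a) (B b))) c := by
  unfold F1
  have h3 : ∀ J : Fin N → ι × Fin 2, conj (c J) * ∑ i, ∑ b,
      sp (fun a b => coef volume (A a) (B b)) (J i) b * c (Function.update J i b) =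
      ∑ i, conj (c J) * ∑ b, sp (fun a b => coef volume (A a) (B b)) (J i) b *
        c (Function.update J i b) := fun J => Finset.mul_sum _ _ _
  simp only [h3]
  rw [Finset.sum_comm (s := (Finset.univ : Finset (Fin N → ι × Fin 2)))]
  refine Finset.sum_congr rfl fun i _ => ?_
  rw [← one_sum ho A B c c i]
  refine Finset.sum_congr rfl fun s _ => ?_
  exact (one_int H A B hAB c c i s).2

variable {H : OneBody u gu} {c : (Fin N → ι × Fin 2) → ℂ} {hc : AntiT c}

theorem ofTen_amp (s : Fin N → Fin 2) (x : Conf N) :
    (ofTen H c hc).amp s x = ∑ a : Fin N → ι, c (fun i => (a i, s i)) *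
      tp (fun i => u (a i)) x := rfl

theorem ofTen_grad (s : Fin N → Fin 2) (i : Fin N) (k : Fin 3) (x : Conf N) :
    (ofTen H c hc).grad s i k x = ∑ a : Fin N → ι, c (fun i => (a i, s i)) *
      tp (Function.update (fun i => u (a i)) i (gu (a i) k)) x := rfl

theorem conj_mul_self_ofReal (z : ℂ) : conj z * z = ((‖z‖ ^ 2 : ℝ) : ℂ) := by
  rw [Complex.conj_mul']
  push_cast
  rfl

theorem F1_sum {κ : Type*} (S : Finset κ) (t : κ → (ι × Fin 2) → (ι × Fin 2) → ℂ)
    (c : (Fin N → ι × Fin 2) → ℂ) :
    F1 (fun p q => ∑ k ∈ S, t k p q) c = ∑ k ∈ S, F1 (t k) c := by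
  classical
  induction S using Finset.induction_on with
  | empty => simp [F1]
  | insert a S ha ih =>
    simp only [Finset.sum_insert ha]
    rw [F1_add, ih]

/-- kinetic energy of a tensor state. -/
theorem kin_ofTen (ho : Orth u) :
    ((∑ s, ∑ i, ∑ k, intR (fun x => ‖(ofTen H c hc).grad s i k x‖ ^ 2) : ℝ) : ℂ) =
      F1 (sp (Kc gu)) c := by
  have h1 : sp (Kc gu) = fun p q => ∑ k : Fin 3,
      sp (fun a b => coef (volume : Measure R3) (gu a k) (gu b k)) p q := by
    funext p q
    unfold sp Kc
    split_ifs <;> simp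
  rw [h1, F1_sum]
  have h2 : ∀ k : Fin 3, F1 (sp (fun a b => coef (volume : Measure R3) (gu a k) (gu b k))) c =
      ∑ i, ∑ s, ∫ x, ((‖(ofTen H c hc).grad s i k x‖ ^ 2 : ℝ) : ℂ) := by
    intro k
    rw [← one_form H ho (fun a => gu a k) (fun a => gu a k)
      (fun a b => integrable_coef (H.gmem _ _) (H.gmem _ _)) c]
    refine Finset.sum_congr rfl fun i _ => Finset.sum_congr rfl fun s _ => ?_
    congr 1; funext x
    rw [← conj_mul_self_ofReal]
    rfl
  rw [Finset.sum_congr rfl fun k _ => h2 k]
  simp only [intR_eq]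
  push_cast
  rw [Finset.sum_comm, Finset.sum_congr rfl fun i _ => Finset.sum_comm, Finset.sum_comm]
  refine Finset.sum_congr rfl fun k _ => Finset.sum_congr rfl fun i _ =>
    Finset.sum_congr rfl fun s _ => ?_
  rw [← integral_complex_ofReal]
  push_cast
  rfl

theorem tp_update_mul (v : R3 → ℝ) (w : Fin N → R3 → ℂ) (i : Fin N) (x : Conf N) :
    tp (Function.update w i (fun r => (v r : ℂ) * w i r)) x = (v (x i) : ℂ) * tp w x := by
  unfold tp
  rw [Finset.prod_eq_mul_prod_sdiff_singleton_of_mem (Finset.mem_univ i),
    Finset.prod_eq_mul_prod_sdiff_singleton_of_mem (Finset.mem_univ i) (fun j => w j (x j)),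
    ← mul_assoc]
  congr 1
  · simp
  · refine Finset.prod_congr rfl fun j hj => ?_
    have : j ≠ i := by simpa using hj
    simp [Function.update_of_ne this]

theorem amp_update (s : Fin N → Fin 2) (i : Fin N) (x : Conf N) :
    (ofTen H c hc).amp s x = ∑ a : Fin N → ι, c (fun j => (a j, s j)) *
      tp (Function.update (fun j => u (a j)) i (u (a i))) x := by
  rw [ofTen_amp]
  refine Finset.sum_congr rfl fun a _ => ?_
  rw [Function.update_eq_self]

theorem amp_update_mul (v : R3 → ℝ) (s : Fin N → Fin 2) (i : Fin N) (x : Conf N) :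
    (v (x i) : ℂ) * (ofTen H c hc).amp s x = ∑ a : Fin N → ι, c (fun j => (a j, s j)) *
      tp (Function.update (fun j => u (a j)) i (fun r => (v r : ℂ) * u (a i) r)) x := by
  rw [ofTen_amp, Finset.mul_sum]
  refine Finset.sum_congr rfl fun a _ => ?_
  rw [tp_update_mul v (fun j => u (a j)) i x]
  ring

theorem v_int {v : R3 → ℝ} (hv : VInt v u) (s : Fin N → Fin 2) (i : Fin N) :
    Integrable (fun x : Conf N => v (x i) * ‖(ofTen H c hc).amp s x‖ ^ 2) := by
  have h := (one_int H (fun a => u a) (fun a r => (v r : ℂ) * u a r) hv c c i s).1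
  have h2 := h.re
  refine h2.congr (Eventually.of_forall fun x => ?_)
  simp only
  rw [← amp_update (H := H) (hc := hc), ← amp_update_mul (H := H) (hc := hc), mul_left_comm,
    conj_mul_self_ofReal, ← Complex.ofReal_mul]
  exact Complex.ofReal_re _

/-- potential energy of a tensor state. -/
theorem pot_ofTen {v : R3 → ℝ} (ho : Orth u) (hv : VInt v u) :
    ((∑ s, intR (fun x => sumPotential v x * ‖(ofTen H c hc).amp s x‖ ^ 2) : ℝ) : ℂ) =
      F1 (sp (Vc v u)) c := by
  have h1 : F1 (sp (Vc v u)) c = ∑ i, ∑ s, ∫ x : Conf N,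
      ((v (x i) * ‖(ofTen H c hc).amp s x‖ ^ 2 : ℝ) : ℂ) := by
    have := one_form H ho (fun a => u a) (fun a r => (v r : ℂ) * u a r) hv c
    refine this.symm.trans ?_
    refine Finset.sum_congr rfl fun i _ => Finset.sum_congr rfl fun s _ => ?_
    congr 1; funext x
    rw [← amp_update (H := H) (hc := hc), ← amp_update_mul (H := H) (hc := hc), mul_left_comm,
      conj_mul_self_ofReal]
    push_cast
    rfl
  rw [h1, Finset.sum_comm]
  simp only [intR_eq]
  push_cast
  refine Finset.sum_congr rfl fun s _ => ?_
  have h2 : ∫ x, sumPotential v x * ‖(ofTen H c hc).amp s x‖ ^ 2 =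
      ∑ i, ∫ x : Conf N, v (x i) * ‖(ofTen H c hc).amp s x‖ ^ 2 := by
    unfold sumPotential
    simp only [Finset.sum_mul]
    exact integral_finsetSum _ fun i _ => v_int (H := H) (hc := hc) hv s i
  rw [h2]
  push_cast
  refine Finset.sum_congr rfl fun i _ => ?_
  rw [← integral_complex_ofReal]
  push_cast
  rfl

end

end Vale.Agent.P370.H405.C3
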