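import Vale.Agent.P370.H405.C3Alg

/-!
Problem P370, block C3: quadratic forms of one- and two-body operators on antisymmetric tensors (in
the form: replace one / two labels), and their behaviour when a core label is frozen.
-/

namespace Vale.Agent.P370.H405.C3

open scoped ComplexConjugate

set_option linter.unusedSectionVars false

noncomputable section

variable {A : Type*} [Fintype A] [DecidableEq A] {n N : ℕ}

/-- form of the one-body operator with matrix `t` -/
def F1 (t : A → A → ℂ) (c : (Fin N → A) → ℂ) : ℂ :=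
  ∑ J, conj (c J) * ∑ i, ∑ b, t (J i) b * c (Function.update J i b)

/-- form of the two-body operator with matrix `g` -/
def F2 (g : A → A → A → A → ℂ) (c : (Fin N → A) → ℂ) : ℂ :=
  ∑ J, conj (c J) * ∑ i, ∑ j ∈ Finset.Ioi i, ∑ b, ∑ d,
    g (J i) b (J j) d * c (Function.update (Function.update J i b) j d)

theorem update_comp_perm (J : Fin N → A) (σ : Equiv.Perm (Fin N)) (i : Fin N) (q : A) :
    Function.update (J ∘ σ) i q = Function.update J (σ i) q ∘ σ := by
  funext j
  by_cases h : j = i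
  · subst h; simp
  · have : σ j ≠ σ i := fun h' => h (σ.injective h')
    simp [Function.update_of_ne h, Function.update_of_ne this]

theorem conj_mul_sign {c d : (Fin N → A) → ℂ} (hc : Anti c) (hd : Anti d)
    (σ : Equiv.Perm (Fin N)) (J J' : Fin N → A) :
    conj (c (J ∘ σ)) * d (J' ∘ σ) = conj (c J) * d J' := by
  rw [hc σ J, hd σ J', map_mul, mul_mul_mul_comm]
  rcases Int.units_eq_one_or (Equiv.Perm.sign σ) with h | h <;> simp [h]

theorem inn_ann_eq (c : (Fin (n + 1) → A) → ℂ) (p q : A) :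
    inn (ann p c) (ann q c) = (n + 1 : ℂ) * ∑ J : Fin n → A,
      conj (c (Fin.cons p J)) * c (Fin.cons q J) := by
  unfold inn ann
  rw [Finset.mul_sum]
  refine Finset.sum_congr rfl fun J _ => ?_
  rw [map_mul, Complex.conj_ofReal, mul_mul_mul_comm, sqrt_mul]

theorem inn_ann_ann_eq (c : (Fin (n + 2) → A) → ℂ) (p q p' q' : A) :
    inn (ann q (ann p c)) (ann q' (ann p' c)) = ((n + 2 : ℂ) * (n + 1)) * ∑ J : Fin n → A,
      conj (c (Fin.cons p (Fin.cons q J : Fin (n + 1) → A))) *
        c (Fin.cons p' (Fin.cons q' J : Fin (n + 1) → A)) := by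
  unfold inn ann
  rw [Finset.mul_sum]
  refine Finset.sum_congr rfl fun J _ => ?_
  have h1 := sqrt_mul n
  have h2 := sqrt_mul (n + 1)
  rw [map_mul, map_mul, Complex.conj_ofReal, Complex.conj_ofReal]
  calc ((Real.sqrt (n + 1) : ℝ) : ℂ) * (((Real.sqrt ((n + 1 : ℕ) + 1) : ℝ) : ℂ) *
        conj (c (Fin.cons p (Fin.cons q J : Fin (n + 1) → A)))) *
        (((Real.sqrt (n + 1) : ℝ) : ℂ) * (((Real.sqrt ((n + 1 : ℕ) + 1) : ℝ) : ℂ) *
        c (Fin.cons p' (Fin.cons q' J : Fin (n + 1) → A))))
      = (((Real.sqrt (n + 1) : ℝ) : ℂ) * ((Real.sqrt (n + 1) : ℝ) : ℂ)) *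
        (((Real.sqrt ((n + 1 : ℕ) + 1) : ℝ) : ℂ) * ((Real.sqrt ((n + 1 : ℕ) + 1) : ℝ) : ℂ)) *
        (conj (c (Fin.cons p (Fin.cons q J : Fin (n + 1) → A))) *
        c (Fin.cons p' (Fin.cons q' J : Fin (n + 1) → A))) := by ring
    _ = _ := by
      rw [h1, h2]
      push_cast
      ring

/-- the one-body form by annihilation operators. -/
theorem F1_eq (t : A → A → ℂ) {c : (Fin (n + 1) → A) → ℂ} (hc : Anti c) :
    F1 t c = ∑ p, ∑ q, t p q * inn (ann p c) (ann q c) := by
  have h1 : ∀ i : Fin (n + 1), ∑ J : Fin (n + 1) → A, conj (c J) *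
      ∑ b, t (J i) b * c (Function.update J i b) =
      ∑ p, ∑ q, t p q * ∑ J : Fin n → A, conj (c (Fin.cons p J)) * c (Fin.cons q J) := by
    intro i
    rw [← sum_comp_perm (Equiv.swap 0 i)]
    have h2 : ∀ J : Fin (n + 1) → A, conj (c (J ∘ Equiv.swap 0 i)) *
        ∑ b, t ((J ∘ Equiv.swap 0 i) i) b * c (Function.update (J ∘ Equiv.swap 0 i) i b) =
        ∑ b, t (J 0) b * (conj (c J) * c (Function.update J 0 b)) := by
      intro J
      rw [Finset.mul_sum]
      refine Finset.sum_congr rfl fun b _ => ?_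
      rw [update_comp_perm, Equiv.swap_apply_right, mul_left_comm, conj_mul_sign hc hc]
      simp
    simp only [h2]
    rw [sum_cons]
    refine Finset.sum_congr rfl fun p _ => ?_
    rw [Finset.sum_comm]
    refine Finset.sum_congr rfl fun q _ => ?_
    rw [Finset.mul_sum]
    refine Finset.sum_congr rfl fun J _ => ?_
    simp
  unfold F1
  have h3 : ∀ J : Fin (n + 1) → A, conj (c J) * ∑ i, ∑ b, t (J i) b * c (Function.update J i b) =
      ∑ i, conj (c J) * ∑ b, t (J i) b * c (Function.update J i b) := fun J => Finset.mul_sum _ _ _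
  simp only [h3]
  rw [Finset.sum_comm, Finset.sum_congr rfl fun i _ => h1 i, Finset.sum_const, Finset.card_univ,
    Fintype.card_fin, nsmul_eq_mul, Finset.mul_sum]
  refine Finset.sum_congr rfl fun p _ => ?_
  rw [Finset.mul_sum]
  refine Finset.sum_congr rfl fun q _ => ?_
  rw [inn_ann_eq]
  push_cast
  ring

theorem exists_perm_pair {i k : Fin (n + 2)} (h : i ≠ k) :
    ∃ σ : Equiv.Perm (Fin (n + 2)), σ 0 = i ∧ σ 1 = k := by
  refine ⟨Equiv.swap 0 i * Equiv.swap 1 (Equiv.swap 0 i k), ?_, ?_⟩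
  · rw [Equiv.Perm.mul_apply]
    have h0 : (0 : Fin (n + 2)) ≠ 1 := by simp
    have h1 : (0 : Fin (n + 2)) ≠ Equiv.swap 0 i k := by
      intro hh
      have := congrArg (Equiv.swap 0 i) hh
      simp only [Equiv.swap_apply_left, Equiv.swap_apply_self] at this
      exact h this
    rw [Equiv.swap_apply_of_ne_of_ne h0 h1, Equiv.swap_apply_left]
  · rw [Equiv.Perm.mul_apply, Equiv.swap_apply_left, Equiv.swap_apply_self]

theorem sum_card_Ioi (N : ℕ) : ∑ i : Fin N, ((Finset.Ioi i).card : ℂ) = (N : ℂ) * (N - 1) / 2 := by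
  have h : ∀ N : ℕ, ∑ i : Fin N, ((N - 1 - (i : ℕ) : ℕ) : ℂ) = (N : ℂ) * (N - 1) / 2 := by
    intro N
    rw [Fin.sum_univ_eq_sum_range (fun i => ((N - 1 - i : ℕ) : ℂ)) N]
    rw [Finset.sum_range_reflect (fun i => (i : ℂ)) N]
    rw [← Nat.cast_sum]
    have := Finset.sum_range_id_mul_two N
    have h2 : (((∑ i ∈ Finset.range N, i) * 2 : ℕ) : ℂ) = ((N * (N - 1) : ℕ) : ℂ) := by
      rw [this]
    rw [Nat.cast_mul] at h2
    rcases Nat.eq_zero_or_pos N with h0 | h0
    · subst h0; simp
    · rw [Nat.cast_mul, Nat.cast_sub h0] at h2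
      push_cast at h2 ⊢
      linear_combination (1 / 2) * h2
  rw [← h N]
  exact Finset.sum_congr rfl fun i _ => by rw [Fin.card_Ioi]

/-- the two-body form by annihilation operators. -/
theorem F2_eq (g : A → A → A → A → ℂ) {c : (Fin (n + 2) → A) → ℂ} (hc : Anti c) :
    F2 g c = (1 / 2) * ∑ p, ∑ q, ∑ p', ∑ q', g p p' q q' *
      inn (ann q (ann p c)) (ann q' (ann p' c)) := by
  have h1 : ∀ i j : Fin (n + 2), i ≠ j → ∑ J : Fin (n + 2) → A, conj (c J) *
      ∑ b, ∑ d, g (J i) b (J j) d * c (Function.update (Function.update J i b) j d) =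
      ∑ p, ∑ q, ∑ p', ∑ q', g p p' q q' * ∑ J : Fin n → A,
        conj (c (Fin.cons p (Fin.cons q J : Fin (n + 1) → A))) *
        c (Fin.cons p' (Fin.cons q' J : Fin (n + 1) → A)) := by
    intro i j hij
    obtain ⟨σ', hσi', hσj'⟩ := exists_perm_pair hij
    set σ := σ'.symm with hσ
    have hσi : σ i = 0 := by rw [hσ, ← hσi']; simp
    have hσj : σ j = 1 := by rw [hσ, ← hσj']; simp
    rw [← sum_comp_perm σ]
    have h2 : ∀ J : Fin (n + 2) → A, conj (c (J ∘ σ)) * ∑ b, ∑ d, g ((J ∘ σ) i) b ((J ∘ σ) j) d *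
        c (Function.update (Function.update (J ∘ σ) i b) j d) =
        ∑ b, ∑ d, g (J 0) b (J 1) d * (conj (c J) *
          c (Function.update (Function.update J 0 b) 1 d)) := by
      intro J
      rw [Finset.mul_sum]
      refine Finset.sum_congr rfl fun b _ => ?_
      rw [Finset.mul_sum]
      refine Finset.sum_congr rfl fun d _ => ?_
      rw [update_comp_perm, update_comp_perm, hσi, hσj, mul_left_comm, conj_mul_sign hc hc]
      simp only [Function.comp_apply, hσi, hσj]
    simp only [h2]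
    rw [sum_cons]
    refine Finset.sum_congr rfl fun p _ => ?_
    rw [sum_cons]
    refine Finset.sum_congr rfl fun q _ => ?_
    rw [Finset.sum_comm]
    refine Finset.sum_congr rfl fun p' _ => ?_
    rw [Finset.sum_comm]
    refine Finset.sum_congr rfl fun q' _ => ?_
    rw [Finset.mul_sum]
    refine Finset.sum_congr rfl fun J _ => ?_
    have e0 : (Fin.cons p (Fin.cons q J : Fin (n + 1) → A) : Fin (n + 2) → A) 0 = p := rfl
    have e1 : (Fin.cons p (Fin.cons q J : Fin (n + 1) → A) : Fin (n + 2) → A) 1 = q := rfl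
    have e2 : Function.update (Function.update
        (Fin.cons p (Fin.cons q J : Fin (n + 1) → A) : Fin (n + 2) → A) 0 p') 1 q' =
        (Fin.cons p' (Fin.cons q' J : Fin (n + 1) → A) : Fin (n + 2) → A) := by
      funext i
      refine Fin.cases ?_ (fun i => ?_) i
      · rw [Function.update_of_ne (by simp)]
        simp
      · refine Fin.cases ?_ (fun i => ?_) i
        · have : (Fin.succ 0 : Fin (n + 2)) = 1 := rfl
          rw [this, Function.update_self]
          rfl
        · have h0 : (i.succ.succ : Fin (n + 2)) ≠ 0 := Fin.succ_ne_zero _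
          have h1' : (i.succ.succ : Fin (n + 2)) ≠ 1 := by
            intro h
            have h2 : (i.succ : Fin (n + 1)) = 0 := Fin.succ_injective _ (by simpa using h)
            exact Fin.succ_ne_zero _ h2
          rw [Function.update_of_ne h1', Function.update_of_ne h0]
          simp
    rw [e0, e1, e2]
  unfold F2
  have h3 : ∀ J : Fin (n + 2) → A, conj (c J) * ∑ i, ∑ j ∈ Finset.Ioi i, ∑ b, ∑ d,
      g (J i) b (J j) d * c (Function.update (Function.update J i b) j d) =
      ∑ i, ∑ j ∈ Finset.Ioi i, conj (c J) * ∑ b, ∑ d,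
      g (J i) b (J j) d * c (Function.update (Function.update J i b) j d) := fun J => by
    rw [Finset.mul_sum]
    exact Finset.sum_congr rfl fun i _ => Finset.mul_sum _ _ _
  simp only [h3]
  rw [Finset.sum_comm]
  set X : ℂ := ∑ p, ∑ q, ∑ p', ∑ q', g p p' q q' * ∑ J : Fin n → A,
        conj (c (Fin.cons p (Fin.cons q J : Fin (n + 1) → A))) *
        c (Fin.cons p' (Fin.cons q' J : Fin (n + 1) → A)) with hX
  have h4 : ∀ i : Fin (n + 2), ∑ J : Fin (n + 2) → A, ∑ j ∈ Finset.Ioi i, conj (c J) *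
      ∑ b, ∑ d, g (J i) b (J j) d * c (Function.update (Function.update J i b) j d) =
      ((Finset.Ioi i).card : ℂ) * X := by
    intro i
    rw [Finset.sum_comm, Finset.sum_congr rfl fun j hj => h1 i j (Finset.mem_Ioi.1 hj).ne,
      Finset.sum_const, nsmul_eq_mul]
  rw [Finset.sum_congr rfl fun i _ => h4 i, ← Finset.sum_mul, sum_card_Ioi]
  have h5 : ∑ p, ∑ q, ∑ p', ∑ q', g p p' q q' * inn (ann q (ann p c)) (ann q' (ann p' c)) =
      ((n + 2 : ℂ) * (n + 1)) * X := by
    rw [hX]
    simp only [Finset.mul_sum]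
    refine Finset.sum_congr rfl fun p _ => Finset.sum_congr rfl fun q _ =>
      Finset.sum_congr rfl fun p' _ => Finset.sum_congr rfl fun q' _ => ?_
    rw [inn_ann_ann_eq, Finset.mul_sum, Finset.mul_sum]
    refine Finset.sum_congr rfl fun J _ => ?_
    ring
  rw [h5]
  push_cast
  ring

/-- mean field of the frozen label `k` -/
def mf (g : A → A → A → A → ℂ) (k a b : A) : ℂ := g a b k k - g a k k b

theorem F1_freeze (t : A → A → ℂ) {k : A} {c : (Fin (n + 2) → A) → ℂ} (hc : Anti c)
    (hk : CoreK k c) :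
    F1 t c = F1 t (ann k c) + t k k * inn (ann k c) (ann k c) := by
  rw [F1_eq t hc, F1_eq t (hc.ann k)]
  have h1 : ∑ p, ∑ q, t p q * inn (ann p c) (ann q c) =
      (∑ p, ∑ q, t p q * inn (ann p (ann k c)) (ann q (ann k c))) +
      ∑ p, ∑ q, t p q * (if p = k ∧ q = k then inn (ann k c) (ann k c) else 0) := by
    simp only [← Finset.sum_add_distrib]
    refine Finset.sum_congr rfl fun p _ => Finset.sum_congr rfl fun q _ => ?_
    rw [one_core hc hk, mul_add]
  rw [h1]
  congr 1
  rw [Finset.sum_eq_single k]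
  · rw [Finset.sum_eq_single k]
    · simp
    · intro q _ hq
      simp [hq]
    · intro h; exact absurd (Finset.mem_univ _) h
  · intro p _ hp
    refine Finset.sum_eq_zero fun q _ => ?_
    simp [hp]
  · intro h; exact absurd (Finset.mem_univ _) h

theorem F2_freeze {g : A → A → A → A → ℂ} (hg : ∀ a b c d, g a b c d = g c d a b) {k : A}
    {c : (Fin (n + 3) → A) → ℂ} (hc : Anti c) (hk : CoreK k c) :
    F2 g c = F2 g (ann k c) + F1 (mf g k) (ann k c) := by
  rw [F2_eq g hc, F2_eq g (hc.ann k), F1_eq _ (hc.ann k)]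
  set S : A → A → ℂ := fun a b => inn (ann a (ann k c)) (ann b (ann k c)) with hS
  have hsplit : ∑ p, ∑ q, ∑ p', ∑ q', g p p' q q' * inn (ann q (ann p c)) (ann q' (ann p' c)) =
      (∑ p, ∑ q, ∑ p', ∑ q', g p p' q q' *
        inn (ann q (ann p (ann k c))) (ann q' (ann p' (ann k c)))) +
      ((∑ p, ∑ q, ∑ p', ∑ q', g p p' q q' * (if p = k ∧ p' = k then S q q' else 0)) -
      (∑ p, ∑ q, ∑ p', ∑ q', g p p' q q' * (if p = k ∧ q' = k then S q p' else 0)) -
      (∑ p, ∑ q, ∑ p', ∑ q', g p p' q q' * (if q = k ∧ p' = k then S p q' else 0)) +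
      (∑ p, ∑ q, ∑ p', ∑ q', g p p' q q' * (if q = k ∧ q' = k then S p p' else 0))) := by
    simp only [← Finset.sum_add_distrib, ← Finset.sum_sub_distrib]
    refine Finset.sum_congr rfl fun p _ => Finset.sum_congr rfl fun q _ =>
      Finset.sum_congr rfl fun p' _ => Finset.sum_congr rfl fun q' _ => ?_
    rw [two_core hc hk]
    ring
  have e1 : (∑ p, ∑ q, ∑ p', ∑ q', g p p' q q' * (if p = k ∧ p' = k then S q q' else 0)) =
      ∑ a, ∑ b, g a b k k * S a b := by
    rw [Finset.sum_eq_single k]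
    · refine Finset.sum_congr rfl fun a _ => ?_
      rw [Finset.sum_eq_single k]
      · refine Finset.sum_congr rfl fun b _ => ?_
        rw [if_pos ⟨rfl, rfl⟩, hg]
      · intro p' _ hp'
        exact Finset.sum_eq_zero fun q' _ => by simp [hp']
      · intro h; exact absurd (Finset.mem_univ _) h
    · intro p _ hp
      exact Finset.sum_eq_zero fun q _ => Finset.sum_eq_zero fun p' _ =>
        Finset.sum_eq_zero fun q' _ => by simp [hp]
    · intro h; exact absurd (Finset.mem_univ _) h
  have e2 : (∑ p, ∑ q, ∑ p', ∑ q', g p p' q q' * (if p = k ∧ q' = k then S q p' else 0)) =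
      ∑ a, ∑ b, g a k k b * S a b := by
    rw [Finset.sum_eq_single k]
    · refine Finset.sum_congr rfl fun a _ => Finset.sum_congr rfl fun b _ => ?_
      rw [Finset.sum_eq_single k]
      · rw [if_pos ⟨rfl, rfl⟩, hg]
      · intro q' _ hq'
        simp [hq']
      · intro h; exact absurd (Finset.mem_univ _) h
    · intro p _ hp
      exact Finset.sum_eq_zero fun q _ => Finset.sum_eq_zero fun p' _ =>
        Finset.sum_eq_zero fun q' _ => by simp [hp]
    · intro h; exact absurd (Finset.mem_univ _) h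
  have e3 : (∑ p, ∑ q, ∑ p', ∑ q', g p p' q q' * (if q = k ∧ p' = k then S p q' else 0)) =
      ∑ a, ∑ b, g a k k b * S a b := by
    refine Finset.sum_congr rfl fun a _ => ?_
    rw [Finset.sum_eq_single k]
    · rw [Finset.sum_eq_single k]
      · refine Finset.sum_congr rfl fun b _ => ?_
        rw [if_pos ⟨rfl, rfl⟩]
      · intro p' _ hp'
        exact Finset.sum_eq_zero fun q' _ => by simp [hp']
      · intro h; exact absurd (Finset.mem_univ _) h
    · intro q _ hq
      exact Finset.sum_eq_zero fun p' _ => Finset.sum_eq_zero fun q' _ => by simp [hq]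
    · intro h; exact absurd (Finset.mem_univ _) h
  have e4 : (∑ p, ∑ q, ∑ p', ∑ q', g p p' q q' * (if q = k ∧ q' = k then S p p' else 0)) =
      ∑ a, ∑ b, g a b k k * S a b := by
    refine Finset.sum_congr rfl fun a _ => ?_
    rw [Finset.sum_eq_single k]
    · refine Finset.sum_congr rfl fun b _ => ?_
      rw [Finset.sum_eq_single k]
      · rw [if_pos ⟨rfl, rfl⟩]
      · intro q' _ hq'
        simp [hq']
      · intro h; exact absurd (Finset.mem_univ _) h
    · intro q _ hq
      exact Finset.sum_eq_zero fun p' _ => Finset.sum_eq_zero fun q' _ => by simp [hq]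
    · intro h; exact absurd (Finset.mem_univ _) h
  have e5 : ∑ p, ∑ q, mf g k p q * inn (ann p (ann k c)) (ann q (ann k c)) =
      (∑ a, ∑ b, g a b k k * S a b) - ∑ a, ∑ b, g a k k b * S a b := by
    simp only [← Finset.sum_sub_distrib]
    refine Finset.sum_congr rfl fun p _ => Finset.sum_congr rfl fun q _ => ?_
    unfold mf
    rw [sub_mul]
  rw [hsplit, e1, e2, e3, e4, e5]
  ring

theorem F1_add (t t' : A → A → ℂ) (c : (Fin N → A) → ℂ) :
    F1 (fun a b => t a b + t' a b) c = F1 t c + F1 t' c := by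
  unfold F1
  rw [← Finset.sum_add_distrib]
  refine Finset.sum_congr rfl fun J _ => ?_
  rw [← mul_add, ← Finset.sum_add_distrib]
  congr 1
  refine Finset.sum_congr rfl fun i _ => ?_
  rw [← Finset.sum_add_distrib]
  exact Finset.sum_congr rfl fun b _ => by ring

/-- **One core label is frozen.** -/
theorem freeze_one (t : A → A → ℂ) {g : A → A → A → A → ℂ} (hg : ∀ a b c d, g a b c d = g c d a b)
    {k : A} {c : (Fin (n + 3) → A) → ℂ} (hc : Anti c) (hk : CoreK k c) :
    F1 t c + F2 g c = t k k * inn (ann k c) (ann k c) +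
      F1 (fun a b => t a b + mf g k a b) (ann k c) + F2 g (ann k c) := by
  rw [F1_freeze t hc hk, F2_freeze hg hc hk, F1_add]
  ring

end

end Vale.Agent.P370.H405.C3
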