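import Vale.Agent.P370.H405.C3Form

/-!
Problem P370, block C3: freezing a finite set of core labels, and the inverse operation (creation of
core labels).
-/

namespace Vale.Agent.P370.H405.C3

open scoped ComplexConjugate

set_option linter.unusedSectionVars false

noncomputable section

variable {A : Type*} [Fintype A] [DecidableEq A] {n N : ℕ}

theorem freeze_one' (t : A → A → ℂ) {g : A → A → A → A → ℂ}
    (hg : ∀ a b c d, g a b c d = g c d a b) (hN : 2 ≤ N)
    {k : A} {c : (Fin (N + 1) → A) → ℂ} (hc : Anti c) (hk : CoreK k c) :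
    F1 t c + F2 g c = t k k * inn (ann k c) (ann k c) +
      F1 (fun a b => t a b + mf g k a b) (ann k c) + F2 g (ann k c) := by
  obtain ⟨m, rfl⟩ : ∃ m, N = m + 2 := ⟨N - 2, by omega⟩
  exact freeze_one t hg hc hk

/-- annihilate a list of labels -/
def frz : (ks : List A) → ((Fin (n + ks.length) → A) → ℂ) → ((Fin n → A) → ℂ)
  | [], c => c
  | k :: ks, c => frz ks (ann k c)

/-- effective one-body matrix -/
def teff (g : A → A → A → A → ℂ) : List A → (A → A → ℂ) → (A → A → ℂ)
  | [], t => t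
  | k :: ks, t => teff g ks (fun a b => t a b + mf g k a b)

/-- core energy -/
def ecore (g : A → A → A → A → ℂ) : List A → (A → A → ℂ) → ℂ
  | [], _ => 0
  | k :: ks, t => t k k + ecore g ks (fun a b => t a b + mf g k a b)

theorem teff_eq (g : A → A → A → A → ℂ) : ∀ (ks : List A) (t : A → A → ℂ) (a b : A),
    teff g ks t a b = t a b + (ks.map fun k => mf g k a b).sum
  | [], t, a, b => by simp [teff]
  | k :: ks, t, a, b => by
    rw [teff, teff_eq g ks]
    simp only [List.map_cons, List.sum_cons]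
    ring

theorem list_sum_add (ks : List A) (f h : A → ℂ) :
    (ks.map fun k => f k + h k).sum = (ks.map f).sum + (ks.map h).sum := by
  induction ks with
  | nil => simp
  | cons k ks ih => simp only [List.map_cons, List.sum_cons, ih]; ring

theorem ecore_eq {g : A → A → A → A → ℂ} (hg : ∀ a b c d, g a b c d = g c d a b) :
    ∀ (ks : List A) (t : A → A → ℂ),
    ecore g ks t = (ks.map fun k => t k k).sum +
      (1 / 2) * (ks.map fun k => (ks.map fun l => mf g l k k).sum).sum
  | [], t => by simp [ecore]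
  | k :: ks, t => by
    rw [ecore, ecore_eq hg ks]
    simp only [List.map_cons, List.sum_cons]
    rw [list_sum_add ks (fun a => t a a) (fun a => mf g k a a),
      list_sum_add ks (fun a => mf g k a a) (fun a => (ks.map fun l => mf g l a a).sum)]
    have h1 : mf g k k k = 0 := by unfold mf; ring
    have h2 : (ks.map fun l => mf g l k k) = ks.map fun l => mf g k l l := by
      refine List.map_congr_left fun l _ => ?_
      unfold mf
      rw [hg k k l l, hg k l l k]
    rw [h1, h2]
    ring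

theorem frz_anti : ∀ (ks : List A) {c : (Fin (n + ks.length) → A) → ℂ}, Anti c →
    Anti (frz ks c)
  | [], _, hc => hc
  | k :: ks, _, hc => frz_anti ks (hc.ann k)

theorem frz_free : ∀ (ks : List A) {c : (Fin (n + ks.length) → A) → ℂ} {l : A}, FreeK l c →
    FreeK l (frz ks c)
  | [], _, _, hc => hc
  | k :: ks, _, _, hc => frz_free ks (hc.ann k)

theorem frz_free' : ∀ (ks : List A) {c : (Fin (n + ks.length) → A) → ℂ}, Anti c →
    ∀ l ∈ ks, FreeK l (frz ks c)
  | [], _, _, l, hl => by simp at hl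
  | k :: ks, c, hc, l, hl => by
    rcases List.mem_cons.1 hl with h | h
    · subst h
      exact frz_free ks hc.free
    · exact frz_free' ks (hc.ann k) l h

theorem frz_inn : ∀ (ks : List A) {c d : (Fin (n + ks.length) → A) → ℂ}, ks.Nodup → Anti c →
    Anti d → (∀ l ∈ ks, CoreK l c) → inn (frz ks c) (frz ks d) = inn c d
  | [], _, _, _, _, _, _ => rfl
  | k :: ks, c, d, hn, hc, hd, hk => by
    have hn' := List.nodup_cons.1 hn
    have h1 := frz_inn ks (c := ann k c) (d := ann k d) hn'.2 (hc.ann k) (hd.ann k)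
      fun l hl => (hk l (List.mem_cons_of_mem _ hl)).ann fun h : k = l => hn'.1 (h ▸ hl)
    show inn (frz ks (ann k c)) (frz ks (ann k d)) = inn c d
    rw [h1, inn_ann hc hd (hk k List.mem_cons_self)]

/-- **Freezing all core labels.** -/
theorem frz_form {g : A → A → A → A → ℂ} (hg : ∀ a b c d, g a b c d = g c d a b) (hn2 : 2 ≤ n) :
    ∀ (ks : List A) (t : A → A → ℂ) {c : (Fin (n + ks.length) → A) → ℂ}, ks.Nodup → Anti c →
      (∀ l ∈ ks, CoreK l c) →
      F1 t c + F2 g c = ecore g ks t * inn c c + F1 (teff g ks t) (frz ks c) + F2 g (frz ks c)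
  | [], t, c, _, _, _ => by simp [ecore, teff, frz]
  | k :: ks, t, c, hn, hc, hk => by
    have hn' := List.nodup_cons.1 hn
    have hk' : ∀ l ∈ ks, CoreK l (ann k c) := fun l hl =>
      (hk l (List.mem_cons_of_mem _ hl)).ann fun h : k = l => hn'.1 (h ▸ hl)
    have h1 := frz_form hg hn2 ks (fun a b => t a b + mf g k a b) (c := ann k c) hn'.2
      (hc.ann k) hk'
    have h2 := freeze_one' (N := n + ks.length) t hg (by omega) hc (hk k List.mem_cons_self)
    have h3 : inn (ann k c) (ann k c) = inn c c := inn_ann hc hc (hk k List.mem_cons_self)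
    show F1 t c + F2 g c = (t k k + ecore g ks (fun a b => t a b + mf g k a b)) * inn c c +
      F1 (teff g ks (fun a b => t a b + mf g k a b)) (frz ks (ann k c)) +
      F2 g (frz ks (ann k c))
    have h4 : F1 t c + F2 g c = t k k * inn (ann k c) (ann k c) +
      F1 (fun a b => t a b + mf g k a b) (ann k c) + F2 g (ann k c) := h2
    rw [h4, add_assoc, h1, h3]
    ring

/-! ### creation of a label -/

/-- creation of the label `k` -/
def cre (k : A) (ψ : (Fin n → A) → ℂ) : (Fin (n + 1) → A) → ℂ := fun J =>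
  ((1 / (Real.sqrt (n + 1) * n.factorial) : ℝ) : ℂ) * ∑ σ : Equiv.Perm (Fin (n + 1)),
    ((Equiv.Perm.sign σ : ℤ) : ℂ) *
      (if J (σ 0) = k then ψ (fun j => J (σ j.succ)) else 0)

theorem cre_anti (k : A) (ψ : (Fin n → A) → ℂ) : Anti (cre k ψ) := by
  intro τ J
  unfold cre
  rw [mul_left_comm]
  congr 1
  rw [Finset.mul_sum, ← Equiv.sum_comp (Equiv.mulLeft τ⁻¹)]
  refine Finset.sum_congr rfl fun σ _ => ?_
  have h1 : ∀ i, (J ∘ τ) ((Equiv.mulLeft τ⁻¹ σ) i) = J (σ i) := by
    intro i
    simp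
  simp only [h1]
  simp only [Equiv.coe_mulLeft, Equiv.Perm.sign_mul, Equiv.Perm.sign_inv, Units.val_mul,
    Int.cast_mul]
  ring

theorem cre_supp {k : A} {ψ : (Fin n → A) → ℂ} {J : Fin (n + 1) → A} (h : cre k ψ J ≠ 0) :
    ∃ σ : Equiv.Perm (Fin (n + 1)), J (σ 0) = k ∧ ψ (fun j => J (σ j.succ)) ≠ 0 := by
  by_contra hcon
  push Not at hcon
  apply h
  unfold cre
  rw [Finset.sum_eq_zero, mul_zero]
  intro σ _
  split_ifs with h1
  · rw [hcon σ h1, mul_zero]
  · rw [mul_zero]

theorem cre_core (k : A) (ψ : (Fin n → A) → ℂ) : CoreK k (cre k ψ) := by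
  intro J hJ
  obtain ⟨σ, h1, -⟩ := cre_supp hJ
  exact ⟨σ 0, h1⟩

theorem cre_core' {k l : A} {ψ : (Fin n → A) → ℂ} (hψ : CoreK l ψ) : CoreK l (cre k ψ) := by
  intro J hJ
  obtain ⟨σ, -, h2⟩ := cre_supp hJ
  obtain ⟨i, hi⟩ := hψ _ h2
  exact ⟨σ i.succ, hi⟩

theorem cre_free {k l : A} (hkl : k ≠ l) {ψ : (Fin n → A) → ℂ} (hψ : FreeK l ψ) :
    FreeK l (cre k ψ) := by
  intro J hJ i hi
  obtain ⟨σ, h1, h2⟩ := cre_supp hJ
  obtain ⟨j, rfl⟩ := σ.surjective i
  revert hi
  refine Fin.cases ?_ (fun j => ?_) j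
  · intro hi; exact hkl (h1.symm.trans hi)
  · intro hi; exact hψ _ h2 j hi

theorem ann_cre {k : A} {ψ : (Fin n → A) → ℂ} (hψ : Anti ψ) (hf : FreeK k ψ) :
    ann k (cre k ψ) = ψ := by
  funext J
  by_cases hJ : ∃ i, J i = k
  · have h1 : ψ J = 0 := by
      by_contra h
      obtain ⟨i, hi⟩ := hJ
      exact hf J h i hi
    obtain ⟨i, hi⟩ := hJ
    have h2 : cre k ψ (Fin.cons k J) = 0 :=
      (cre_anti k ψ).zero_of_eq (i := 0) (j := i.succ) (Fin.succ_ne_zero _).symm (by simp [hi])
    unfold ann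
    rw [h1, h2, mul_zero]
  · push Not at hJ
    unfold ann cre
    have h3 : ∑ σ : Equiv.Perm (Fin (n + 1)), ((Equiv.Perm.sign σ : ℤ) : ℂ) *
        (if (Fin.cons k J : Fin (n + 1) → A) (σ 0) = k then
          ψ (fun j => (Fin.cons k J : Fin (n + 1) → A) (σ j.succ)) else 0) =
        (n.factorial : ℂ) * ψ J := by
      rw [← Equiv.sum_comp Equiv.Perm.decomposeFin.symm, Fintype.sum_prod_type,
        Finset.sum_eq_single (0 : Fin (n + 1))]
      · have h4 : ∀ τ : Equiv.Perm (Fin n),
            ((Equiv.Perm.sign (Equiv.Perm.decomposeFin.symm ((0 : Fin (n + 1)), τ)) : ℤ) : ℂ) *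
            (if (Fin.cons k J : Fin (n + 1) → A)
              ((Equiv.Perm.decomposeFin.symm ((0 : Fin (n + 1)), τ)) 0) = k then
            ψ (fun j => (Fin.cons k J : Fin (n + 1) → A)
              ((Equiv.Perm.decomposeFin.symm ((0 : Fin (n + 1)), τ)) j.succ)) else 0) = ψ J := by
          intro τ
          have h5 : (fun j : Fin n => (Fin.cons k J : Fin (n + 1) → A)
              ((Equiv.Perm.decomposeFin.symm ((0 : Fin (n + 1)), τ)) j.succ)) = J ∘ τ := by
            funext j
            simp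
          have h6 : (Fin.cons k J : Fin (n + 1) → A)
              ((Equiv.Perm.decomposeFin.symm ((0 : Fin (n + 1)), τ)) 0) = k := by simp
          rw [if_pos h6, h5, hψ τ J, sign_decompose, ← mul_assoc, ← Int.cast_mul,
            Int.units_coe_mul_self]
          simp
        rw [Finset.sum_congr rfl fun τ _ => h4 τ, Finset.sum_const, Finset.card_univ,
          Fintype.card_perm, Fintype.card_fin, nsmul_eq_mul]
      · intro i _ hi
        refine Finset.sum_eq_zero fun τ _ => ?_
        rw [if_neg, mul_zero]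
        rw [Equiv.Perm.decomposeFin_symm_apply_zero]
        obtain ⟨j, rfl⟩ := Fin.exists_succ_eq.2 hi
        simpa using hJ j
      · intro h; exact absurd (Finset.mem_univ _) h
    rw [h3]
    have h7 : (Real.sqrt (n + 1) : ℝ) ≠ 0 := by positivity
    have h8 : ((n.factorial : ℕ) : ℂ) ≠ 0 := by exact_mod_cast n.factorial_ne_zero
    push_cast
    field_simp

/-- every antisymmetric tensor free of the core labels comes from a tensor with the core labels. -/
theorem exists_frz : ∀ (ks : List A) {ψ : (Fin n → A) → ℂ}, ks.Nodup → Anti ψ →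
    (∀ l ∈ ks, FreeK l ψ) → ∃ c : (Fin (n + ks.length) → A) → ℂ, Anti c ∧ (∀ l ∈ ks, CoreK l c) ∧
      frz ks c = ψ ∧ ∀ l, l ∉ ks → FreeK l ψ → FreeK l c
  | [], ψ, _, hψ, _ => ⟨ψ, hψ, by simp, rfl, fun _ _ h => h⟩
  | k :: ks, ψ, hn, hψ, hf => by
    have hn' := List.nodup_cons.1 hn
    obtain ⟨c, h1, h2, h3, h4⟩ := exists_frz ks hn'.2 hψ fun l hl =>
      hf l (List.mem_cons_of_mem _ hl)
    have hkc : FreeK k c := h4 k hn'.1 (hf k List.mem_cons_self)
    refine ⟨cre k c, cre_anti k c, ?_, ?_, ?_⟩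
    · intro l hl
      rcases List.mem_cons.1 hl with h | h
      · subst h; exact cre_core l c
      · exact cre_core' (h2 l h)
    · show frz ks (ann k (cre k c)) = ψ
      rw [ann_cre h1 hkc, h3]
    · intro l hl hfl
      have h5 : k ≠ l := fun h => hl (h ▸ List.mem_cons_self)
      have h6 : l ∉ ks := fun h => hl (List.mem_cons_of_mem _ h)
      exact cre_free h5 (h4 l h6 hfl)

end

end Vale.Agent.P370.H405.C3
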