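import Vale.Agent.P370.H405.C3Cont

/-!
Problem P370, block C3: repulsion and total energy of the electron state with a given antisymmetric
coefficient tensor over an orthonormal family of orbitals.
-/

namespace Vale.Agent.P370.H405.C3

open MeasureTheory Filter Topology
open Vale.Agent.P363.Stmt Vale.Agent.P363.R.Sob Vale.Agent.P363.H382 Vale.Agent.P363.R.Top
open Vale.Agent.P363.H518 (coef memLp_conj integrable_coef)
open Vale.Agent.P363.H95 (tp OneBody Orth AntiT ofTen sum_pair Dc CoulInt velc wForm wForm_ofTen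
  coef_tp integral_tp integrable_tp conj_tp tp_mul)
open scoped ContDiff ENNReal ComplexConjugate

set_option linter.unusedSectionVars false

noncomputable section

variable {ι : Type} [Fintype ι] [DecidableEq ι] {N n : ℕ} {u : ι → R3 → ℂ}
  {gu : ι → Fin 3 → R3 → ℂ}

theorem antiT_iff {c : (Fin N → ι × Fin 2) → ℂ} : AntiT c ↔ Anti c := Iff.rfl

/-- repulsion energy of a tensor state. -/
theorem rep_ofTen {H : OneBody u gu} {c : (Fin (n + 2) → ι × Fin 2) → ℂ} {hc : AntiT c}
    (ho : Orth u) (hK : CoulInt u) :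
    ((∑ s, intR (fun x => rep x * ‖(ofTen H c hc).amp s x‖ ^ 2) : ℝ) : ℂ) =
      F2 (sp2 (Dc u)) c := by
  have h1 : ((∑ s, intR (fun x => rep x * ‖(ofTen H c hc).amp s x‖ ^ 2) : ℝ) : ℂ) =
      wForm (ofTen H c hc) (ofTen H c hc) := by
    unfold wForm
    simp only [intR_eq]
    rw [Complex.ofReal_sum]
    refine Finset.sum_congr rfl fun s _ => ?_
    rw [← integral_complex_ofReal]
    congr 1; funext x
    rw [conj_mul_self_ofReal]
    push_cast
    rfl
  have h2 : Anti c := hc
  rw [h1, wForm_ofTen ho hK, F2_eq _ h2]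
  have h3 : ∀ p q p' q' : ι × Fin 2, sp2 (Dc u) p p' q q' *
      inn (ann q (ann p c)) (ann q' (ann p' c)) =
      ((n + 2 : ℂ) * (n + 1)) * ∑ J : Fin n → ι × Fin 2, velc (Dc u) p q p' q' *
      (conj (c (Fin.cons p (Fin.cons q J : Fin (n + 1) → ι × Fin 2))) *
        c (Fin.cons p' (Fin.cons q' J : Fin (n + 1) → ι × Fin 2))) := by
    intro p q p' q'
    rw [inn_ann_ann_eq, ← Finset.mul_sum]
    have : sp2 (Dc u) p p' q q' = velc (Dc u) p q p' q' := rfl
    rw [this]
    ring
  simp only [h3, ← Finset.mul_sum]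
  rw [← mul_assoc]
  congr 1
  · ring
  · rw [Finset.sum_comm]
    refine Finset.sum_congr rfl fun p _ => ?_
    rw [Finset.sum_comm]
    refine Finset.sum_congr rfl fun q _ => ?_
    rw [Finset.sum_comm]
    refine Finset.sum_congr rfl fun p' _ => ?_
    rw [Finset.sum_comm]
    refine Finset.sum_congr rfl fun q' _ => ?_
    rw [← Finset.mul_sum]

/-- one-body matrix of `-(1/2) Δ + v` -/
def hOne (v : R3 → ℝ) (u : ι → R3 → ℂ) (gu : ι → Fin 3 → R3 → ℂ) (a b : ι) : ℂ :=
  (1 / 2) * Kc gu a b + Vc v u a b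

theorem F1_smul (z : ℂ) (t : (ι × Fin 2) → (ι × Fin 2) → ℂ) (c : (Fin N → ι × Fin 2) → ℂ) :
    F1 (fun p q => z * t p q) c = z * F1 t c := by
  unfold F1
  rw [Finset.mul_sum]
  refine Finset.sum_congr rfl fun J _ => ?_
  simp only [Finset.mul_sum]
  refine Finset.sum_congr rfl fun i _ => Finset.sum_congr rfl fun b _ => ?_
  ring

theorem F2_smul (z : ℂ) (g : (ι × Fin 2) → (ι × Fin 2) → (ι × Fin 2) → (ι × Fin 2) → ℂ)
    (c : (Fin N → ι × Fin 2) → ℂ) :
    F2 (fun p q r s => z * g p q r s) c = z * F2 g c := by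
  unfold F2
  rw [Finset.mul_sum]
  refine Finset.sum_congr rfl fun J _ => ?_
  simp only [Finset.mul_sum]
  refine Finset.sum_congr rfl fun i _ => Finset.sum_congr rfl fun j _ =>
    Finset.sum_congr rfl fun b _ => Finset.sum_congr rfl fun d _ => ?_
  ring

/-- **Energy of a tensor state** for the Hamiltonian `Σ (-(1/2) Δ + v) + lam Σ 1/|x_i - x_j|`. -/
theorem energy_ofTen {H : OneBody u gu} {c : (Fin (n + 2) → ι × Fin 2) → ℂ} {hc : AntiT c}
    {v : R3 → ℝ} (ho : Orth u) (hK : CoulInt u) (hv : VInt v u) (lam : ℝ) :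
    ((energy (fun x => sumPotential v x + lam * rep x) (ofTen H c hc) : ℝ) : ℂ) =
      F1 (sp (hOne v u gu)) c + lam * F2 (sp2 (Dc u)) c := by
  have e1 : sp (hOne v u gu) = fun p q => (1 / 2) * sp (Kc gu) p q + sp (Vc v u) p q := by
    funext p q
    unfold sp hOne
    split_ifs <;> simp
  rw [e1, F1_add (fun p q => (1 / 2) * sp (Kc gu) p q) (sp (Vc v u)), F1_smul,
    ← kin_ofTen (H := H) (hc := hc) ho, ← pot_ofTen (H := H) (hc := hc) ho hv,
    ← rep_ofTen (H := H) (hc := hc) ho hK]
  have e2 : ∀ s, intR (fun x => (sumPotential v x + lam * rep x) *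
      ‖(ofTen H c hc).amp s x‖ ^ 2) =
      intR (fun x => sumPotential v x * ‖(ofTen H c hc).amp s x‖ ^ 2) +
      lam * intR (fun x => rep x * ‖(ofTen H c hc).amp s x‖ ^ 2) := by
    intro s
    simp only [intR_eq]
    rw [← integral_const_mul, ← integral_add]
    · congr 1; funext x; ring
    · have : Integrable (fun x : Conf (n + 2) => ∑ i, v (x i) *
          ‖(ofTen H c hc).amp s x‖ ^ 2) :=
        integrable_finsetSum _ fun i _ => v_int (H := H) (hc := hc) hv s i
      refine this.congr (Eventually.of_forall fun x => ?_)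
      simp only [sumPotential, Finset.sum_mul]
    · exact (int_repul (ofTen H c hc) s).const_mul lam
  unfold energy
  simp only [e2]
  rw [Finset.sum_add_distrib, ← Finset.mul_sum]
  push_cast
  ring

end

end Vale.Agent.P370.H405.C3
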