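import Vale.Agent.P370.H405.C3List
import Vale.Agent.P370.H600.MottDefs

/-!
Problem P370, block C3: valence tensors free of core labels as pairs (real part, imaginary part) of
real tensors in the form of block M1.
-/

namespace Vale.Agent.P370.H405.C3

open scoped ComplexConjugate
open Vale.Agent.P370.H600 (MSt ip nsq T1 T2 hform)

set_option linter.unusedSectionVars false

noncomputable section

variable {K : Type} [Fintype K] [DecidableEq K] {m n N : ℕ}

/-- spin orbital matrix of a spin independent real one-body operator -/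
def spR (T : K ⊕ Fin m → K ⊕ Fin m → ℝ) (p q : (K ⊕ Fin m) × Fin 2) : ℂ :=
  if p.2 = q.2 then (T p.1 q.1 : ℂ) else 0

/-- spin orbital matrix of a spin independent real two-body operator -/
def sp2R (G : K ⊕ Fin m → K ⊕ Fin m → K ⊕ Fin m → K ⊕ Fin m → ℝ)
    (p p' q q' : (K ⊕ Fin m) × Fin 2) : ℂ :=
  if p.2 = p'.2 ∧ q.2 = q'.2 then (G p.1 p'.1 q.1 q'.1 : ℂ) else 0

/-- `Bool` spin to `Fin 2` spin -/
def spn (b : Bool) : Fin 2 := finTwoEquiv.symm b

theorem spn_inj {b b' : Bool} : spn b = spn b' ↔ b = b' := finTwoEquiv.symm.injective.eq_iff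

/-- tuple of valence spin orbitals -/
def vt (K : Type) {m n : ℕ} (a : Fin n → Fin m) (s : Fin n → Bool) : Fin n → (K ⊕ Fin m) × Fin 2 :=
  fun i => (Sum.inr (a i), spn (s i))

theorem vt_inj {a a' : Fin n → Fin m} {s s' : Fin n → Bool} (h : vt K a s = vt K a' s') :
    a = a' ∧ s = s' := by
  constructor
  · funext i
    have := congrArg Prod.fst (congrFun h i)
    exact Sum.inr_injective this
  · funext i
    have := congrArg Prod.snd (congrFun h i)
    exact spn_inj.1 this

/-- no core label occurs -/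
def NoCore (c : (Fin n → (K ⊕ Fin m) × Fin 2) → ℂ) : Prop := ∀ k : K, ∀ t : Fin 2,
  FreeK (Sum.inl k, t) c

theorem exists_vt (J : Fin n → (K ⊕ Fin m) × Fin 2) (h : ∀ i k, (J i).1 ≠ Sum.inl k) :
    ∃ a s, J = vt K a s := by
  have h1 : ∀ i, ∃ α : Fin m, (J i).1 = Sum.inr α := by
    intro i
    rcases hJ : (J i).1 with k | α
    · exact absurd hJ (h i k)
    · exact ⟨α, rfl⟩
  choose a ha using h1
  refine ⟨a, fun i => finTwoEquiv (J i).2, ?_⟩
  funext i
  refine Prod.ext (ha i) ?_
  simp [vt, spn]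

theorem NoCore.zero {c : (Fin n → (K ⊕ Fin m) × Fin 2) → ℂ} (hc : NoCore c)
    {J : Fin n → (K ⊕ Fin m) × Fin 2} {i : Fin n} {k : K} (h : (J i).1 = Sum.inl k) :
    c J = 0 := by
  by_contra hne
  exact hc k (J i).2 J hne i (Prod.ext h rfl)

/-- sums over tuples of valence labels. -/
theorem sum_vt {M : Type*} [AddCommMonoid M] (f : (Fin n → (K ⊕ Fin m) × Fin 2) → M)
    (hf : ∀ J i k, (J i).1 = Sum.inl k → f J = 0) :
    ∑ J, f J = ∑ a : Fin n → Fin m, ∑ s : Fin n → Bool, f (vt K a s) := by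
  classical
  rw [← Fintype.sum_prod_type' (f := fun a s => f (vt K a s))]
  have h1 : ∑ J ∈ Finset.univ.image
      (fun p : (Fin n → Fin m) × (Fin n → Bool) => vt K p.1 p.2), f J = ∑ J, f J := by
    refine Finset.sum_subset (Finset.subset_univ _) fun J _ hJ => ?_
    by_contra hne
    apply hJ
    obtain ⟨a, s, h⟩ := exists_vt J fun i k h => hne (hf J i k h)
    exact Finset.mem_image.2 ⟨(a, s), Finset.mem_univ _, h.symm⟩
  rw [← h1, Finset.sum_image]
  rintro ⟨a, s⟩ _ ⟨a', s'⟩ _ h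
  obtain ⟨h1, h2⟩ := vt_inj h
  exact Prod.ext h1 h2

theorem sum_lab {M : Type*} [AddCommMonoid M] (f : (K ⊕ Fin m) × Fin 2 → M)
    (hf : ∀ k t, f (Sum.inl k, t) = 0) :
    ∑ b, f b = ∑ β : Fin m, ∑ t : Fin 2, f (Sum.inr β, t) := by
  rw [Fintype.sum_prod_type, Fintype.sum_sum_type, Finset.sum_eq_zero, zero_add]
  intro k _
  exact Finset.sum_eq_zero fun t _ => hf k t

/-- real part of a valence tensor -/
def toR (c : (Fin n → (K ⊕ Fin m) × Fin 2) → ℂ) : MSt n m := fun a s => (c (vt K a s)).re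

/-- imaginary part of a valence tensor -/
def toI (c : (Fin n → (K ⊕ Fin m) × Fin 2) → ℂ) : MSt n m := fun a s => (c (vt K a s)).im

theorem vt_comp (a : Fin n → Fin m) (s : Fin n → Bool) (σ : Equiv.Perm (Fin n)) :
    vt K (a ∘ σ) (s ∘ σ) = vt K a s ∘ σ := rfl

theorem toR_anti {c : (Fin n → (K ⊕ Fin m) × Fin 2) → ℂ} (hc : Anti c) :
    Vale.Agent.P370.H600.Anti (toR c) := by
  intro σ a s
  unfold toR
  rw [vt_comp, hc σ]
  have : (((Equiv.Perm.sign σ : ℤ) : ℂ)) = ((((Equiv.Perm.sign σ : ℤ) : ℝ)) : ℂ) := by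
    push_cast; rfl
  rw [this, Complex.re_ofReal_mul]

theorem toI_anti {c : (Fin n → (K ⊕ Fin m) × Fin 2) → ℂ} (hc : Anti c) :
    Vale.Agent.P370.H600.Anti (toI c) := by
  intro σ a s
  unfold toI
  rw [vt_comp, hc σ]
  have : (((Equiv.Perm.sign σ : ℤ) : ℂ)) = ((((Equiv.Perm.sign σ : ℤ) : ℝ)) : ℂ) := by
    push_cast; rfl
  rw [this, Complex.im_ofReal_mul]

theorem update_vt (a : Fin n → Fin m) (s : Fin n → Bool) (i : Fin n) (β : Fin m) :
    Function.update (vt K a s) i (Sum.inr β, spn (s i)) = vt K (Function.update a i β) s := by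
  funext j
  by_cases h : j = i
  · subst h; simp [vt]
  · simp [vt, Function.update_of_ne h]

/-- the one-body operator on valence tensors. -/
theorem op1_vt (T : K ⊕ Fin m → K ⊕ Fin m → ℝ) {c : (Fin n → (K ⊕ Fin m) × Fin 2) → ℂ}
    (hc : NoCore c) (a : Fin n → Fin m) (s : Fin n → Bool) :
    ∑ i, ∑ b, spR T (vt K a s i) b * c (Function.update (vt K a s) i b) =
      ∑ i, ∑ β : Fin m, (T (Sum.inr (a i)) (Sum.inr β) : ℂ) *
        c (vt K (Function.update a i β) s) := by
  refine Finset.sum_congr rfl fun i _ => ?_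
  rw [sum_lab]
  · refine Finset.sum_congr rfl fun β _ => ?_
    rw [Finset.sum_eq_single (spn (s i))]
    · rw [update_vt]
      simp [spR, vt]
    · intro t _ ht
      have : spR T (vt K a s i) (Sum.inr β, t) = 0 := by
        unfold spR vt
        rw [if_neg]
        exact fun h => ht h.symm
      rw [this, zero_mul]
    · intro h; exact absurd (Finset.mem_univ _) h
  · intro k t
    rw [hc.zero (i := i) (k := k) (by simp), mul_zero]

/-- the two-body operator on valence tensors. -/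
theorem op2_vt (G : K ⊕ Fin m → K ⊕ Fin m → K ⊕ Fin m → K ⊕ Fin m → ℝ)
    {c : (Fin n → (K ⊕ Fin m) × Fin 2) → ℂ} (hc : NoCore c) (a : Fin n → Fin m)
    (s : Fin n → Bool) {i j : Fin n} (hij : i ≠ j) :
    ∑ b, ∑ d, sp2R G (vt K a s i) b (vt K a s j) d *
      c (Function.update (Function.update (vt K a s) i b) j d) =
      ∑ β : Fin m, ∑ δ : Fin m,
        (G (Sum.inr (a i)) (Sum.inr β) (Sum.inr (a j)) (Sum.inr δ) : ℂ) *
        c (vt K (Function.update (Function.update a i β) j δ) s) := by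
  rw [sum_lab]
  · refine Finset.sum_congr rfl fun β _ => ?_
    rw [Finset.sum_eq_single (spn (s i))]
    · rw [sum_lab]
      · refine Finset.sum_congr rfl fun δ _ => ?_
        rw [Finset.sum_eq_single (spn (s j))]
        · rw [update_vt, update_vt]
          simp [sp2R, vt]
        · intro t _ ht
          have : sp2R G (vt K a s i) (Sum.inr β, spn (s i)) (vt K a s j) (Sum.inr δ, t) = 0 := by
            unfold sp2R vt
            rw [if_neg]
            exact fun h => ht h.2.symm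
          rw [this, zero_mul]
        · intro h; exact absurd (Finset.mem_univ _) h
      · intro k t
        rw [hc.zero (i := j) (k := k) (by simp), mul_zero]
    · intro t _ ht
      refine Finset.sum_eq_zero fun d _ => ?_
      have : sp2R G (vt K a s i) (Sum.inr β, t) (vt K a s j) d = 0 := by
        unfold sp2R vt
        rw [if_neg]
        exact fun h => ht h.1.symm
      rw [this, zero_mul]
    · intro h; exact absurd (Finset.mem_univ _) h
  · intro k t
    refine Finset.sum_eq_zero fun d _ => ?_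
    rw [hc.zero (i := i) (k := k), mul_zero]
    rw [Function.update_of_ne hij, Function.update_self]

theorem inn_vt {c : (Fin n → (K ⊕ Fin m) × Fin 2) → ℂ} (hc : NoCore c) :
    inn c c = ((nsq (toR c) + nsq (toI c) : ℝ) : ℂ) := by
  unfold inn
  rw [sum_vt _ fun J i k h => by rw [hc.zero h, mul_zero]]
  unfold nsq ip
  rw [← Finset.sum_add_distrib]
  simp only [← Finset.sum_add_distrib]
  rw [Complex.ofReal_sum]
  refine Finset.sum_congr rfl fun a _ => ?_
  rw [Complex.ofReal_sum]
  refine Finset.sum_congr rfl fun s _ => ?_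
  have h1 : conj (c (vt K a s)) * c (vt K a s) = ((Complex.normSq (c (vt K a s)) : ℝ) : ℂ) :=
    Complex.normSq_eq_conj_mul_self.symm
  rw [h1, Complex.normSq_apply]
  rfl

theorem re_conj_mul (z w : ℂ) : (conj z * w).re = z.re * w.re + z.im * w.im := by
  simp [Complex.mul_re]

/-- real part of the one-body form on valence tensors. -/
theorem F1_vt (T : K ⊕ Fin m → K ⊕ Fin m → ℝ) {c : (Fin n → (K ⊕ Fin m) × Fin 2) → ℂ}
    (hc : NoCore c) :
    (F1 (spR T) c).re = ip (toR c) (T1 (fun α β => T (Sum.inr α) (Sum.inr β)) (toR c)) +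
      ip (toI c) (T1 (fun α β => T (Sum.inr α) (Sum.inr β)) (toI c)) := by
  unfold F1
  rw [sum_vt _ fun J i k h => by rw [hc.zero h, map_zero, zero_mul]]
  unfold ip
  simp only [← Finset.sum_add_distrib, Complex.re_sum]
  refine Finset.sum_congr rfl fun a _ => Finset.sum_congr rfl fun s _ => ?_
  rw [op1_vt T hc, re_conj_mul]
  unfold T1 toR toI
  simp only [Complex.re_sum, Complex.im_sum, Complex.re_ofReal_mul, Complex.im_ofReal_mul]

theorem sum_erase_Ioi {M : Type*} [AddCommGroup M] (f : Fin n → Fin n → M)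
    (hf : ∀ i j, i ≠ j → f i j = f j i) :
    ∑ i, ∑ j ∈ Finset.univ.erase i, f i j = ∑ i, ∑ j ∈ Finset.Ioi i, (f i j + f i j) := by
  classical
  have h1 : ∀ i : Fin n, Finset.univ.erase i = Finset.Ioi i ∪ Finset.Iio i := by
    intro i
    ext j
    simp only [Finset.mem_erase, Finset.mem_univ, and_true, Finset.mem_union, Finset.mem_Ioi,
      Finset.mem_Iio]
    constructor
    · intro h; exact (lt_or_gt_of_ne h).symm.imp (fun h => h) (fun h => h)
    · rintro (h | h)
      · exact h.ne'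
      · exact h.ne
  have h2 : ∀ i : Fin n, Disjoint (Finset.Ioi i) (Finset.Iio i) := by
    intro i
    rw [Finset.disjoint_left]
    intro j hj hj'
    exact absurd (Finset.mem_Ioi.1 hj) (not_lt.2 (Finset.mem_Iio.1 hj').le)
  simp only [h1]
  rw [Finset.sum_congr rfl fun i _ => Finset.sum_union (h2 i), Finset.sum_add_distrib]
  have h3 : ∑ i : Fin n, ∑ j ∈ Finset.Iio i, f i j = ∑ i : Fin n, ∑ j ∈ Finset.Ioi i, f i j := by
    rw [Finset.sum_comm' (s' := fun j : Fin n => Finset.Ioi j) (t' := Finset.univ)]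
    · refine Finset.sum_congr rfl fun j _ => Finset.sum_congr rfl fun i hi => ?_
      exact hf i j (Finset.mem_Ioi.1 hi).ne'
    · intro i j
      simp
  rw [h3, ← Finset.sum_add_distrib]
  refine Finset.sum_congr rfl fun i _ => ?_
  rw [← Finset.sum_add_distrib]

/-- real part of the two-body form on valence tensors. -/
theorem F2_vt {G : K ⊕ Fin m → K ⊕ Fin m → K ⊕ Fin m → K ⊕ Fin m → ℝ}
    (hG : ∀ a b c d, G a b c d = G c d a b)
    {c : (Fin n → (K ⊕ Fin m) × Fin 2) → ℂ} (hc : NoCore c) :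
    (F2 (sp2R G) c).re =
      ip (toR c) (T2 (fun α β γ δ => G (Sum.inr α) (Sum.inr β) (Sum.inr γ) (Sum.inr δ)) (toR c)) +
      ip (toI c) (T2 (fun α β γ δ => G (Sum.inr α) (Sum.inr β) (Sum.inr γ) (Sum.inr δ))
        (toI c)) := by
  unfold F2
  rw [sum_vt _ fun J i k h => by rw [hc.zero h, map_zero, zero_mul]]
  unfold ip
  simp only [← Finset.sum_add_distrib, Complex.re_sum]
  refine Finset.sum_congr rfl fun a _ => Finset.sum_congr rfl fun s _ => ?_
  have h1 : ∑ i, ∑ j ∈ Finset.Ioi i, ∑ b, ∑ d, sp2R G (vt K a s i) b (vt K a s j) d *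
      c (Function.update (Function.update (vt K a s) i b) j d) =
      ∑ i, ∑ j ∈ Finset.Ioi i, ∑ β : Fin m, ∑ δ : Fin m,
        (G (Sum.inr (a i)) (Sum.inr β) (Sum.inr (a j)) (Sum.inr δ) : ℂ) *
        c (vt K (Function.update (Function.update a i β) j δ) s) :=
    Finset.sum_congr rfl fun i _ => Finset.sum_congr rfl fun j hj =>
      op2_vt G hc a s (Finset.mem_Ioi.1 hj).ne
  rw [h1, re_conj_mul]
  have h2 : ∀ ψ : MSt n m, T2 (fun α β γ δ => G (Sum.inr α) (Sum.inr β) (Sum.inr γ) (Sum.inr δ))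
      ψ a s = ∑ i, ∑ j ∈ Finset.Ioi i, ∑ β : Fin m, ∑ δ : Fin m,
        G (Sum.inr (a i)) (Sum.inr β) (Sum.inr (a j)) (Sum.inr δ) *
        ψ (Function.update (Function.update a i β) j δ) s := by
    intro ψ
    unfold T2
    rw [sum_erase_Ioi (f := fun i j => ∑ β : Fin m, ∑ δ : Fin m,
        G (Sum.inr (a i)) (Sum.inr β) (Sum.inr (a j)) (Sum.inr δ) *
        ψ (Function.update (Function.update a i β) j δ) s)]
    · simp only [← two_mul, ← Finset.mul_sum]
      ring
    · intro i j hij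
      rw [Finset.sum_comm]
      refine Finset.sum_congr rfl fun δ _ => Finset.sum_congr rfl fun β _ => ?_
      rw [hG, Function.update_comm hij]
  rw [h2, h2]
  unfold toR toI
  simp only [Complex.re_sum, Complex.im_sum, Complex.re_ofReal_mul, Complex.im_ofReal_mul]

/-! ### from real valence tensors to complex ones -/

/-- extension of a real valence tensor by zero -/
def ofM (K : Type) (ψ : MSt n m) : (Fin n → (K ⊕ Fin m) × Fin 2) → ℂ := by
  classical
  exact fun J => if h : ∃ p : (Fin n → Fin m) × (Fin n → Bool), J = vt K p.1 p.2 then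
    ((ψ h.choose.1 h.choose.2 : ℝ) : ℂ) else 0

theorem ofM_vt (ψ : MSt n m) (a : Fin n → Fin m) (s : Fin n → Bool) :
    ofM K ψ (vt K a s) = ((ψ a s : ℝ) : ℂ) := by
  have h : ∃ p : (Fin n → Fin m) × (Fin n → Bool), vt K a s = vt K p.1 p.2 := ⟨(a, s), rfl⟩
  unfold ofM
  rw [dif_pos h]
  obtain ⟨h1, h2⟩ := vt_inj h.choose_spec
  rw [← h1, ← h2]

theorem ofM_zero (ψ : MSt n m) {J : Fin n → (K ⊕ Fin m) × Fin 2} {i : Fin n} {k : K}
    (h : (J i).1 = Sum.inl k) : ofM K ψ J = 0 := by
  unfold ofM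
  rw [dif_neg]
  rintro ⟨p, rfl⟩
  exact absurd h (by simp [vt])

theorem ofM_noCore (ψ : MSt n m) : NoCore (ofM K ψ) := by
  intro k t J hJ i hi
  apply hJ
  exact ofM_zero ψ (i := i) (k := k) (by rw [hi])

theorem ofM_anti {ψ : MSt n m} (hψ : Vale.Agent.P370.H600.Anti ψ) : Anti (ofM K ψ) := by
  intro σ J
  by_cases h : ∃ i k, (J i).1 = Sum.inl k
  · obtain ⟨i, k, h⟩ := h
    rw [ofM_zero ψ h, mul_zero]
    exact ofM_zero ψ (i := σ.symm i) (k := k) (by simpa using h)
  · push Not at h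
    obtain ⟨a, s, rfl⟩ := exists_vt J h
    rw [← vt_comp, ofM_vt, ofM_vt, hψ σ a s]
    push_cast
    rfl

theorem toR_ofM (ψ : MSt n m) : toR (ofM K ψ) = ψ := by
  funext a s
  unfold toR
  rw [ofM_vt, Complex.ofReal_re]

theorem toI_ofM (ψ : MSt n m) : toI (ofM K ψ) = 0 := by
  funext a s
  unfold toI
  rw [ofM_vt, Complex.ofReal_im]
  rfl

end

end Vale.Agent.P370.H405.C3
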