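import Vale.Agent.P370.H405.Ric
import Mathlib.Analysis.Complex.ExponentialBounds

/-!
Problem P370, block A1, part 2: the smooth profile `eta t = exp (1 - 1/(1-t))` and the regularised
radial vector field.
-/

namespace Vale.Agent.P370.H405

open MeasureTheory Filter Topology
open Vale.Agent.P363.R.Sob
open Vale.Agent.P363.Stmt (R3)
open scoped ContDiff ENNReal

set_option linter.unusedSectionVars false

noncomputable section

/-! ### the profile -/

/-- the profile -/
def eta (t : ℝ) : ℝ := Real.exp 1 * expNegInvGlue (1 - t)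

/-- derivative of the profile -/
def eta' (t : ℝ) : ℝ := -(Real.exp 1 * (((1 - t)⁻¹) ^ 2 * expNegInvGlue (1 - t)))

theorem glue_deriv (t : ℝ) : HasDerivAt expNegInvGlue ((t⁻¹) ^ 2 * expNegInvGlue t) t := by
  have := expNegInvGlue.hasDerivAt_polynomial_eval_inv_mul 1 t
  simpa using this

theorem eta_contDiff : ContDiff ℝ ∞ eta :=
  contDiff_const.mul (expNegInvGlue.contDiff.comp (contDiff_const.sub contDiff_id))

theorem eta_deriv (t : ℝ) : HasDerivAt eta (eta' t) t := by
  have h1 : HasDerivAt (fun t : ℝ => 1 - t) (-1) t := by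
    simpa using (hasDerivAt_id t).const_sub 1
  have h2 := ((glue_deriv (1 - t)).comp t h1).const_mul (Real.exp 1)
  refine h2.congr_deriv ?_
  unfold eta'
  ring

theorem eta_nonneg (t : ℝ) : 0 ≤ eta t := mul_nonneg (Real.exp_pos _).le (expNegInvGlue.nonneg _)

theorem eta_zero {t : ℝ} (ht : 1 ≤ t) : eta t = 0 := by
  unfold eta
  rw [expNegInvGlue.zero_of_nonpos (by linarith), mul_zero]

theorem eta'_zero {t : ℝ} (ht : 1 ≤ t) : eta' t = 0 := by
  unfold eta'
  rw [expNegInvGlue.zero_of_nonpos (by linarith)]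
  ring

theorem eta_eq {t : ℝ} (ht : t < 1) : eta t = Real.exp (1 - (1 - t)⁻¹) := by
  unfold eta
  rw [expNegInvGlue, if_neg (by linarith), ← Real.exp_add]
  ring_nf

theorem eta_le {t : ℝ} (h0 : 0 ≤ t) (ht : t < 1) : eta t ≤ 1 - t := by
  have h1 : 0 < 1 - t := by linarith
  rw [eta_eq ht]
  have h2 : 1 - (1 - t)⁻¹ = -(t / (1 - t)) := by
    field_simp
    ring
  rw [h2, Real.exp_neg]
  have h3 : 1 + t / (1 - t) ≤ Real.exp (t / (1 - t)) := by
    have := Real.add_one_le_exp (t / (1 - t))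
    linarith
  have h4 : 1 + t / (1 - t) = (1 - t)⁻¹ := by
    field_simp
    ring
  rw [h4] at h3
  exact inv_le_of_inv_le₀ h1 h3

theorem eta_le_one {t : ℝ} (h0 : 0 ≤ t) : eta t ≤ 1 := by
  rcases lt_or_ge t 1 with h | h
  · exact (eta_le h0 h).trans (by linarith)
  · rw [eta_zero h]; norm_num

theorem one_sub_eta_le {t : ℝ} (h0 : 0 ≤ t) : 1 - eta t ≤ 2 * t := by
  rcases lt_or_ge t (1 / 2) with h | h
  · have h1 : 0 < 1 - t := by linarith
    rw [eta_eq (by linarith)]
    have h2 : 1 - (1 - t)⁻¹ = -(t / (1 - t)) := by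
      field_simp
      ring
    have h3 := Real.add_one_le_exp (1 - (1 - t)⁻¹)
    have h4 : t / (1 - t) ≤ 2 * t := by
      rw [div_le_iff₀ h1]
      nlinarith
    linarith
  · have := eta_nonneg t
    linarith

theorem eta_sq_le {t : ℝ} (h0 : 0 ≤ t) (ht : t < 1) : eta t ^ 2 ≤ 1 - t := by
  have h1 := eta_le h0 ht
  have h2 := eta_nonneg t
  nlinarith

theorem eta'_nonpos (t : ℝ) : eta' t ≤ 0 := by
  unfold eta'
  have := expNegInvGlue.nonneg (1 - t)
  have := Real.exp_pos 1
  have : 0 ≤ Real.exp 1 * (((1 - t)⁻¹) ^ 2 * expNegInvGlue (1 - t)) := by positivity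
  linarith

theorem neg_two_le_eta' {t : ℝ} (h0 : 0 ≤ t) : -2 ≤ eta' t := by
  rcases lt_or_ge t 1 with h | h
  · have h1 : 0 < 1 - t := by linarith
    have h2 : eta' t = -(((1 - t)⁻¹) ^ 2 * eta t) := by
      unfold eta' eta; ring
    have h3 : 1 ≤ (1 - t)⁻¹ := by
      rw [one_le_inv₀ h1]; linarith
    set u := (1 - t)⁻¹ with hu
    have h4 : 1 + (u - 1) + (u - 1) ^ 2 / 2 ≤ Real.exp (u - 1) :=
      Real.quadratic_le_exp_of_nonneg (by linarith)
    have h5 : u ^ 2 / 2 ≤ Real.exp (u - 1) := by nlinarith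
    have h6 : Real.exp (1 - u) * Real.exp (u - 1) = 1 := by
      rw [← Real.exp_add]; simp
    have h7 : u ^ 2 * Real.exp (1 - u) ≤ 2 := by
      have h8 := mul_le_mul_of_nonneg_left h5 (Real.exp_pos (1 - u)).le
      rw [h6] at h8
      linarith
    rw [h2, eta_eq h]
    linarith
  · rw [eta'_zero h]; norm_num

end

end Vale.Agent.P370.H405
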