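import Vale.Agent.P370.H405.Eta

/-!
Problem P370, block A1, part 3: the regularised radial vector field around one proton.
-/

namespace Vale.Agent.P370.H405

open MeasureTheory Filter Topology
open Vale.Agent.P363.R.Sob
open Vale.Agent.P363.Stmt (R3)
open scoped ContDiff ENNReal

set_option linter.unusedSectionVars false

noncomputable section

variable {E : Type*} [NormedAddCommGroup E] [NormedSpace ℝ E] [FiniteDimensional ℝ E]
  [MeasurableSpace E] [BorelSpace E]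

/-- the regularised radial field around the point `a`, cut off at the distance `2 ρ`. -/
def fV (p : E →L[ℝ] R3) (a : R3) (ρ ε : ℝ) (k : Fin 3) (x : E) : ℝ :=
  eta (‖p x - a‖ ^ 2 / (4 * ρ ^ 2)) * ((p x - a) k / Real.sqrt (‖p x - a‖ ^ 2 + ε))

theorem fV_contDiff (p : E →L[ℝ] R3) (a : R3) (ρ : ℝ) {ε : ℝ} (hε : 0 < ε) (k : Fin 3) :
    ContDiff ℝ ∞ (fV p a ρ ε k) := by
  unfold fV
  have h1 : ContDiff ℝ ∞ (fun x : E => p x - a) := p.contDiff.sub contDiff_const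
  have h2 : ContDiff ℝ ∞ (fun x : E => (p x - a) k) :=
    (EuclideanSpace.proj k : R3 →L[ℝ] ℝ).contDiff.comp h1
  have h3 : ContDiff ℝ ∞ (fun x : E => ‖p x - a‖ ^ 2) := h1.norm_sq ℝ
  refine (eta_contDiff.comp (h3.div_const _)).mul (h2.div ((h3.add contDiff_const).sqrt ?_) ?_)
  · intro x; positivity
  · intro x; positivity

theorem fV_fderiv (p : E →L[ℝ] R3) (a : R3) {ρ ε : ℝ} (hρ : 0 < ρ) (hε : 0 < ε) (k : Fin 3) (b : E)
    (hb : p b = EuclideanSpace.single k 1) (x : E) :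
    fderiv ℝ (fV p a ρ ε k) x b =
      eta' (‖p x - a‖ ^ 2 / (4 * ρ ^ 2)) * (((p x - a) k) ^ 2 /
        (2 * ρ ^ 2 * Real.sqrt (‖p x - a‖ ^ 2 + ε))) +
      eta (‖p x - a‖ ^ 2 / (4 * ρ ^ 2)) * (1 / Real.sqrt (‖p x - a‖ ^ 2 + ε) -
        ((p x - a) k) ^ 2 / Real.sqrt (‖p x - a‖ ^ 2 + ε) ^ 3) := by
  have hpos : 0 < ‖p x - a‖ ^ 2 + ε := by positivity
  have hs : 0 < Real.sqrt (‖p x - a‖ ^ 2 + ε) := Real.sqrt_pos.2 hpos
  have hd : HasDerivAt (fun t : ℝ => fV p a ρ ε k (x + t • b))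
      (eta' (‖p x - a‖ ^ 2 / (4 * ρ ^ 2)) * (((p x - a) k) ^ 2 /
        (2 * ρ ^ 2 * Real.sqrt (‖p x - a‖ ^ 2 + ε))) +
      eta (‖p x - a‖ ^ 2 / (4 * ρ ^ 2)) * (1 / Real.sqrt (‖p x - a‖ ^ 2 + ε) -
        ((p x - a) k) ^ 2 / Real.sqrt (‖p x - a‖ ^ 2 + ε) ^ 3)) 0 := by
    have hc : ∀ t : ℝ, p (x + t • b) - a = (p x - a) + t • EuclideanSpace.single k (1 : ℝ) := by
      intro t; rw [map_add, map_smul, hb]; abel
    have hk : ∀ t : ℝ, (p (x + t • b) - a) k = (p x - a) k + t := by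
      intro t; rw [hc]; simp
    have hn : ∀ t : ℝ, ‖p (x + t • b) - a‖ ^ 2 = ‖p x - a‖ ^ 2 + 2 * t * (p x - a) k + t ^ 2 := by
      intro t
      rw [hc, @norm_add_sq_real, norm_smul, inner_smul_right]
      have : inner ℝ (p x - a) (EuclideanSpace.single k (1 : ℝ)) = (p x - a) k := by
        rw [EuclideanSpace.inner_single_right]; simp
      rw [this]
      have h1 : ‖(EuclideanSpace.single k (1 : ℝ) : R3)‖ = 1 := by simp
      rw [h1, mul_one, Real.norm_eq_abs, sq_abs]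
      ring
    have e : (fun t : ℝ => fV p a ρ ε k (x + t • b)) = fun t =>
        eta ((‖p x - a‖ ^ 2 + 2 * t * (p x - a) k + t ^ 2) / (4 * ρ ^ 2)) *
        (((p x - a) k + t) / Real.sqrt (‖p x - a‖ ^ 2 + 2 * t * (p x - a) k + t ^ 2 + ε)) := by
      funext t; unfold fV; rw [hk, hn]
    rw [e]
    set y := (p x - a) k with hy
    set m := ‖p x - a‖ ^ 2 with hm
    have h1 : HasDerivAt (fun t : ℝ => y + t) 1 0 := by
      simpa using (hasDerivAt_id (0 : ℝ)).const_add y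
    have h3 : HasDerivAt (fun t : ℝ => 2 * t * y) (2 * y) 0 := by
      simpa using ((hasDerivAt_id (0 : ℝ)).const_mul 2).mul_const y
    have h4 : HasDerivAt (fun t : ℝ => t ^ 2) 0 0 := by
      simpa using (hasDerivAt_pow 2 (0 : ℝ))
    have h2 : HasDerivAt (fun t : ℝ => m + 2 * t * y + t ^ 2) (2 * y) 0 :=
      ((h3.const_add m).fun_add h4).congr_deriv (by ring)
    have h5 : HasDerivAt (fun t : ℝ => eta ((m + 2 * t * y + t ^ 2) / (4 * ρ ^ 2)))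
        (eta' (m / (4 * ρ ^ 2)) * (2 * y / (4 * ρ ^ 2))) 0 := by
      have h6 := h2.div_const (4 * ρ ^ 2)
      have h7 : HasDerivAt eta (eta' (m / (4 * ρ ^ 2)))
          ((m + 2 * 0 * y + 0 ^ 2) / (4 * ρ ^ 2)) := by
        have h8 := eta_deriv ((m + 2 * 0 * y + 0 ^ 2) / (4 * ρ ^ 2))
        have h9 : (m + 2 * 0 * y + 0 ^ 2) / (4 * ρ ^ 2) = m / (4 * ρ ^ 2) := by ring
        rw [h9] at h8 ⊢
        exact h8
      exact HasDerivAt.comp (h₂ := eta) (0 : ℝ) h7 h6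
    have h10 : HasDerivAt (fun t : ℝ => Real.sqrt (m + 2 * t * y + t ^ 2 + ε))
        (2 * y / (2 * Real.sqrt (m + ε))) 0 := by
      have h11 := (h2.add_const ε).sqrt (by simpa using hpos.ne')
      have h12 : m + 2 * 0 * y + 0 ^ 2 + ε = m + ε := by ring
      rw [h12] at h11
      exact h11
    have h13 := h5.fun_mul (h1.fun_div h10 (by
      have h12 : m + 2 * 0 * y + 0 ^ 2 + ε = m + ε := by ring
      rw [h12]; exact hs.ne'))
    refine h13.congr_deriv ?_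
    have h12 : m + 2 * 0 * y + 0 ^ 2 + ε = m + ε := by ring
    have h14 : (m + 2 * 0 * y + 0 ^ 2) / (4 * ρ ^ 2) = m / (4 * ρ ^ 2) := by ring
    rw [h12, h14]
    have hs' := hs.ne'
    field_simp
    ring
  have hf : HasFDerivAt (fV p a ρ ε k) (fderiv ℝ (fV p a ρ ε k) x) x :=
    ((fV_contDiff p a ρ hε k).differentiable (by simp) x).hasFDerivAt
  have h6 := (hf.hasLineDerivAt b)
  exact HasDerivAt.unique h6 hd

theorem coord_sq_le (y : R3) (k : Fin 3) : (y k) ^ 2 ≤ ‖y‖ ^ 2 := by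
  have h := PiLp.norm_apply_le y k
  rw [Real.norm_eq_abs] at h
  rw [← sq_abs (y k)]
  exact pow_le_pow_left₀ (abs_nonneg _) h 2

theorem norm_sq_sum (y : R3) : ∑ k, (y k) ^ 2 = ‖y‖ ^ 2 := by
  rw [EuclideanSpace.norm_sq_eq]; simp only [Real.norm_eq_abs, sq_abs]

/-- the field vanishes outside the ball of radius `2 ρ`. -/
theorem fV_zero (p : E →L[ℝ] R3) (a : R3) {ρ : ℝ} (ε : ℝ) (hρ : 0 < ρ) (k : Fin 3) {x : E}
    (hx : 2 * ρ ≤ ‖p x - a‖) : fV p a ρ ε k x = 0 := by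
  unfold fV
  rw [eta_zero, zero_mul]
  rw [le_div_iff₀ (by positivity), one_mul]
  nlinarith

theorem fV_abs_le (p : E →L[ℝ] R3) (a : R3) {ρ ε : ℝ} (hρ : 0 < ρ) (hε : 0 < ε) (k : Fin 3)
    (x : E) : |fV p a ρ ε k x| ≤ 1 := by
  have hpos : 0 < ‖p x - a‖ ^ 2 + ε := by positivity
  have hs : 0 < Real.sqrt (‖p x - a‖ ^ 2 + ε) := Real.sqrt_pos.2 hpos
  unfold fV
  rw [abs_mul, abs_of_nonneg (eta_nonneg _), abs_div, abs_of_pos hs]
  have h1 : |(p x - a) k| ≤ Real.sqrt (‖p x - a‖ ^ 2 + ε) := by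
    refine Real.le_sqrt_of_sq_le ?_
    rw [sq_abs]
    have := coord_sq_le (p x - a) k
    linarith
  have h2 : |(p x - a) k| / Real.sqrt (‖p x - a‖ ^ 2 + ε) ≤ 1 := by
    rw [div_le_one hs]; exact h1
  have h3 : eta (‖p x - a‖ ^ 2 / (4 * ρ ^ 2)) ≤ 1 := eta_le_one (by positivity)
  calc eta (‖p x - a‖ ^ 2 / (4 * ρ ^ 2)) * (|(p x - a) k| / Real.sqrt (‖p x - a‖ ^ 2 + ε))
      ≤ 1 * 1 := mul_le_mul h3 h2 (by positivity) zero_le_one
    _ = 1 := one_mul 1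

theorem fV_sq_le (p : E →L[ℝ] R3) (a : R3) {ρ ε : ℝ} (hε : 0 < ε) (x : E) :
    ∑ k, fV p a ρ ε k x ^ 2 ≤ eta (‖p x - a‖ ^ 2 / (4 * ρ ^ 2)) ^ 2 := by
  have hpos : 0 < ‖p x - a‖ ^ 2 + ε := by positivity
  unfold fV
  simp only [mul_pow, div_pow, ← Finset.mul_sum, ← Finset.sum_div, norm_sq_sum]
  rw [Real.sq_sqrt hpos.le]
  have h1 : ‖p x - a‖ ^ 2 / (‖p x - a‖ ^ 2 + ε) ≤ 1 := by
    rw [div_le_one hpos]; linarith
  calc eta (‖p x - a‖ ^ 2 / (4 * ρ ^ 2)) ^ 2 * (‖p x - a‖ ^ 2 / (‖p x - a‖ ^ 2 + ε))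
      ≤ eta (‖p x - a‖ ^ 2 / (4 * ρ ^ 2)) ^ 2 * 1 :=
        mul_le_mul_of_nonneg_left h1 (sq_nonneg _)
    _ = _ := mul_one _

/-- `eta' (r²/(4ρ²)) r²/(2ρ² s)` is at least `-r/ρ²` inside and zero outside the ball. -/
theorem eta'_term {r ρ s : ℝ} (hr : 0 ≤ r) (hρ : 0 < ρ) (hs : 0 < s) (hrs : r ≤ s) :
    -(if r < 2 * ρ then r / ρ ^ 2 else 0) ≤
      eta' (r ^ 2 / (4 * ρ ^ 2)) * (r ^ 2 / (2 * ρ ^ 2 * s)) := by
  split_ifs with h
  · have h1 := neg_two_le_eta' (t := r ^ 2 / (4 * ρ ^ 2)) (by positivity)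
    have h2 : r ^ 2 / (2 * ρ ^ 2 * s) ≤ r / (2 * ρ ^ 2) := by
      rw [div_le_div_iff₀ (by positivity) (by positivity)]
      have : r * r ≤ r * s := mul_le_mul_of_nonneg_left hrs hr
      nlinarith [sq_nonneg ρ]
    have h3 : 0 ≤ r ^ 2 / (2 * ρ ^ 2 * s) := by positivity
    calc -(r / ρ ^ 2) = -2 * (r / (2 * ρ ^ 2)) := by field_simp
      _ ≤ -2 * (r ^ 2 / (2 * ρ ^ 2 * s)) := by linarith
      _ ≤ _ := mul_le_mul_of_nonneg_right h1 h3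
  · have h1 : 1 ≤ r ^ 2 / (4 * ρ ^ 2) := by
      push Not at h
      rw [le_div_iff₀ (by positivity), one_mul]
      nlinarith
    rw [eta'_zero h1]
    simp

theorem fV_div (p : E →L[ℝ] R3) (a : R3) {ρ ε : ℝ} (hρ : 0 < ρ) (hε : 0 < ε) (b : Fin 3 → E)
    (hb : ∀ k, p (b k) = EuclideanSpace.single k 1) (x : E) :
    2 * (eta (‖p x - a‖ ^ 2 / (4 * ρ ^ 2)) / Real.sqrt (‖p x - a‖ ^ 2 + ε)) -
      (if ‖p x - a‖ < 2 * ρ then ‖p x - a‖ / ρ ^ 2 else 0) ≤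
      ∑ k, fderiv ℝ (fV p a ρ ε k) x (b k) := by
  have hpos : 0 < ‖p x - a‖ ^ 2 + ε := by positivity
  have hs : 0 < Real.sqrt (‖p x - a‖ ^ 2 + ε) := Real.sqrt_pos.2 hpos
  have hrs : ‖p x - a‖ ≤ Real.sqrt (‖p x - a‖ ^ 2 + ε) :=
    Real.le_sqrt_of_sq_le (by linarith)
  have hss : Real.sqrt (‖p x - a‖ ^ 2 + ε) ^ 2 = ‖p x - a‖ ^ 2 + ε := Real.sq_sqrt hpos.le
  have e : ∑ k, fderiv ℝ (fV p a ρ ε k) x (b k) =
      eta' (‖p x - a‖ ^ 2 / (4 * ρ ^ 2)) * (‖p x - a‖ ^ 2 /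
        (2 * ρ ^ 2 * Real.sqrt (‖p x - a‖ ^ 2 + ε))) +
      eta (‖p x - a‖ ^ 2 / (4 * ρ ^ 2)) * (3 / Real.sqrt (‖p x - a‖ ^ 2 + ε) -
        ‖p x - a‖ ^ 2 / Real.sqrt (‖p x - a‖ ^ 2 + ε) ^ 3) := by
    rw [Finset.sum_congr rfl fun k _ => fV_fderiv p a hρ hε k (b k) (hb k) x]
    have hs3 : ∑ k, ((p x - a) k) ^ 2 / Real.sqrt (‖p x - a‖ ^ 2 + ε) ^ 3 =
        ‖p x - a‖ ^ 2 / Real.sqrt (‖p x - a‖ ^ 2 + ε) ^ 3 := by
      rw [← Finset.sum_div, norm_sq_sum]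
    rw [Finset.sum_add_distrib, ← Finset.mul_sum, ← Finset.mul_sum, ← Finset.sum_div,
      Finset.sum_sub_distrib, hs3, norm_sq_sum]
    simp only [Finset.sum_const, Finset.card_univ, Fintype.card_fin, nsmul_eq_mul]
    push_cast
    ring
  rw [e]
  generalize hr : ‖p x - a‖ = r at *
  have hr0 : 0 ≤ r := by rw [← hr]; exact norm_nonneg _
  generalize hsd : Real.sqrt (r ^ 2 + ε) = s at *
  have h1 := eta'_term hr0 hρ hs hrs
  have h2 : 2 / s ≤ 3 / s - r ^ 2 / s ^ 3 := by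
    have h3 : r ^ 2 / s ^ 3 ≤ 1 / s := by
      rw [div_le_div_iff₀ (by positivity) hs]
      have : r ^ 2 ≤ s ^ 2 := pow_le_pow_left₀ hr0 hrs 2
      calc r ^ 2 * s ≤ s ^ 2 * s := mul_le_mul_of_nonneg_right this hs.le
        _ = 1 * s ^ 3 := by ring
    have h4 : 3 / s = 2 / s + 1 / s := by ring
    linarith
  have h5 := mul_le_mul_of_nonneg_left h2 (eta_nonneg (r ^ 2 / (4 * ρ ^ 2)))
  have h6 : 2 * (eta (r ^ 2 / (4 * ρ ^ 2)) / s) = eta (r ^ 2 / (4 * ρ ^ 2)) * (2 / s) := by ring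
  rw [h6]
  linarith

theorem fV_fderiv_abs_le (p : E →L[ℝ] R3) (a : R3) {ρ ε : ℝ} (hρ : 0 < ρ) (hε : 0 < ε)
    (b : Fin 3 → E) (hb : ∀ k, p (b k) = EuclideanSpace.single k 1) (k : Fin 3) (x : E) :
    |fderiv ℝ (fV p a ρ ε k) x (b k)| ≤ 2 / ρ + 2 / Real.sqrt ε := by
  have hpos : 0 < ‖p x - a‖ ^ 2 + ε := by positivity
  have hs : 0 < Real.sqrt (‖p x - a‖ ^ 2 + ε) := Real.sqrt_pos.2 hpos
  have hrs : ‖p x - a‖ ≤ Real.sqrt (‖p x - a‖ ^ 2 + ε) :=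
    Real.le_sqrt_of_sq_le (by linarith)
  have hεs : Real.sqrt ε ≤ Real.sqrt (‖p x - a‖ ^ 2 + ε) :=
    Real.sqrt_le_sqrt (by linarith [sq_nonneg ‖p x - a‖])
  have hε0 : 0 < Real.sqrt ε := Real.sqrt_pos.2 hε
  rw [fV_fderiv p a hρ hε k (b k) (hb k) x]
  have hy := coord_sq_le (p x - a) k
  generalize (p x - a) k = y at *
  generalize hr : ‖p x - a‖ = r at *
  have hr0 : 0 ≤ r := by rw [← hr]; exact norm_nonneg _
  generalize hsd : Real.sqrt (r ^ 2 + ε) = s at *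
  refine (abs_add_le _ _).trans (add_le_add ?_ ?_)
  · have h0 := eta'_nonpos (r ^ 2 / (4 * ρ ^ 2))
    have h1 := eta'_term hr0 hρ hs hrs
    have h2 : |eta' (r ^ 2 / (4 * ρ ^ 2)) * (y ^ 2 / (2 * ρ ^ 2 * s))| ≤
        -(eta' (r ^ 2 / (4 * ρ ^ 2)) * (r ^ 2 / (2 * ρ ^ 2 * s))) := by
      rw [abs_mul, abs_of_nonpos h0, abs_of_nonneg (by positivity), ← neg_mul]
      refine mul_le_mul_of_nonneg_left ?_ (by linarith)
      gcongr
    have h3 : (if r < 2 * ρ then r / ρ ^ 2 else 0) ≤ 2 / ρ := by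
      split_ifs with h
      · rw [div_le_div_iff₀ (by positivity) hρ]
        nlinarith
      · positivity
    linarith
  · rw [abs_mul, abs_of_nonneg (eta_nonneg _)]
    have h1 : eta (r ^ 2 / (4 * ρ ^ 2)) ≤ 1 := eta_le_one (by positivity)
    have h2 : |1 / s - y ^ 2 / s ^ 3| ≤ 2 / Real.sqrt ε := by
      have h3 : y ^ 2 / s ^ 3 ≤ 1 / s := by
        rw [div_le_div_iff₀ (by positivity) hs]
        have : r ^ 2 ≤ s ^ 2 := pow_le_pow_left₀ hr0 hrs 2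
        calc y ^ 2 * s ≤ s ^ 2 * s := mul_le_mul_of_nonneg_right (hy.trans this) hs.le
          _ = 1 * s ^ 3 := by ring
      have h4 : 0 ≤ y ^ 2 / s ^ 3 := by positivity
      rw [abs_of_nonneg (by linarith)]
      have h5 : 1 / s ≤ 1 / Real.sqrt ε := by gcongr
      have h6 : 1 / Real.sqrt ε ≤ 2 / Real.sqrt ε := by gcongr; norm_num
      linarith
    calc eta (r ^ 2 / (4 * ρ ^ 2)) * |1 / s - y ^ 2 / s ^ 3| ≤ 1 * (2 / Real.sqrt ε) :=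
          mul_le_mul h1 h2 (abs_nonneg _) zero_le_one
      _ = _ := one_mul _

end

end Vale.Agent.P370.H405
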