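import Vale.Agent.P370.Interface
import Vale.Agent.P363.H849.Orbitals
import Vale.Agent.P363.R.KS.Calc

/-!
Problem P370, block A4, part 1: the cut-off hydrogen ground state.
-/

namespace Vale.Agent.P370.H405

open MeasureTheory Filter Topology
open Vale.Agent.P363.Stmt
open Vale.Agent.P363.R.Sob
open Vale.Agent.P363.R.KS (H1 H1.mul_test H1.const_mul)
open Vale.Agent.P363.R.Top (orb orbE)
open Vale.Agent.P363.H849 (chi chi_contDiff chi_hasCompactSupport chi_one chi_zero chi_nonneg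
  chi_le_one orbG orb_eigen_real orb_memLp orbG_memLp orb_isWD orb_orthonormal e3)
open scoped ContDiff ENNReal

noncomputable section

/-- the scaled cut-off function -/
def cut (ρ : ℝ) (x : R3) : ℝ := chi (ρ⁻¹ • x)

theorem cut_test {ρ : ℝ} (hρ : 0 < ρ) : Test (cut ρ) := by
  refine ⟨chi_contDiff.comp (contDiff_const_smul _), ?_⟩
  exact chi_hasCompactSupport.comp_homeomorph
    (Homeomorph.smulOfNeZero ρ⁻¹ (by positivity) : R3 ≃ₜ R3)

theorem cut_one {ρ : ℝ} (hρ : 1 ≤ ρ) {x : R3} (hx : ‖x‖ ≤ 1) : cut ρ x = 1 := by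
  refine chi_one ?_
  rw [norm_smul, Real.norm_of_nonneg (by positivity)]
  have h1 : ρ⁻¹ ≤ 1 := inv_le_one_of_one_le₀ hρ
  have h2 : 0 ≤ ρ⁻¹ := by positivity
  nlinarith [norm_nonneg x]

theorem cut_zero {ρ : ℝ} (hρ : 0 < ρ) {x : R3} (hx : 2 * ρ ≤ ‖x‖) : cut ρ x = 0 := by
  refine chi_zero ?_
  rw [norm_smul, Real.norm_of_nonneg (by positivity), inv_mul_eq_div, le_div_iff₀ hρ]
  exact hx

theorem cut_nonneg (ρ : ℝ) (x : R3) : 0 ≤ cut ρ x := chi_nonneg _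

theorem cut_fderiv : ∃ C : ℝ, 0 ≤ C ∧ ∀ ρ : ℝ, 0 < ρ → ∀ (x : R3) (k : Fin 3),
    |fderiv ℝ (cut ρ) x (EuclideanSpace.single k (1 : ℝ))| ≤ C / ρ := by
  have hc : Continuous (fun y : R3 => fderiv ℝ chi y) :=
    chi_contDiff.continuous_fderiv (by simp)
  have hs : HasCompactSupport (fun y : R3 => fderiv ℝ chi y) :=
    chi_hasCompactSupport.fderiv (𝕜 := ℝ)
  obtain ⟨C, hC⟩ := hs.exists_bound_of_continuous hc
  refine ⟨C, (norm_nonneg _).trans (hC 0), fun ρ hρ x k => ?_⟩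
  have h1 : HasFDerivAt (cut ρ)
      ((fderiv ℝ chi (ρ⁻¹ • x)).comp (ρ⁻¹ • ContinuousLinearMap.id ℝ R3)) x := by
    have ha : HasFDerivAt chi (fderiv ℝ chi (ρ⁻¹ • x)) (ρ⁻¹ • x) :=
      (chi_contDiff.differentiable (by simp) _).hasFDerivAt
    have hb : HasFDerivAt (fun y : R3 => ρ⁻¹ • y) (ρ⁻¹ • ContinuousLinearMap.id ℝ R3) x :=
      (hasFDerivAt_id x).const_smul ρ⁻¹
    exact HasFDerivAt.comp x ha hb
  rw [h1.fderiv]
  have h2 : ((fderiv ℝ chi (ρ⁻¹ • x)).comp (ρ⁻¹ • ContinuousLinearMap.id ℝ R3))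
      (EuclideanSpace.single k (1 : ℝ))
      = ρ⁻¹ * fderiv ℝ chi (ρ⁻¹ • x) (EuclideanSpace.single k (1 : ℝ)) := by simp
  rw [h2, abs_mul, abs_of_pos (by positivity : 0 < ρ⁻¹), inv_mul_eq_div]
  have h3 : |fderiv ℝ chi (ρ⁻¹ • x) (EuclideanSpace.single k (1 : ℝ))| ≤ C := by
    have := ContinuousLinearMap.le_opNorm (fderiv ℝ chi (ρ⁻¹ • x))
      (EuclideanSpace.single k (1 : ℝ) : R3)
    rw [PiLp.norm_single, norm_one, mul_one] at this
    exact this.trans (hC _)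
  gcongr

theorem orb_H1 : H1 (orb 0) (orbG 0) := ⟨orb_memLp 0, orbG_memLp 0, orb_isWD 0⟩

/-- lower bound for the norm of the cut-off ground state. -/
theorem mass_pos : ∃ m : ℝ, 0 < m ∧ ∀ ρ : ℝ, 1 ≤ ρ → m ≤ ∫ x, (cut ρ x * orb 0 x) ^ 2 := by
  have hint : Integrable (fun x : R3 => orb 0 x ^ 2) := (orb_memLp 0).integrable_sq
  set B : Set R3 := Metric.closedBall 0 1 with hB
  have hBm : MeasurableSet B := Metric.isClosed_closedBall.measurableSet
  have hpos : ∀ x : R3, 0 < orb 0 x ^ 2 := by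
    intro x
    have : 0 < orb 0 x := by
      show 0 < Real.exp (-‖x‖) / Real.sqrt Real.pi
      positivity
    positivity
  refine ⟨∫ x in B, orb 0 x ^ 2, ?_, fun ρ hρ => ?_⟩
  · rw [setIntegral_pos_iff_support_of_nonneg_ae]
    · have h1 : Function.support (fun x : R3 => orb 0 x ^ 2) ∩ B = B := by
        rw [Set.inter_eq_right]
        intro x _
        exact (hpos x).ne'
      rw [h1]
      exact Metric.measure_closedBall_pos _ _ one_pos
    · exact Eventually.of_forall fun x => (hpos x).le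
    · exact hint.integrableOn
  · have hc := (orb_H1.mul_test (cut_test (ρ := ρ) (by linarith))).mem.integrable_sq
    calc ∫ x in B, orb 0 x ^ 2 = ∫ x in B, (cut ρ x * orb 0 x) ^ 2 := by
          refine setIntegral_congr_fun hBm fun x hx => ?_
          have : ‖x‖ ≤ 1 := by simpa [hB] using hx
          simp only [cut_one hρ this, one_mul]
      _ ≤ ∫ x, (cut ρ x * orb 0 x) ^ 2 :=
          setIntegral_le_integral hc (Eventually.of_forall fun x => sq_nonneg _)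

/-- **The cut-off hydrogen ground state**: normalised, supported in the ball of radius `2 ρ`, with
energy at most `-1/2 + C/ρ²`. -/
theorem trial : ∃ C : ℝ, 0 < C ∧ ∀ ρ : ℝ, 1 ≤ ρ → ∃ (φ : R3 → ℝ) (g : Fin 3 → R3 → ℝ),
    H1 φ g ∧ (∀ x, 2 * ρ ≤ ‖x‖ → φ x = 0) ∧ ∫ x, φ x ^ 2 = 1 ∧
    (1 / 2) * (∑ k, ∫ x, g k x ^ 2) - ∫ x, φ x ^ 2 / ‖x‖ ≤ -(1 / 2) + C / ρ ^ 2 := by
  obtain ⟨D, hD0, hD⟩ := cut_fderiv
  obtain ⟨m, hm, hmass⟩ := mass_pos
  refine ⟨3 / 2 * D ^ 2 / m + 1, by positivity, fun ρ hρ => ?_⟩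
  have hρ0 : 0 < ρ := by linarith
  set χ := cut ρ with hχdef
  have hχ : Test χ := cut_test hρ0
  have hχ2 : Test (fun x => χ x ^ 2) := by
    have := hχ.mul hχ.contDiff
    simpa only [sq] using this
  have hfd : ∀ x (i : Fin 3), fderiv ℝ (fun x => χ x ^ 2) x (EuclideanSpace.single i (1 : ℝ)) =
      2 * χ x * fderiv ℝ χ x (EuclideanSpace.single i (1 : ℝ)) := by
    intro x i
    have h1 : HasFDerivAt χ (fderiv ℝ χ x) x := (hχ.differentiable x).hasFDerivAt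
    have h2 := h1.pow 2
    rw [h2.fderiv]
    simp
  have hG := orb_H1.mul_test hχ
  have hh := orb_H1.mul_test hχ2
  have key := orb_eigen_real hh.mem hh.gmem hh.wd 0
  set M := ∫ x, (χ x * orb 0 x) ^ 2 with hM
  have hMm : m ≤ M := hmass ρ hρ
  have hM0 : 0 < M := by linarith
  -- the energy of `χ f`
  set G : Fin 3 → R3 → ℝ := fun i x =>
    fderiv ℝ χ x (EuclideanSpace.single i (1 : ℝ)) * orb 0 x + χ x * orbG 0 i x with hGdef
  have hkin : ∑ k, ∫ x, G k x ^ 2 = (∑ k, ∫ x, orbG 0 k x *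
      (fderiv ℝ (fun x => χ x ^ 2) x (EuclideanSpace.single k (1 : ℝ)) * orb 0 x +
        χ x ^ 2 * orbG 0 k x)) +
      ∑ k, ∫ x, (fderiv ℝ χ x (EuclideanSpace.single k (1 : ℝ)) * orb 0 x) ^ 2 := by
    rw [← Finset.sum_add_distrib]
    refine Finset.sum_congr rfl fun k _ => ?_
    have i1 : Integrable (fun x : R3 => orbG 0 k x *
        (fderiv ℝ (fun x => χ x ^ 2) x (EuclideanSpace.single k (1 : ℝ)) * orb 0 x +
        χ x ^ 2 * orbG 0 k x)) := (orbG_memLp 0 k).integrable_mul (hh.gmem k)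
    have i2 : Integrable (fun x : R3 =>
        (fderiv ℝ χ x (EuclideanSpace.single k (1 : ℝ)) * orb 0 x) ^ 2) :=
      (orb_H1.mul_test (hχ.fderiv _)).mem.integrable_sq
    refine Eq.trans ?_ (integral_add i1 i2)
    congr 1; funext x
    simp only [hGdef, hfd]
    ring
  have hgrad : ∀ k : Fin 3,
      ∫ x, (fderiv ℝ χ x (EuclideanSpace.single k (1 : ℝ)) * orb 0 x) ^ 2 ≤ (D / ρ) ^ 2 := by
    intro k
    have h1 : ∫ x : R3, (D / ρ) ^ 2 * orb 0 x ^ 2 = (D / ρ) ^ 2 := by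
      rw [integral_const_mul]
      have := orb_orthonormal 0 0
      simp only [if_true, ← sq] at this
      rw [this, mul_one]
    rw [← h1]
    refine integral_mono (orb_H1.mul_test (hχ.fderiv _)).mem.integrable_sq
      ((orb_memLp 0).integrable_sq.const_mul _) fun x => ?_
    simp only
    rw [mul_pow]
    refine mul_le_mul_of_nonneg_right ?_ (sq_nonneg _)
    rw [← sq_abs]
    exact pow_le_pow_left₀ (abs_nonneg _) (hD ρ hρ0 x k) 2
  have hpot : ∫ x, orb 0 x * (χ x ^ 2 * orb 0 x) / ‖x‖ = ∫ x, (χ x * orb 0 x) ^ 2 / ‖x‖ := by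
    congr 1; funext x; ring
  have hnorm : ∫ x, orb 0 x * (χ x ^ 2 * orb 0 x) = M := by
    rw [hM]; congr 1; funext x; ring
  have hE0 : orbE 0 = -(1 / 2) := by norm_num [orbE]
  rw [hpot, hnorm, hE0] at key
  have hsum : ∑ k, ∫ x, (fderiv ℝ χ x (EuclideanSpace.single k (1 : ℝ)) * orb 0 x) ^ 2 ≤
      3 * (D / ρ) ^ 2 := by
    refine (Finset.sum_le_sum fun k _ => hgrad k).trans (le_of_eq ?_)
    simp
  have hE : (1 / 2) * (∑ k, ∫ x, G k x ^ 2) - ∫ x, (χ x * orb 0 x) ^ 2 / ‖x‖ ≤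
      -(1 / 2) * M + 3 / 2 * (D / ρ) ^ 2 := by
    rw [hkin]
    have key' : (1 / 2) * (∑ k, ∫ x, orbG 0 k x *
      (fderiv ℝ (fun x => χ x ^ 2) x (EuclideanSpace.single k (1 : ℝ)) * orb 0 x +
        χ x ^ 2 * orbG 0 k x)) - ∫ x, (χ x * orb 0 x) ^ 2 / ‖x‖ = -(1 / 2) * M := key
    linarith
  -- normalise
  set c : ℝ := (Real.sqrt M)⁻¹ with hc
  have hc2 : c ^ 2 = M⁻¹ := by rw [hc, inv_pow, Real.sq_sqrt hM0.le]
  refine ⟨fun x => c * (χ x * orb 0 x), fun i x => c * G i x, hG.const_mul c, ?_, ?_, ?_⟩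
  · intro x hx
    simp only [hχdef, cut_zero hρ0 hx]
    ring
  · have e : ∀ x, (c * (χ x * orb 0 x)) ^ 2 = c ^ 2 * (χ x * orb 0 x) ^ 2 := fun x => by ring
    simp only [e]
    rw [integral_const_mul, hc2, ← hM, inv_mul_cancel₀ hM0.ne']
  · have e1 : ∀ k, ∫ x, (c * G k x) ^ 2 = c ^ 2 * ∫ x, G k x ^ 2 := by
      intro k
      rw [← integral_const_mul]
      congr 1; funext x; ring
    have e2 : ∫ x, (c * (χ x * orb 0 x)) ^ 2 / ‖x‖ = c ^ 2 * ∫ x, (χ x * orb 0 x) ^ 2 / ‖x‖ := by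
      rw [← integral_const_mul]
      congr 1; funext x; ring
    simp only [e1, e2, ← Finset.mul_sum]
    have h1 : 1 / 2 * (c ^ 2 * ∑ k, ∫ x, G k x ^ 2) - c ^ 2 * ∫ x, (χ x * orb 0 x) ^ 2 / ‖x‖ =
        c ^ 2 * ((1 / 2) * (∑ k, ∫ x, G k x ^ 2) - ∫ x, (χ x * orb 0 x) ^ 2 / ‖x‖) := by ring
    rw [h1]
    calc c ^ 2 * ((1 / 2) * (∑ k, ∫ x, G k x ^ 2) - ∫ x, (χ x * orb 0 x) ^ 2 / ‖x‖)
        ≤ c ^ 2 * (-(1 / 2) * M + 3 / 2 * (D / ρ) ^ 2) :=
          mul_le_mul_of_nonneg_left hE (sq_nonneg _)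
      _ = -(1 / 2) + 3 / 2 * D ^ 2 / M / ρ ^ 2 := by
          rw [hc2]; field_simp
      _ ≤ -(1 / 2) + (3 / 2 * D ^ 2 / m + 1) / ρ ^ 2 := by
          have h2 : 3 / 2 * D ^ 2 / M ≤ 3 / 2 * D ^ 2 / m := by gcongr
          gcongr
          linarith

end

end Vale.Agent.P370.H405
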