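import Vale.Agent.P363.R.Sob.S06
import Vale.Agent.P363.R.Sob.S16

/-!
Problem P370, block A1, part 1: the Riccati inequality
`∫ (div V - |V|²) |f|² ≤ ∫ |∇f|²` for bounded smooth vector fields `V`.
-/

namespace Vale.Agent.P370.H405

open MeasureTheory Filter Topology
open Vale.Agent.P363.R.Sob
open scoped ContDiff ENNReal

set_option linter.unusedSectionVars false

noncomputable section

variable {E : Type*} [NormedAddCommGroup E] [NormedSpace ℝ E] [FiniteDimensional ℝ E]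
  [MeasurableSpace E] [BorelSpace E]
variable {F : Type*} [NormedAddCommGroup F] [InnerProductSpace ℝ F] [CompleteSpace F]
variable {μ : Measure E} [μ.IsAddHaarMeasure] {v : E}

/-- the real inner product as a continuous bilinear map -/
def inB : F →L[ℝ] F →L[ℝ] ℝ :=
  (isBoundedBilinearMap_inner (𝕜 := ℝ) (E := F)).toContinuousLinearMap

theorem inB_apply (x y : F) : (inB : F →L[ℝ] F →L[ℝ] ℝ) x y = inner ℝ x y := rfl

theorem memLp_bdd_smul {f : E → F} (hf : MemLp f 2 μ) {V : E → ℝ} (hV : Continuous V) {C : ℝ}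
    (hC : ∀ x, |V x| ≤ C) : MemLp (fun x => V x • f x) 2 μ :=
  hf.of_le_mul (c := C) (hV.aestronglyMeasurable.smul hf.1) (Eventually.of_forall fun x => by
    rw [norm_smul]; exact mul_le_mul_of_nonneg_right (hC x) (norm_nonneg _))

/-- one component of the Riccati inequality. -/
theorem riccati_one {f g : E → F} (hf : MemLp f 2 μ) (hg : MemLp g 2 μ) (h : IsWD μ v f g)
    {V : E → ℝ} (hV : ContDiff ℝ ∞ V) {C : ℝ} (hC : ∀ x, |V x| ≤ C)
    (hC' : ∀ x, |fderiv ℝ V x v| ≤ C) :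
    ∫ x, (fderiv ℝ V x v - V x ^ 2) * ‖f x‖ ^ 2 ∂μ ≤ ∫ x, ‖g x‖ ^ 2 ∂μ := by
  have hVc : Continuous (fun x => fderiv ℝ V x v) :=
    (hV.continuous_fderiv (by simp)).clm_apply continuous_const
  have m1 : MemLp (fun x => V x • f x) 2 μ := memLp_bdd_smul hf hV.continuous hC
  have m2 : MemLp (fun x => (fderiv ℝ V x v) • f x + V x • g x) 2 μ :=
    (memLp_bdd_smul hf hVc hC').add (memLp_bdd_smul hg hV.continuous hC)
  have W := h.smooth_smul hV (hf.locallyIntegrable (by norm_num))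
    (hg.locallyIntegrable (by norm_num))
  have key := IsWD.integral_bilin (inB : F →L[ℝ] F →L[ℝ] ℝ) m1 m2 hf hg W h
  simp only [inB_apply, inner_add_left, real_inner_smul_left] at key
  have i0 : Integrable (fun x => ‖f x‖ ^ 2) μ := hf.integrable_norm_pow (by norm_num)
  have i1 : Integrable (fun x => fderiv ℝ V x v * ‖f x‖ ^ 2) μ :=
    i0.bdd_mul hVc.aestronglyMeasurable (Eventually.of_forall fun x => hC' x)
  have i2 : Integrable (fun x => V x ^ 2 * ‖f x‖ ^ 2) μ := by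
    refine i0.bdd_mul (c := C ^ 2) (hV.continuous.pow 2).aestronglyMeasurable
      (Eventually.of_forall fun x => ?_)
    rw [Real.norm_eq_abs, abs_pow]
    exact pow_le_pow_left₀ (abs_nonneg _) (hC x) 2
  have ip : ∀ {u w : E → F}, MemLp u 2 μ → MemLp w 2 μ →
      Integrable (fun x => (inner ℝ (u x) (w x) : ℝ)) μ := fun hu hw =>
    memLp_one_iff_integrable.1 ((inB : F →L[ℝ] F →L[ℝ] ℝ).memLp_of_bilin 1 hu hw)
  have i3 : Integrable (fun x => V x * inner ℝ (g x) (f x)) μ := by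
    have := ip (memLp_bdd_smul hg hV.continuous hC) hf
    simpa only [real_inner_smul_left] using this
  have i4 : Integrable (fun x => V x * inner ℝ (f x) (g x)) μ := by
    have := ip (memLp_bdd_smul hf hV.continuous hC) hg
    simpa only [real_inner_smul_left] using this
  have ig : Integrable (fun x => ‖g x‖ ^ 2) μ := hg.integrable_norm_pow (by norm_num)
  -- integration by parts
  have e1 : ∫ x, fderiv ℝ V x v * ‖f x‖ ^ 2 ∂μ = -2 * ∫ x, V x * inner ℝ (f x) (g x) ∂μ := by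
    have i5 : Integrable (fun x => fderiv ℝ V x v * inner ℝ (f x) (f x)) μ := by
      refine i1.congr (Eventually.of_forall fun x => ?_)
      simp only [real_inner_self_eq_norm_sq]
    rw [integral_add i5 i3] at key
    have e2 : ∫ x, fderiv ℝ V x v * inner ℝ (f x) (f x) ∂μ =
        ∫ x, fderiv ℝ V x v * ‖f x‖ ^ 2 ∂μ := by
      congr 1; funext x
      rw [real_inner_self_eq_norm_sq]
    have e3 : ∫ x, V x * inner ℝ (g x) (f x) ∂μ = ∫ x, V x * inner ℝ (f x) (g x) ∂μ := by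
      congr 1; funext x
      rw [real_inner_comm]
    rw [e2, e3] at key
    linarith
  -- the square
  have e4 : 0 ≤ ∫ x, (‖g x‖ ^ 2 + 2 * (V x * inner ℝ (f x) (g x)) + V x ^ 2 * ‖f x‖ ^ 2) ∂μ := by
    refine integral_nonneg fun x => ?_
    have h1 : ‖g x + V x • f x‖ ^ 2 = ‖g x‖ ^ 2 + 2 * (V x * inner ℝ (f x) (g x)) +
        V x ^ 2 * ‖f x‖ ^ 2 := by
      rw [@norm_add_sq_real, real_inner_smul_right, norm_smul, mul_pow, Real.norm_eq_abs, sq_abs,
        real_inner_comm]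
    show 0 ≤ _
    rw [← h1]
    positivity
  have i6 : Integrable (fun x => ‖g x‖ ^ 2 + 2 * (V x * inner ℝ (f x) (g x))) μ :=
    ig.add (i4.const_mul 2)
  rw [integral_add i6 i2, integral_add ig (i4.const_mul 2), integral_const_mul] at e4
  have e5 : ∫ x, (fderiv ℝ V x v - V x ^ 2) * ‖f x‖ ^ 2 ∂μ =
      ∫ x, fderiv ℝ V x v * ‖f x‖ ^ 2 ∂μ - ∫ x, V x ^ 2 * ‖f x‖ ^ 2 ∂μ := by
    rw [← integral_sub i1 i2]
    congr 1; funext x
    ring
  rw [e5]
  linarith

theorem riccati_int {f : E → F} (hf : MemLp f 2 μ)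
    {V : E → ℝ} (hV : ContDiff ℝ ∞ V) {C : ℝ} (hC : ∀ x, |V x| ≤ C)
    (hC' : ∀ x, |fderiv ℝ V x v| ≤ C) :
    Integrable (fun x => (fderiv ℝ V x v - V x ^ 2) * ‖f x‖ ^ 2) μ := by
  have hVc : Continuous (fun x => fderiv ℝ V x v) :=
    (hV.continuous_fderiv (by simp)).clm_apply continuous_const
  have i0 : Integrable (fun x => ‖f x‖ ^ 2) μ := hf.integrable_norm_pow (by norm_num)
  refine i0.bdd_mul (c := C + C ^ 2) (hVc.sub (hV.continuous.pow 2)).aestronglyMeasurable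
    (Eventually.of_forall fun x => ?_)
  rw [Real.norm_eq_abs]
  refine (abs_sub _ _).trans (add_le_add (hC' x) ?_)
  rw [abs_pow]
  exact pow_le_pow_left₀ (abs_nonneg _) (hC x) 2

/-- **Riccati inequality**, with a lower bound `W` of `div V - |V|²`. -/
theorem riccati (b : Fin 3 → E) {f : E → F} {g : Fin 3 → E → F} (hf : MemLp f 2 μ)
    (hg : ∀ k, MemLp (g k) 2 μ) (h : ∀ k, IsWD μ (b k) f (g k)) {V : Fin 3 → E → ℝ}
    (hV : ∀ k, ContDiff ℝ ∞ (V k)) {C : ℝ} (hC : ∀ k x, |V k x| ≤ C)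
    (hC' : ∀ k x, |fderiv ℝ (V k) x (b k)| ≤ C) {W : E → ℝ}
    (hWi : Integrable (fun x => W x * ‖f x‖ ^ 2) μ)
    (hW : ∀ᵐ x ∂μ, W x ≤ (∑ k, fderiv ℝ (V k) x (b k)) - ∑ k, V k x ^ 2) :
    ∫ x, W x * ‖f x‖ ^ 2 ∂μ ≤ ∑ k, ∫ x, ‖g k x‖ ^ 2 ∂μ := by
  have i1 := fun k => riccati_int (μ := μ) (v := b k) hf (hV k) (hC k) (hC' k)
  calc ∫ x, W x * ‖f x‖ ^ 2 ∂μ
      ≤ ∫ x, ∑ k, (fderiv ℝ (V k) x (b k) - V k x ^ 2) * ‖f x‖ ^ 2 ∂μ := by
        refine integral_mono_ae hWi (integrable_finsetSum _ fun k _ => i1 k) ?_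
        filter_upwards [hW] with x hx
        rw [← Finset.sum_mul, Finset.sum_sub_distrib]
        exact mul_le_mul_of_nonneg_right hx (by positivity)
    _ = ∑ k, ∫ x, (fderiv ℝ (V k) x (b k) - V k x ^ 2) * ‖f x‖ ^ 2 ∂μ :=
        integral_finsetSum _ fun k _ => i1 k
    _ ≤ _ := Finset.sum_le_sum fun k _ => riccati_one hf (hg k) (h k) (hV k) (hC k) (hC' k)

end

end Vale.Agent.P370.H405
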